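import Vale.Agent.P043.MathlibUsed
import Vale.Agent.P043.Eu.Defs

set_option linter.all false

section

section

namespace Vale.Agent.P043

open Classical

/-- The parametrized tile `τ : P → G` is solved by the set `A`. -/
def Solves {G P : Type*} [AddCommGroup G] (A : Set G) (τ : P → G) : Prop :=
  ∀ g : G, ∃! p : P, g - τ p ∈ A

/-- invariance under a finite index subgroup -/
def PerSet {G : Type*} [AddCommGroup G] (A : Set G) : Prop :=
  ∃ Λ : AddSubgroup G, Λ.FiniteIndex ∧ ∀ h ∈ Λ, ∀ a, a + h ∈ A ↔ a ∈ A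

/-- The system `S` has a solution but no periodic solution. -/
def AperSys {G P : Type*} [AddCommGroup G] (S : Set (P → G)) : Prop :=
  (∃ A : Set G, ∀ τ ∈ S, Solves A τ) ∧ ¬ ∃ A : Set G, PerSet A ∧ ∀ τ ∈ S, Solves A τ

end Vale.Agent.P043
end
end

section

section

namespace Vale.Agent.P043

open Classical

/-- counting form of `Solves` -/
theorem solves_iff_card {G P : Type*} [AddCommGroup G] [Fintype P] (A : Set G) (τ : P → G) :
    Solves A τ ↔ ∀ g : G, (Finset.univ.filter (fun p : P => g - τ p ∈ A)).card = 1 := by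
  unfold Solves
  constructor
  · intro h g
    obtain ⟨p, hp, hu⟩ := h g
    rw [Finset.card_eq_one]
    refine ⟨p, ?_⟩
    ext r
    rw [Finset.mem_filter, Finset.mem_singleton]
    exact ⟨fun hr => hu r hr.2, fun hr => ⟨Finset.mem_univ _, by rw [hr]; exact hp⟩⟩
  · intro h g
    obtain ⟨p, hp⟩ := Finset.card_eq_one.1 (h g)
    have h1 : p ∈ Finset.univ.filter (fun p : P => g - τ p ∈ A) := by rw [hp]; simp
    refine ⟨p, (Finset.mem_filter.1 h1).2, fun r hr => ?_⟩
    have h2 : r ∈ Finset.univ.filter (fun p : P => g - τ p ∈ A) :=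
      Finset.mem_filter.2 ⟨Finset.mem_univ _, hr⟩
    rw [hp, Finset.mem_singleton] at h2
    exact h2

/-- the combined tile -/
noncomputable def comb {G P : Type*} [AddCommGroup G] (ι : G →+ G) (e : G) (F1 F2 : P → G) :
    P × Fin 4 → G :=
  fun q => ι (if q.2 = 1 then F2 q.1 else F1 q.1) + (q.2 : ℕ) • e

/-- the number of representations -/
noncomputable def XX {G P : Type*} [AddCommGroup G] [Fintype P] (ι : G →+ G) (A : Set G) (F : P → G)
    (u : G) : ℕ :=
  (Finset.univ.filter (fun p : P => u - ι (F p) ∈ A)).card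

theorem solves_comb_iff {G P : Type*} [AddCommGroup G] [Fintype P] (ι : G →+ G) (e : G) (A : Set G)
    (F1 F2 : P → G) :
    Solves A (comb ι e F1 F2) ↔
      ∀ u : G, XX ι A F1 u + XX ι A F2 (u - e) + XX ι A F1 (u - 2 • e) + XX ι A F1 (u - 3 • e) = 1 := by
  rw [solves_iff_card]
  apply forall_congr'
  intro u
  have h : (Finset.univ.filter (fun q : P × Fin 4 => u - comb ι e F1 F2 q ∈ A)).card =
      XX ι A F1 u + XX ι A F2 (u - e) + XX ι A F1 (u - 2 • e) + XX ι A F1 (u - 3 • e) := by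
    rw [Finset.card_filter, ← Finset.univ_product_univ, Finset.sum_product_right, Fin.sum_univ_four]
    unfold XX
    rw [Finset.card_filter, Finset.card_filter, Finset.card_filter, Finset.card_filter]
    congr 1
    · congr 1
      · congr 1
        · apply Finset.sum_congr rfl
          intro p _
          have : u - comb ι e F1 F2 (p, 0) = u - ι (F1 p) := by
            simp only [comb, Fin.isValue, zero_ne_one, ↓reduceIte, Fin.coe_ofNat_eq_mod, Nat.zero_mod, zero_nsmul, add_zero]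
          rw [this]
        · apply Finset.sum_congr rfl
          intro p _
          have : u - comb ι e F1 F2 (p, 1) = u - e - ι (F2 p) := by
            simp only [comb, Fin.isValue, ↓reduceIte, Fin.coe_ofNat_eq_mod, Nat.one_mod, one_smul]
            abel
          rw [this]
      · apply Finset.sum_congr rfl
        intro p _
        have : u - comb ι e F1 F2 (p, 2) = u - 2 • e - ι (F1 p) := by
          simp only [comb, Fin.isValue, Fin.reduceEq, ↓reduceIte, Fin.coe_ofNat_eq_mod, Nat.reduceMod]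
          abel
        rw [this]
    · apply Finset.sum_congr rfl
      intro p _
      have : u - comb ι e F1 F2 (p, 3) = u - 3 • e - ι (F1 p) := by
        simp only [comb, Fin.isValue, Fin.reduceEq, ↓reduceIte, Fin.coe_ofNat_eq_mod, Nat.mod_succ]
        abel
      rw [this]
  rw [h]

/-- (a) a solution gives a solution of the combined tile -/
theorem solves_comb {G P : Type*} [AddCommGroup G] (ι : G →+ G) (e : G)
    (hdec : ∀ u : G, ∃! q : G × Fin 4, ι q.1 + (q.2 : ℕ) • e = u)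
    {A : Set G} {F1 F2 : P → G} (h1 : Solves A F1) (h2 : Solves A F2) :
    Solves (ι '' A) (comb ι e F1 F2) := by
  intro u
  obtain ⟨⟨g, m⟩, hgm, huniq⟩ := hdec u
  simp only at hgm
  have key : ∀ (p : P) (n : Fin 4), u - comb ι e F1 F2 (p, n) ∈ ι '' A ↔
      n = m ∧ g - (if m = 1 then F2 p else F1 p) ∈ A := by
    intro p n
    constructor
    · rintro ⟨a, ha, hau⟩
      have h3 : ι (a + (if n = 1 then F2 p else F1 p)) + (n : ℕ) • e = u := by
        rw [map_add, hau]
        simp only [comb]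
        abel
      have h4 := huniq (a + (if n = 1 then F2 p else F1 p), n) h3
      rw [Prod.mk.injEq] at h4
      refine ⟨h4.2, ?_⟩
      rw [← h4.2, ← h4.1]
      simpa using ha
    · rintro ⟨rfl, hA⟩
      refine ⟨_, hA, ?_⟩
      rw [map_sub, ← hgm]
      simp only [comb]
      abel
  -- the relevant tile
  have hm : ∃! p : P, g - (if m = 1 then F2 p else F1 p) ∈ A := by
    by_cases hm1 : m = 1
    · simp only [hm1, if_true]; exact h2 g
    · simp only [hm1, if_false]; exact h1 g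
  obtain ⟨p, hp, hpu⟩ := hm
  refine ⟨(p, m), (key p m).2 ⟨rfl, hp⟩, ?_⟩
  rintro ⟨r, n⟩ hr
  obtain ⟨h5, h6⟩ := (key r n).1 hr
  rw [hpu r h6, h5]

/-- periodicity of the counting function, and equality of the counting functions -/
theorem XX_eq {G P : Type*} [AddCommGroup G] [Fintype P] (ι : G →+ G) (A : Set G)
    (hA : PerSet A) (F1 F2 : P → G) (hle : ∀ u, XX ι A F1 u ≤ XX ι A F2 u) (u : G) :
    XX ι A F1 u = XX ι A F2 u := by
  obtain ⟨Λ, hfin, hper⟩ := hA
  haveI : Finite (G ⧸ Λ) := AddSubgroup.finite_quotient_of_finiteIndex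
  haveI : Fintype (G ⧸ Λ) := Fintype.ofFinite _
  let Ab : Set (G ⧸ Λ) := (QuotientAddGroup.mk : G → G ⧸ Λ) '' A
  have hmem : ∀ x : G, ((x : G ⧸ Λ) ∈ Ab) ↔ x ∈ A := by
    intro x
    constructor
    · rintro ⟨a, ha, hax⟩
      have h1 : -a + x ∈ Λ := QuotientAddGroup.eq.1 hax
      have h2 := (hper _ h1 a).2 ha
      simpa only [add_neg_cancel_left] using h2
    · intro hx
      exact ⟨x, hx, rfl⟩
  -- counting functions on the quotient
  have hcount : ∀ (F : P → G) (x : G), XX ι A F x =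
      (Finset.univ.filter (fun p : P => (x : G ⧸ Λ) - ((ι (F p) : G) : G ⧸ Λ) ∈ Ab)).card := by
    intro F x
    unfold XX
    congr 1
    ext p
    rw [Finset.mem_filter, Finset.mem_filter, ← QuotientAddGroup.mk_sub, hmem]
  have hsum : ∀ F : P → G, ∑ q : G ⧸ Λ,
      (Finset.univ.filter (fun p : P => q - ((ι (F p) : G) : G ⧸ Λ) ∈ Ab)).card =
      Fintype.card P * (Finset.univ.filter (fun q : G ⧸ Λ => q ∈ Ab)).card := by
    intro F
    have h1 : ∀ q : G ⧸ Λ, (Finset.univ.filter (fun p : P => q - ((ι (F p) : G) : G ⧸ Λ) ∈ Ab)).card =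
        ∑ p : P, if q - ((ι (F p) : G) : G ⧸ Λ) ∈ Ab then 1 else 0 := by
      intro q; rw [Finset.card_filter]
    simp only [h1]
    rw [Finset.sum_comm]
    have h2 : ∀ p : P, (∑ q : G ⧸ Λ, if q - ((ι (F p) : G) : G ⧸ Λ) ∈ Ab then 1 else 0) =
        (Finset.univ.filter (fun q : G ⧸ Λ => q ∈ Ab)).card := by
      intro p
      rw [Finset.card_filter]
      exact (Equiv.subRight ((ι (F p) : G) : G ⧸ Λ)).sum_comp (fun q => if q ∈ Ab then 1 else 0)
    rw [Finset.sum_congr rfl (fun p _ => h2 p), Finset.sum_const, Finset.card_univ, smul_eq_mul]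
  have hle' : ∀ q ∈ (Finset.univ : Finset (G ⧸ Λ)),
      (Finset.univ.filter (fun p : P => q - ((ι (F1 p) : G) : G ⧸ Λ) ∈ Ab)).card ≤
      (Finset.univ.filter (fun p : P => q - ((ι (F2 p) : G) : G ⧸ Λ) ∈ Ab)).card := by
    intro q _
    obtain ⟨x, rfl⟩ := QuotientAddGroup.mk_surjective q
    rw [← hcount, ← hcount]
    exact hle x
  have heq := (Finset.sum_eq_sum_iff_of_le hle').1 (by rw [hsum, hsum])
  have := heq (u : G ⧸ Λ) (Finset.mem_univ _)
  rw [← hcount, ← hcount] at this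
  exact this

/-- (b) a periodic solution of the combined tile solves both pure combinations. -/
theorem comb_split {G P : Type*} [AddCommGroup G] [Fintype P] (ι : G →+ G) (e : G) (A : Set G)
    (hA : PerSet A) (F1 F2 : P → G) (h : Solves A (comb ι e F1 F2)) :
    Solves A (comb ι e F1 F1) ∧ Solves A (comb ι e F2 F2) := by
  rw [solves_comb_iff] at h
  have hle : ∀ u, XX ι A F1 u ≤ XX ι A F2 u := by
    intro u
    have hu := h u
    by_contra hcon
    push Not at hcon
    have h0 : XX ι A F2 u = 0 := by omega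
    have h1 : 1 ≤ XX ι A F1 u := by omega
    have e1 := h (u + e)
    have a1 : u + e - e = u := by abel
    have a2 : u + e - 2 • e = u - e := by abel
    have a3 : u + e - 3 • e = u - 2 • e := by abel
    rw [a1, a2, a3, h0] at e1
    -- three cases
    have e2 := h (u + 3 • e)
    have b1 : u + 3 • e - e = u + 2 • e := by abel
    have b2 : u + 3 • e - 2 • e = u + e := by abel
    have b3 : u + 3 • e - 3 • e = u := by abel
    rw [b1, b2, b3] at e2
    have e3 := h (u + 2 • e)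
    have c1 : u + 2 • e - e = u + e := by abel
    have c2 : u + 2 • e - 2 • e = u := by abel
    have c3 : u + 2 • e - 3 • e = u - e := by abel
    rw [c1, c2, c3] at e3
    omega
  have heq := XX_eq ι A hA F1 F2 hle
  have hF : XX ι A F1 = XX ι A F2 := funext heq
  constructor
  · rw [solves_comb_iff]
    intro u
    have := h u
    rw [← hF] at this
    exact this
  · rw [solves_comb_iff]
    intro u
    have := h u
    rw [hF] at this
    exact this

/-- (c) pulling back -/
theorem comb_pull {G P : Type*} [AddCommGroup G] (ι : G →+ G) (e : G) (A : Set G)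
    (F : P → G) (h : Solves A (comb ι e F F)) :
    Solves {g : G | ∃ n : Fin 4, ι g - (n : ℕ) • e ∈ A} F := by
  intro g
  obtain ⟨⟨p, n⟩, hp, hu⟩ := h (ι g)
  have hform : ∀ (r : P) (k : Fin 4), ι g - comb ι e F F (r, k) = ι (g - F r) - (k : ℕ) • e := by
    intro r k
    simp only [comb, ite_self, map_sub]
    abel
  simp only [hform] at hp
  refine ⟨p, ⟨n, hp⟩, ?_⟩
  rintro r ⟨k, hk⟩
  have := hu (r, k) (by simp only [hform]; exact hk)
  exact congrArg Prod.fst this

theorem perSet_pull {G : Type*} [AddCommGroup G] (ι : G →+ G) (e : G) (A : Set G) (hA : PerSet A) :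
    PerSet {g : G | ∃ n : Fin 4, ι g - (n : ℕ) • e ∈ A} := by
  obtain ⟨Λ, hfin, hper⟩ := hA
  refine ⟨Λ.comap ι, ?_, ?_⟩
  · constructor
    have h1 := AddSubgroup.index_comap Λ ι
    rw [h1]
    intro h0
    have h2 : Λ.relIndex ι.range ∣ Λ.index := AddSubgroup.relIndex_dvd_index_of_normal Λ ι.range
    rw [h0] at h2
    exact hfin.index_ne_zero (Nat.eq_zero_of_zero_dvd h2)
  · intro h hh a
    rw [AddSubgroup.mem_comap] at hh
    simp only [Set.mem_ofPred_eq]
    apply exists_congr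
    intro n
    have : ι (a + h) - (n : ℕ) • e = (ι a - (n : ℕ) • e) + ι h := by
      rw [map_add]; abel
    rw [this]
    exact hper _ hh _

/-- Lemma 1. A finite aperiodic system of tiles gives a single aperiodic tile. -/
theorem single_of_system {G : Type} [AddCommGroup G] (ι : G →+ G) (e : G)
    (hdec : ∀ u : G, ∃! q : G × Fin 4, ι q.1 + (q.2 : ℕ) • e = u)
    {P : Type} [Finite P] (S : Set (P → G)) (hfin : S.Finite) (hne : S.Nonempty)
    (hS : AperSys S) :
    ∃ (P' : Type) (_ : Finite P') (τ : P' → G), AperSys {τ} := by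
  -- the list version
  have main : ∀ (n : ℕ) (P : Type) (_ : Finite P) (l : List (P → G)), l.length = n + 1 →
      AperSys {τ | τ ∈ l} → ∃ (P' : Type) (_ : Finite P') (τ : P' → G), AperSys {τ} := by
    intro n
    induction n with
    | zero =>
      intro P hP l hl hS
      obtain ⟨F, rfl⟩ := List.length_eq_one_iff.1 (by simpa using hl)
      refine ⟨P, hP, F, ?_⟩
      have : ({τ | τ ∈ [F]} : Set (P → G)) = {F} := by
        ext τ; simp
      rwa [this] at hS
    | succ n ih =>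
      intro P hP l hl hS
      haveI : Fintype P := Fintype.ofFinite P
      match l, hl with
      | F1 :: F2 :: rest, hl =>
        apply ih (P × Fin 4) inferInstance
          (comb ι e F1 F2 :: rest.map (fun F => comb ι e F F)) (by simpa using hl)
        obtain ⟨⟨A, hAs⟩, hno⟩ := hS
        constructor
        · refine ⟨ι '' A, ?_⟩
          intro τ hτ
          rw [Set.mem_ofPred_eq, List.mem_cons, List.mem_map] at hτ
          rcases hτ with rfl | ⟨F, hF, rfl⟩
          · exact solves_comb ι e hdec (hAs F1 (by simp)) (hAs F2 (by simp))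
          · have : Solves A F := hAs F (by simp [hF])
            exact solves_comb ι e hdec this this
        · rintro ⟨B, hB, hBs⟩
          apply hno
          refine ⟨{g : G | ∃ n : Fin 4, ι g - (n : ℕ) • e ∈ B}, perSet_pull ι e B hB, ?_⟩
          have h12 := comb_split ι e B hB F1 F2 (hBs _ (by simp only [List.mem_cons, List.mem_map, Set.mem_ofPred_eq, true_or]))
          intro τ hτ
          rw [Set.mem_ofPred_eq, List.mem_cons, List.mem_cons] at hτ
          rcases hτ with rfl | rfl | hτ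
          · exact comb_pull ι e B _ h12.1
          · exact comb_pull ι e B _ h12.2
          · apply comb_pull ι e B
            apply hBs
            rw [Set.mem_ofPred_eq, List.mem_cons, List.mem_map]
            exact Or.inr ⟨τ, hτ, rfl⟩
  -- from the set to a list
  have hl : ({τ | τ ∈ hfin.toFinset.toList} : Set (P → G)) = S := by
    ext τ; simp only [Finset.mem_toList, Set.Finite.mem_toFinset, Set.ofPred_mem_eq]
  have hlen : hfin.toFinset.toList.length ≠ 0 := by
    rw [Finset.length_toList]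
    have : hfin.toFinset.Nonempty := by simpa only [Set.Finite.toFinset_nonempty] using hne
    exact Finset.card_ne_zero.2 this
  obtain ⟨n, hn⟩ := Nat.exists_eq_succ_of_ne_zero hlen
  exact main n P inferInstance hfin.toFinset.toList hn (by rw [hl]; exact hS)

end Vale.Agent.P043
end
end

section

section

namespace Vale.Agent.P043

open Classical

/-- A block: a finite group with a base complement `c`, two kinds of slices and a clause gadget. -/
structure Blk (H Q : Type) [AddCommGroup H] where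
  c : Q → H
  good : H → Prop
  V : Bool → Set H → Prop
  Sg : Set Q
  s : Bool → H
  q0 : Q
  c_q0 : c q0 = 0
  solv : ∀ b X, V b X → ∀ h, ∃! q, h - c q ∈ X
  alt : ∀ δ, ¬ good δ → ∃ (c' : Q → H) (q1 q2 : Q), q1 ≠ q2 ∧ c' q1 = δ ∧ c' q2 = 0 ∧
    ∀ b X, V b X → ∀ h, ∃! q, h - c' q ∈ X
  good_c : ∀ q, good (c q) → c q = 0
  cls : ∀ X : Set H, (∀ h, ∃! q, h - c q ∈ X) → (∀ x ∈ X, ∀ y ∈ X, good (x - y)) → ∃ b, V b X
  noncst : ∀ b X, V b X → ∃ h q q', h - c q ∈ X ∧ h - s b - c q' ∈ X ∧ q ∈ Sg ∧ q' ∉ Sg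
  cst : ∀ b X, V b X → ∀ h q q', h - c q ∈ X → h - s (!b) - c q' ∈ X → (q ∈ Sg ↔ q' ∈ Sg)

theorem Blk.excl {H Q : Type} [AddCommGroup H] (B : Blk H Q) {b b' : Bool} {X : Set H}
    (h : B.V b X) (h' : B.V b' X) : b = b' := by
  by_contra hne
  have hb : b' = !b := by revert hne; cases b <;> cases b' <;> simp
  subst hb
  obtain ⟨g, q, q', h1, h2, h3, h4⟩ := B.noncst b X h
  have := B.cst (!b) X h' g q q' h1 (by simpa only [Bool.not_not] using h2)
  exact h4 (this.mp h3)

theorem Blk.nonempty {H Q : Type} [AddCommGroup H] (B : Blk H Q) {b : Bool} {X : Set H}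
    (h : B.V b X) : X.Nonempty := by
  obtain ⟨q, hq, _⟩ := B.solv b X h 0
  exact ⟨_, hq⟩

section

variable {Z : Type} [AddCommGroup Z] {K : Type} {H Q : K → Type} [∀ κ, AddCommGroup (H κ)]
  (B : ∀ κ, Blk (H κ) (Q κ))

/-- the base tile -/
def T0 : (∀ κ, Q κ) → Z × (∀ κ, H κ) := fun q => (0, fun κ => (B κ).c (q κ))

/-- triangular tiles with root `κ₀` -/
noncomputable def tri (κ₀ : K) (z : Q κ₀ → Z) (c' : Q κ₀ → H κ₀) (off : Q κ₀ → ∀ κ, H κ) :
    (∀ κ, Q κ) → Z × (∀ κ, H κ) :=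
  fun q => (z (q κ₀), Function.update (fun κ => (B κ).c (q κ) + off (q κ₀) κ) κ₀ (c' (q κ₀)))

/-- clause tile -/
noncomputable def cl (nxt : K → K) (ω : K → Bool) : (∀ κ, Q κ) → Z × (∀ κ, H κ) :=
  fun q => (0, fun κ => (B κ).c (q κ) + if q (nxt κ) ∈ (B (nxt κ)).Sg then 0 else (B κ).s (ω κ))

/-- `A` is a product set with slices `X` -/
def IsProd (A : Set (Z × ∀ κ, H κ)) (X : Z → ∀ κ, Set (H κ)) : Prop :=
  ∀ x g, (x, g) ∈ A ↔ ∀ κ, g κ ∈ X x κ

theorem existsUnique_root {κ₀ : K} (R0 : Q κ₀ → Prop) (R : Q κ₀ → ∀ κ, Q κ → Prop)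
    (hR : ∀ a κ, κ ≠ κ₀ → ∃! b, R a κ b) :
    (∃! q : ∀ κ, Q κ, R0 (q κ₀) ∧ ∀ κ, κ ≠ κ₀ → R (q κ₀) κ (q κ)) ↔ ∃! a, R0 a := by
  have hex : ∀ a : Q κ₀, ∃ q : ∀ κ, Q κ, q κ₀ = a ∧ ∀ κ, κ ≠ κ₀ → R a κ (q κ) := by
    intro a
    have : ∀ κ, ∃ b : Q κ, (κ ≠ κ₀ → R a κ b) ∧ (∀ h : κ = κ₀, h ▸ b = a) := by
      intro κ
      by_cases h : κ = κ₀
      · subst h
        exact ⟨a, fun h => absurd rfl h, fun _ => rfl⟩
      · obtain ⟨b, hb, _⟩ := hR a κ h
        exact ⟨b, fun _ => hb, fun h' => absurd h' h⟩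
    choose q hq using this
    exact ⟨q, (hq κ₀).2 rfl, fun κ hκ => (hq κ).1 hκ⟩
  constructor
  · rintro ⟨q, ⟨hq0, hq⟩, huq⟩
    refine ⟨q κ₀, hq0, fun a ha => ?_⟩
    obtain ⟨q', rfl, hq'⟩ := hex a
    have := huq q' ⟨ha, hq'⟩
    rw [this]
  · rintro ⟨a, ha, hua⟩
    obtain ⟨q, rfl, hq⟩ := hex a
    refine ⟨q, ⟨ha, hq⟩, ?_⟩
    rintro q' ⟨hq0', hq'⟩
    have h0 : q' κ₀ = q κ₀ := hua _ hq0'
    funext κ
    by_cases h : κ = κ₀
    · subst h; exact h0
    · obtain ⟨b, _, hub⟩ := hR (q κ₀) κ h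
      rw [hub _ (hq κ h), hub (q' κ) (by rw [← h0]; exact hq' κ h)]

theorem tri_solves {A : Set (Z × ∀ κ, H κ)} {X : Z → ∀ κ, Set (H κ)} (hA : IsProd A X)
    (hX : ∀ x κ h, ∃! q, h - (B κ).c q ∈ X x κ)
    (κ₀ : K) (z : Q κ₀ → Z) (c' : Q κ₀ → H κ₀) (off : Q κ₀ → ∀ κ, H κ) :
    Solves A (tri B κ₀ z c' off) ↔ ∀ x (h : H κ₀), ∃! a : Q κ₀, h - c' a ∈ X (x - z a) κ₀ := by
  have key : ∀ (x : Z) (g : ∀ κ, H κ), (∃! q, (x, g) - tri B κ₀ z c' off q ∈ A) ↔
      ∃! a : Q κ₀, g κ₀ - c' a ∈ X (x - z a) κ₀ := by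
    intro x g
    rw [← existsUnique_root (κ₀ := κ₀) (fun a => g κ₀ - c' a ∈ X (x - z a) κ₀)
      (fun a κ b => g κ - (B κ).c b - off a κ ∈ X (x - z a) κ)]
    · apply existsUnique_congr
      intro q
      have : (x, g) - tri B κ₀ z c' off q = (x - z (q κ₀), g - Function.update
        (fun κ => (B κ).c (q κ) + off (q κ₀) κ) κ₀ (c' (q κ₀))) := rfl
      rw [this, hA]
      constructor
      · intro h
        refine ⟨?_, fun κ hκ => ?_⟩
        · have := h κ₀
          rwa [Pi.sub_apply, Function.update_self] at this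
        · have := h κ
          rw [Pi.sub_apply, Function.update_of_ne hκ] at this
          rwa [sub_sub]
      · rintro ⟨h0, h⟩ κ
        by_cases hκ : κ = κ₀
        · subst hκ
          rwa [Pi.sub_apply, Function.update_self]
        · rw [Pi.sub_apply, Function.update_of_ne hκ]
          have := h κ hκ
          rwa [sub_sub] at this
    · intro a κ _
      obtain ⟨q, hq, hu⟩ := hX (x - z a) κ (g κ - off a κ)
      refine ⟨q, by simpa only [sub_right_comm] using hq, fun q' hq' => hu q' ?_⟩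
      simpa only [sub_right_comm] using hq'
  constructor
  · intro hS x h
    have := (key x (Function.update 0 κ₀ h)).mp (hS _)
    rwa [Function.update_self] at this
  · rintro h ⟨x, g⟩
    exact (key x g).mpr (h x (g κ₀))

theorem T0_solves {A : Set (Z × ∀ κ, H κ)} {X : Z → ∀ κ, Set (H κ)} (hA : IsProd A X)
    (hX : ∀ x κ h, ∃! q, h - (B κ).c q ∈ X x κ) : Solves A (T0 B) := by
  rintro ⟨x, g⟩
  have hX' := fun κ => hX x κ (g κ)
  choose q hq hu using hX'
  have e : ∀ q' : ∀ κ, Q κ, (x, g) - T0 B q' = (x, g - fun κ => (B κ).c (q' κ)) := by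
    intro q'
    ext
    · simp only [T0, Prod.mk_sub_mk, sub_zero]
    · rfl
  refine ⟨q, ?_, fun q' hq' => ?_⟩
  · show _ ∈ A
    rw [e, hA]
    exact hq
  · beta_reduce at hq'
    rw [e, hA] at hq'
    funext κ
    exact hu κ _ (hq' κ)

/-- the set of tiles given by alternative complements -/
def S1 : Set ((∀ κ, Q κ) → Z × (∀ κ, H κ)) :=
  {τ | ∃ (κ₀ : K) (c' : Q κ₀ → H κ₀) (q1 : Q κ₀) (δ : ∀ κ, H κ),
    (∀ b X, (B κ₀).V b X → ∀ h, ∃! q, h - c' q ∈ X) ∧
    τ = tri B κ₀ 0 c' (fun a => if a = q1 then δ else 0)}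

theorem S1_solves {A : Set (Z × ∀ κ, H κ)} {X : Z → ∀ κ, Set (H κ)} {b : Z → K → Bool}
    (hA : IsProd A X) (hV : ∀ x κ, (B κ).V (b x κ) (X x κ)) :
    ∀ τ ∈ S1 (Z := Z) B, Solves A τ := by
  rintro τ ⟨κ₀, c', q1, δ, hc', rfl⟩
  rw [tri_solves B hA (fun x κ h => (B κ).solv _ _ (hV x κ) h)]
  intro x h
  have := hc' _ _ (hV x κ₀) h
  simpa only [Pi.zero_apply, sub_zero] using this

theorem structure_thm {A : Set (Z × ∀ κ, H κ)} (h0 : Solves A (T0 B))
    (h1 : ∀ τ ∈ S1 (Z := Z) B, Solves A τ) :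
    ∃ (X : Z → ∀ κ, Set (H κ)) (b : Z → K → Bool), IsProd A X ∧
      ∀ x κ, (B κ).V (b x κ) (X x κ) := by
  let X : Z → ∀ κ, Set (H κ) := fun x κ => {u | ∃ g, (x, g) ∈ A ∧ g κ = u}
  -- differences are good
  have hgood : ∀ x g g', (x, g) ∈ A → (x, g') ∈ A → ∀ κ, (B κ).good (g κ - g' κ) := by
    intro x g g' hg hg' κ₀
    by_contra hbad
    obtain ⟨c', q1, q2, hne, e1, e2, hV⟩ := (B κ₀).alt _ hbad
    have hs := h1 _ ⟨κ₀, c', q1, g - g', hV, rfl⟩ (x, g)
    have t1 : tri B κ₀ (0 : Q κ₀ → Z) c' (fun a => if a = q1 then g - g' else 0)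
        (Function.update (fun κ => (B κ).q0) κ₀ q1) = (0, g - g') := by
      unfold tri
      rw [Function.update_self]
      refine Prod.ext rfl ?_
      funext κ
      by_cases hκ : κ = κ₀
      · subst hκ
        simp [e1]
      · simp only [Function.update_of_ne hκ, (B κ).c_q0]
        simp
    have t2 : tri B κ₀ (0 : Q κ₀ → Z) c' (fun a => if a = q1 then g - g' else 0)
        (Function.update (fun κ => (B κ).q0) κ₀ q2) = (0, 0) := by
      unfold tri
      rw [Function.update_self]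
      refine Prod.ext rfl ?_
      funext κ
      by_cases hκ : κ = κ₀
      · subst hκ
        simp only [e2, Function.update_self, Pi.zero_apply]
      · simp only [Function.update_of_ne hκ, (B κ).c_q0]
        simp [hne.symm]
    have := hs.unique (y₁ := Function.update (fun κ => (B κ).q0) κ₀ q1)
      (y₂ := Function.update (fun κ => (B κ).q0) κ₀ q2)
      (by rw [t1]; simpa using hg') (by rw [t2]; simpa using hg)
    have := congrFun this κ₀
    rw [Function.update_self, Function.update_self] at this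
    exact hne this
  have e0 : ∀ x g (q' : ∀ κ, Q κ), ((x, g) : Z × ∀ κ, H κ) - T0 B q' =
      (x, g - fun κ => (B κ).c (q' κ)) := by
    intro x g q'
    ext
    · simp [T0]
    · rfl
  have hprod : IsProd A X := by
    intro x g
    constructor
    · intro hg κ
      exact ⟨g, hg, rfl⟩
    · intro hg
      obtain ⟨q, hq, _⟩ := h0 (x, g)
      rw [e0] at hq
      have : (g - fun κ => (B κ).c (q κ)) = g := by
        funext κ
        obtain ⟨g', hg', he⟩ := hg κ
        have := hgood x g' _ hg' hq κ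
        rw [he, Pi.sub_apply, sub_sub_cancel] at this
        rw [Pi.sub_apply, (B κ).good_c _ this, sub_zero]
      rwa [this] at hq
  have hne : ∀ x, ∃ a, (x, a) ∈ A := by
    intro x
    obtain ⟨q, hq, _⟩ := h0 (x, 0)
    rw [e0] at hq
    exact ⟨_, hq⟩
  have hsolv : ∀ x κ h, ∃! q, h - (B κ).c q ∈ X x κ := by
    intro x κ h
    obtain ⟨a, ha⟩ := hne x
    have hmem : ∀ u ∈ X x κ, (x, Function.update a κ u) ∈ A := by
      intro u hu
      rw [hprod]
      intro κ'
      by_cases hκ : κ' = κ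
      · subst hκ; rwa [Function.update_self]
      · rw [Function.update_of_ne hκ]; exact ⟨a, ha, rfl⟩
    obtain ⟨q, hq, hu⟩ := h0 (x, Function.update a κ h)
    rw [e0] at hq
    refine ⟨q κ, ⟨_, hq, ?_⟩, ?_⟩
    · rw [Pi.sub_apply, Function.update_self]
    · intro q' hq'
      have h2 : ∀ q'' : Q κ, h - (B κ).c q'' ∈ X x κ →
          Function.update (fun κ => (B κ).q0) κ q'' = q := by
        intro q'' hq''
        apply hu
        rw [e0]
        have := hmem _ hq''
        convert this using 2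
        funext κ'
        by_cases hκ : κ' = κ
        · subst hκ; simp
        · simp [Function.update_of_ne hκ, (B κ').c_q0]
      have h3 := h2 q' hq'
      rw [← h3, Function.update_self]
  have hcls : ∀ x κ, ∃ b, (B κ).V b (X x κ) := by
    intro x κ
    apply (B κ).cls _ (hsolv x κ)
    rintro u ⟨g, hg, rfl⟩ v ⟨g', hg', rfl⟩
    exact hgood x g g' hg hg' κ
  choose b hb using hcls
  exact ⟨X, b, hprod, hb⟩

theorem cl_solves {A : Set (Z × ∀ κ, H κ)} {X : Z → ∀ κ, Set (H κ)} {b : Z → K → Bool}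
    (hA : IsProd A X) (hV : ∀ x κ, (B κ).V (b x κ) (X x κ)) [Nonempty K]
    (nxt : K → K) (hnxt : ∀ κ κ', ∃ n, nxt^[n] κ = κ') (ω : K → Bool) :
    Solves A (cl B nxt ω) ↔ ∀ x, b x ≠ ω := by
  have e : ∀ x g (q' : ∀ κ, Q κ), ((x, g) : Z × ∀ κ, H κ) - cl B nxt ω q' ∈ A ↔
      ∀ κ, g κ - (B κ).c (q' κ) - (if q' (nxt κ) ∈ (B (nxt κ)).Sg then 0 else (B κ).s (ω κ)) ∈
        X x κ := by
    intro x g q'
    have : ((x, g) : Z × ∀ κ, H κ) - cl B nxt ω q' = (x, g - fun κ => (B κ).c (q' κ) +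
      if q' (nxt κ) ∈ (B (nxt κ)).Sg then 0 else (B κ).s (ω κ)) := by
      ext
      · simp [cl]
      · rfl
    rw [this, hA]
    simp only [Pi.sub_apply, sub_sub]
  constructor
  · rintro hS x rfl
    have hh := fun κ => (B κ).noncst _ _ (hV x κ)
    choose h q q' h1 h2 h3 h4 using hh
    have := (hS (x, h)).unique (y₁ := q) (y₂ := q')
      (by rw [e]; intro κ; rw [if_pos (h3 _), sub_zero]; exact h1 κ)
      (by rw [e]; intro κ; rw [if_neg (h4 _), sub_right_comm]; exact h2 κ)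
    obtain ⟨κ⟩ := ‹Nonempty K›
    have hk := congrFun this κ
    have h3' := h3 κ
    rw [hk] at h3'
    exact h4 κ h3'
  · rintro hne ⟨x, g⟩
    obtain ⟨κ₁, hκ₁⟩ : ∃ κ, b x κ ≠ ω κ := by
      by_contra hcon
      apply hne x
      funext κ
      by_contra h
      exact hcon ⟨κ, h⟩
    have hω : ω κ₁ = !(b x κ₁) := by
      revert hκ₁
      cases ω κ₁ <;> cases b x κ₁ <;> simp
    -- the unique choice maps
    have hπ : ∀ κ (t : Bool), ∃! q, g κ - (B κ).c q - (if t = true then 0 else (B κ).s (ω κ)) ∈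
        X x κ := by
      intro κ t
      obtain ⟨q, hq, hu⟩ := (B κ).solv _ _ (hV x κ) (g κ - (if t = true then 0 else (B κ).s (ω κ)))
      refine ⟨q, by simpa only [sub_right_comm] using hq, fun q' hq' => hu q' ?_⟩
      simpa only [sub_right_comm] using hq'
    choose π hπ1 hπ2 using hπ
    let φ : K → Bool → Bool := fun κ t => decide (π κ t ∈ (B κ).Sg)
    have hconst : ∀ t, φ κ₁ t = φ κ₁ true := by
      intro t
      cases t
      · have h1 := hπ1 κ₁ true
        have h2 := hπ1 κ₁ false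
        simp only [if_true, sub_zero] at h1
        simp only [Bool.false_eq_true, if_false] at h2
        rw [hω, sub_right_comm] at h2
        have := (B κ₁).cst _ _ (hV x κ₁) (g κ₁) _ _ h1 h2
        show decide _ = decide _
        rw [decide_eq_decide]
        exact this.symm
      · rfl
    -- distance to κ₁
    have hd : ∀ κ, ∃ n, nxt^[n] κ = κ₁ := fun κ => hnxt κ κ₁
    let d : K → ℕ := fun κ => Nat.find (hd κ)
    have hd0 : ∀ κ, d κ = 0 → κ = κ₁ := by
      intro κ h
      have := Nat.find_spec (hd κ)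
      rw [show Nat.find (hd κ) = 0 from h] at this
      exact this
    have hd1 : d κ₁ = 0 := by
      show Nat.find (hd κ₁) = 0
      rw [Nat.find_eq_zero]
      rfl
    have hds : ∀ κ n, d κ = n + 1 → d (nxt κ) = n := by
      intro κ n h
      have h1 := Nat.find_spec (hd κ)
      rw [show Nat.find (hd κ) = n + 1 from h, Function.iterate_succ_apply] at h1
      apply le_antisymm
      · exact Nat.find_min' (hd (nxt κ)) h1
      · by_contra hlt
        rw [not_le] at hlt
        have h2 := Nat.find_spec (hd (nxt κ))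
        rw [← Function.iterate_succ_apply] at h2
        have h3 := Nat.find_min' (hd κ) h2
        have h4 : Nat.find (hd κ) = n + 1 := h
        have h5 : Nat.find (hd (nxt κ)) < n := hlt
        (clear * - hd h3 h4 h5; omega)
    let F : ℕ → K → Bool := fun n => Nat.rec (fun _ => φ κ₁ true) (fun _ G κ => φ κ (G (nxt κ))) n
    let t : K → Bool := fun κ => F (d κ) κ
    have ht : ∀ κ, t κ = φ κ (t (nxt κ)) := by
      intro κ
      rcases hdk : d κ with _ | n
      · have := hd0 κ hdk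
        subst this
        show F (d κ) κ = _
        rw [hdk, hconst (t (nxt κ))]
        rfl
      · show F (d κ) κ = φ κ (F (d (nxt κ)) (nxt κ))
        rw [hdk, hds κ n hdk]
    have htu : ∀ t' : K → Bool, (∀ κ, t' κ = φ κ (t' (nxt κ))) → ∀ n κ, d κ = n → t' κ = t κ := by
      intro t' ht' n
      induction n with
      | zero =>
        intro κ hκ
        have := hd0 κ hκ
        subst this
        rw [ht' κ, ht κ, hconst (t' (nxt κ)), hconst (t (nxt κ))]
      | succ n ih =>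
        intro κ hκ
        rw [ht' κ, ht κ, ih _ (hds κ n hκ)]
    refine ⟨fun κ => π κ (t (nxt κ)), ?_, ?_⟩
    · show _ ∈ A
      rw [e]
      intro κ
      have h1 := hπ1 κ (t (nxt κ))
      have h2 : (t (nxt κ) = true) ↔ π (nxt κ) (t (nxt (nxt κ))) ∈ (B (nxt κ)).Sg := by
        rw [ht (nxt κ)]
        exact decide_eq_true_iff
      beta_reduce at h1 ⊢
      rcases Classical.em (t (nxt κ) = true) with hh | hh
      · rw [if_pos hh] at h1
        rw [if_pos (h2.mp hh)]
        exact h1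
      · rw [if_neg hh] at h1
        rw [if_neg (fun h => hh (h2.mpr h))]
        exact h1
    · intro q' hq'
      beta_reduce at hq'
      rw [e] at hq'
      let t' : K → Bool := fun κ => decide (q' κ ∈ (B κ).Sg)
      have hq'' : ∀ κ, q' κ = π κ (t' (nxt κ)) := by
        intro κ
        apply hπ2 κ (t' (nxt κ))
        have h1 := hq' κ
        have h2 : (t' (nxt κ) = true) ↔ q' (nxt κ) ∈ (B (nxt κ)).Sg := decide_eq_true_iff
        beta_reduce
        rcases Classical.em (t' (nxt κ) = true) with hh | hh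
        · rw [if_pos (h2.mp hh)] at h1
          rw [if_pos hh]
          exact h1
        · rw [if_neg (fun h => hh (h2.mpr h))] at h1
          rw [if_neg hh]
          exact h1
      have ht' : ∀ κ, t' κ = φ κ (t' (nxt κ)) := by
        intro κ
        show decide _ = decide _
        rw [← hq'' κ]
      have := fun κ => htu t' ht' (d κ) κ rfl
      funext κ
      rw [hq'' κ, this]

end

end Vale.Agent.P043
end
end

section

section

/-!
# The rigid fundamental domain
-/

namespace Vale.Agent.P043.Eu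

open MeasureTheory

variable {d : ℕ}

/-- unit vectors -/
noncomputable def ev (j : Fin d) : Fin d → ℝ := Pi.single j 1

/-- unit cube `[0,1)^d` -/
def C (d : ℕ) : Set (Fin d → ℝ) := {x | ∀ i, 0 ≤ x i ∧ x i < 1}

/-- corner of the `j`-th small box -/
noncomputable def cor (j : Fin d) : Fin d → ℝ := fun i => if i = j then 1 / 4 else 1 / 2

/-- the `j`-th small box, side `1/8` -/
def Q (j : Fin d) : Set (Fin d → ℝ) := {x | ∀ i, cor j i ≤ x i ∧ x i < cor j i + 1 / 8}

/-- the rigid fundamental domain: the small box `Q j` is moved by `e_j` -/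
def Rg (d : ℕ) : Set (Fin d → ℝ) := {x | (x ∈ C d ∧ ∀ j, x ∉ Q j) ∨ ∃ j, x - ev j ∈ Q j}

/-- `1`-separated sets in the sup norm -/
def Sep (A : Set (Fin d → ℝ)) : Prop := ∀ a ∈ A, ∀ b ∈ A, a ≠ b → ∃ i, 1 ≤ |a i - b i|

/-- integer vectors as real vectors -/
def iv (z : Fin d → ℤ) : Fin d → ℝ := fun i => (z i : ℝ)

theorem Q_subset_C (j : Fin d) : Q j ⊆ C d := by
  intro x hx i
  have := hx i
  unfold cor at this
  split_ifs at this <;> constructor <;> linarith only [this]

end Vale.Agent.P043.Eu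
end
end

section

section

namespace Vale.Agent.P043.Eu

open MeasureTheory

variable {d : ℕ}

theorem basic_mem_C_iff (x : Fin d → ℝ) (z : Fin d → ℤ) :
    x - iv z ∈ C d ↔ z = fun i => ⌊x i⌋ := by
  constructor
  · intro h
    funext i
    have h1 := h i
    simp only [Pi.sub_apply, iv] at h1
    symm
    rw [Int.floor_eq_iff]
    constructor <;> linarith only [h1]
  · rintro rfl i
    simp only [Pi.sub_apply, iv]
    constructor
    · linarith only [Int.floor_le (x i)]
    · linarith [Int.lt_floor_add_one (x i)]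

theorem basic_Q_disjoint {i j : Fin d} {x : Fin d → ℝ} (hi : x ∈ Q i) (hj : x ∈ Q j) : i = j := by
  by_contra hne
  have h1 := hi i
  have h2 := hj i
  unfold cor at h1 h2
  rw [if_pos rfl] at h1
  rw [if_neg hne] at h2
  linarith [h1.1, h1.2, h2.1, h2.2]

theorem basic_sub_shift (x : Fin d → ℝ) (z : Fin d → ℤ) (j : Fin d) :
    x - iv z - ev j = x - iv (z + Pi.single j 1) := by
  funext i
  simp only [Pi.sub_apply, iv, ev, Pi.add_apply]
  by_cases h : i = j
  · subst h
    simp only [Pi.single_eq_same, Int.cast_add, Int.cast_one]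
    ring
  · simp only [Pi.single_eq_of_ne h, sub_zero, add_zero]

/-- `Rg d` is a fundamental domain for `ℤ^d` -/
theorem Rg_fund (x : Fin d → ℝ) : ∃! z : Fin d → ℤ, x - iv z ∈ Rg d := by
  set z0 : Fin d → ℤ := fun i => ⌊x i⌋ with hz0
  have hC0 : x - iv z0 ∈ C d := (basic_mem_C_iff x z0).mpr rfl
  by_cases hQ : ∃ j, x - iv z0 ∈ Q j
  · obtain ⟨j0, hj0⟩ := hQ
    refine ⟨z0 - Pi.single j0 1, ?_, ?_⟩
    · refine Or.inr ⟨j0, ?_⟩
      rw [basic_sub_shift, sub_add_cancel]
      exact hj0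
    · rintro z (⟨hzC, hzQ⟩ | ⟨j, hj⟩)
      · have : z = z0 := (basic_mem_C_iff x z).mp hzC
        rw [this] at hzQ
        exact absurd hj0 (hzQ j0)
      · rw [basic_sub_shift] at hj
        have h1 : z + Pi.single j 1 = z0 := (basic_mem_C_iff x _).mp (Q_subset_C j hj)
        rw [h1] at hj
        have h2 := basic_Q_disjoint hj hj0
        rw [← h1, h2, add_sub_cancel_right]
  · push Not at hQ
    refine ⟨z0, Or.inl ⟨hC0, hQ⟩, ?_⟩
    rintro z (⟨hzC, hzQ⟩ | ⟨j, hj⟩)
    · exact (basic_mem_C_iff x z).mp hzC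
    · rw [basic_sub_shift] at hj
      have h1 : z + Pi.single j 1 = z0 := (basic_mem_C_iff x _).mp (Q_subset_C j hj)
      rw [h1] at hj
      exact absurd hj (hQ j)

theorem C_measurable : MeasurableSet (C d) := by
  have : C d = Set.pi Set.univ (fun _ => Set.Ico (0 : ℝ) 1) := by
    ext x
    simp only [C, Set.mem_ofPred_eq, Set.mem_pi, Set.mem_univ, Set.mem_Ico, forall_const]
  rw [this]
  exact MeasurableSet.univ_pi fun _ => measurableSet_Ico

theorem Q_measurable (j : Fin d) : MeasurableSet (Q j) := by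
  have : Q j = Set.pi Set.univ (fun i => Set.Ico (cor j i) (cor j i + 1 / 8)) := by
    ext x
    simp only [Q, one_div, Set.mem_ofPred_eq, Set.mem_pi, Set.mem_univ, Set.mem_Ico, forall_const]
  rw [this]
  exact MeasurableSet.univ_pi fun _ => measurableSet_Ico

theorem Rg_measurable : MeasurableSet (Rg d) := by
  have : Rg d = (C d ∩ (⋂ j, (Q j)ᶜ)) ∪ ⋃ j, (fun x : Fin d → ℝ => x - ev j) ⁻¹' (Q j) := by
    ext x
    simp only [Rg, Set.mem_ofPred_eq, Set.mem_union, Set.mem_inter_iff, Set.mem_iInter, Set.mem_compl_iff, Set.mem_iUnion, Set.mem_preimage]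
  rw [this]
  refine (C_measurable.inter (MeasurableSet.iInter fun j => (Q_measurable j).compl)).union ?_
  exact MeasurableSet.iUnion fun j => (measurable_id.sub_const (ev j)) (Q_measurable j)

theorem Rg_bounded : Bornology.IsBounded (Rg d) := by
  have h : Rg d ⊆ Set.Icc (fun _ => (-1 : ℝ)) (fun _ => (2 : ℝ)) := by
    rintro x (⟨hxC, _⟩ | ⟨j, hj⟩)
    · constructor
      · intro i
        show (-1 : ℝ) ≤ x i
        linarith only [(hxC i).1]
      · intro i
        show x i ≤ (2 : ℝ)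
        linarith only [(hxC i).2]
    · have hC := Q_subset_C j hj
      constructor
      · intro i
        show (-1 : ℝ) ≤ x i
        have h1 := hC i
        simp only [Pi.sub_apply, ev] at h1
        by_cases hij : i = j
        · subst hij
          simp only [Pi.single_eq_same, sub_nonneg] at h1
          linarith only [h1]
        · rw [Pi.single_eq_of_ne hij] at h1
          linarith [h1.1]
      · intro i
        show x i ≤ (2 : ℝ)
        have h1 := hC i
        simp only [Pi.sub_apply, ev] at h1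
        by_cases hij : i = j
        · subst hij
          simp only [Pi.single_eq_same, sub_nonneg] at h1
          linarith only [h1]
        · rw [Pi.single_eq_of_ne hij] at h1
          linarith [h1.2]
  exact (Metric.isBounded_Icc _ _).subset h

theorem basic_line0 (a : ℝ) (ha : |a| < 1) : ∃ x : ℝ, (0 < x ∧ x < 1 ∧ 0 < x - a ∧ x - a < 1) ∧
    (x < 1 / 4 ∨ 5 / 8 < x) := by
  rw [abs_lt] at ha
  rcases le_or_gt 0 a with h | h
  · refine ⟨(max (3 / 4) a + 1) / 2, ?_, Or.inr ?_⟩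
    · rcases max_cases (3 / 4 : ℝ) a with ⟨h1, h2⟩ | ⟨h1, h2⟩ <;> rw [h1] <;>
        refine ⟨?_, ?_, ?_, ?_⟩ <;> linarith only [h2, h, ha]
    · have := le_max_left (3 / 4 : ℝ) a
      linarith
  · refine ⟨min (1 / 4) (1 + a) / 2, ?_, Or.inl ?_⟩
    · rcases min_cases (1 / 4 : ℝ) (1 + a) with ⟨h1, h2⟩ | ⟨h1, h2⟩ <;> rw [h1] <;>
        refine ⟨?_, ?_, ?_, ?_⟩ <;> linarith only [h2, h, ha]
    · have := min_le_left (1 / 4 : ℝ) (1 + a)
      have h3 : 0 < min (1 / 4 : ℝ) (1 + a) := lt_min (by norm_num) (by linarith only [ha])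
      linarith only [this]

theorem basic_line1 (a : ℝ) (ha : |a| < 1) : ∃ x : ℝ, (0 < x ∧ x < 1 ∧ 0 < x - a ∧ x - a < 1) ∧
    (x - a < 1 / 4 ∨ 5 / 8 < x - a) := by
  obtain ⟨y, ⟨h1, h2, h3, h4⟩, h5⟩ := basic_line0 (-a) (by rwa [abs_neg])
  refine ⟨y + a, ⟨by linarith only [h3], by linarith only [h4], by linarith only [h1], by linarith only [h2]⟩, ?_⟩
  rcases h5 with h5 | h5
  · left; linarith
  · right; linarith only [h5]

theorem basic_not_mem_Q {x : Fin d → ℝ} {i : Fin d} (h : x i < 1 / 4 ∨ 5 / 8 < x i) (j : Fin d) :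
    x ∉ Q j := by
  intro hx
  have h1 := hx i
  unfold cor at h1
  split_ifs at h1 <;> rcases h with h | h <;> linarith only [h1, h]

/-- positive overlap for small translations (also gives positive measure of `Rg`, `a = 0`) -/
theorem Rg_overlap (hd : 2 ≤ d) (a : Fin d → ℝ) (ha : ∀ i, |a i| < 1) :
    0 < volume {x | x ∈ Rg d ∧ x - a ∈ Rg d} := by
  classical
  set i0 : Fin d := ⟨0, by omega⟩ with hi0
  set i1 : Fin d := ⟨1, by omega⟩ with hi1
  have hne : i1 ≠ i0 := by
    intro h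
    have := congrArg Fin.val h
    simp only [hi1, hi0, one_ne_zero] at this
  set U : Set (Fin d → ℝ) := {x | (∀ i, 0 < x i ∧ x i < 1 ∧ 0 < x i - a i ∧ x i - a i < 1) ∧
    (x i0 < 1 / 4 ∨ 5 / 8 < x i0) ∧ (x i1 - a i1 < 1 / 4 ∨ 5 / 8 < x i1 - a i1)} with hU
  have hUopen : IsOpen U := by
    have e : U = (⋂ i, {x : Fin d → ℝ | 0 < x i ∧ x i < 1 ∧ 0 < x i - a i ∧ x i - a i < 1}) ∩
        ({x | x i0 < 1 / 4 ∨ 5 / 8 < x i0} ∩ {x | x i1 - a i1 < 1 / 4 ∨ 5 / 8 < x i1 - a i1}) := by
      ext x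
      simp only [hU, sub_pos, one_div, Set.mem_ofPred_eq, Set.mem_inter_iff, Set.mem_iInter]
    rw [e]
    have hc : ∀ i : Fin d, Continuous (fun x : Fin d → ℝ => x i) := fun i => continuous_apply i
    have hca : ∀ i : Fin d, Continuous (fun x : Fin d → ℝ => x i - a i) :=
      fun i => (hc i).sub continuous_const
    refine (isOpen_iInter_of_finite fun i => ?_).inter (IsOpen.inter ?_ ?_)
    · exact (isOpen_lt continuous_const (hc i)).inter ((isOpen_lt (hc i) continuous_const).inter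
        ((isOpen_lt continuous_const (hca i)).inter (isOpen_lt (hca i) continuous_const)))
    · exact (isOpen_lt (hc i0) continuous_const).union (isOpen_lt continuous_const (hc i0))
    · exact (isOpen_lt (hca i1) continuous_const).union (isOpen_lt continuous_const (hca i1))
  have hUne : U.Nonempty := by
    choose x0 hx0 hx0' using fun i => basic_line0 (a i) (ha i)
    choose x1 hx1 hx1' using fun i => basic_line1 (a i) (ha i)
    refine ⟨fun i => if i = i1 then x1 i else x0 i, ?_, ?_, ?_⟩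
    · intro i
      by_cases h : i = i1
      · simp only [if_pos h]
        exact hx1 i
      · simp only [if_neg h]
        exact hx0 i
    · simp only [if_neg hne.symm]
      exact hx0' i0
    · simp only [if_true]
      exact hx1' i1
  have hsub : U ⊆ {x | x ∈ Rg d ∧ x - a ∈ Rg d} := by
    rintro x ⟨hx, h0, h1⟩
    refine ⟨Or.inl ⟨fun i => ⟨(hx i).1.le, (hx i).2.1⟩, fun j => basic_not_mem_Q h0 j⟩,
      Or.inl ⟨fun i => ⟨(hx i).2.2.1.le, (hx i).2.2.2⟩, fun j => ?_⟩⟩
    exact basic_not_mem_Q (x := x - a) (i := i1) h1 j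
  exact lt_of_lt_of_le (hUopen.measure_pos volume hUne) (measure_mono hsub)

end Vale.Agent.P043.Eu
end
end

section

section

namespace Vale.Agent.P043.Eu

open MeasureTheory
open scoped Pointwise

variable {d : ℕ}

/-- the number of translates `a + E`, `a ∈ A`, which contain `x` -/
noncomputable def cnt (A E : Set (Fin d → ℝ)) (x : Fin d → ℝ) : ENNReal :=
  ∑' a : A, E.indicator 1 (x - a)

theorem Sep.countable {A : Set (Fin d → ℝ)} (hsep : Sep A) : A.Countable := by
  have h : A.PairwiseDisjoint fun a => Metric.ball a (1 / 2 : ℝ) := by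
    intro a ha b hb hab
    rw [Function.onFun, Set.disjoint_left]
    intro x hx hx'
    obtain ⟨i, hi⟩ := hsep a ha b hb hab
    rw [Metric.mem_ball] at hx hx'
    have h1 : dist a b < 1 := by
      calc dist a b ≤ dist a x + dist x b := dist_triangle _ _ _
        _ = dist x a + dist x b := by rw [dist_comm a x]
        _ < 1 / 2 + 1 / 2 := add_lt_add hx hx'
        _ = 1 := by norm_num
    have h2 : dist (a i) (b i) ≤ dist a b := dist_le_pi_dist a b i
    rw [Real.dist_eq] at h2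
    linarith only [hi, h1, h2]
  refine h.countable_of_isOpen (fun a _ => Metric.isOpen_ball) (fun a _ => ?_)
  exact Metric.nonempty_ball.2 (by norm_num)

theorem cnt_measurable {A E : Set (Fin d → ℝ)} (hA : A.Countable) (hE : MeasurableSet E) :
    Measurable (cnt A E) := by
  have : Countable A := hA.to_subtype
  unfold cnt
  refine Measurable.tsum fun a => ?_
  have h1 : Measurable fun x : Fin d → ℝ => x - (a : Fin d → ℝ) := measurable_id.sub_const _
  exact (measurable_one.indicator hE).comp h1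

theorem mem_of_cnt_ne_zero {A E : Set (Fin d → ℝ)} {x : Fin d → ℝ} (h : cnt A E x ≠ 0) :
    ∃ a ∈ A, x - a ∈ E := by
  by_contra hne
  push Not at hne
  apply h
  unfold cnt
  rw [ENNReal.tsum_eq_zero]
  intro a
  exact Set.indicator_of_notMem (hne a a.2) _

theorem one_le_cnt {A E : Set (Fin d → ℝ)} {x a : Fin d → ℝ} (ha : a ∈ A) (h : x - a ∈ E) :
    1 ≤ cnt A E x := by
  unfold cnt
  have h1 := ENNReal.le_tsum (f := fun a : A => E.indicator (1 : (Fin d → ℝ) → ENNReal) (x - a))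
    ⟨a, ha⟩
  refine le_trans ?_ h1
  simp only [Set.indicator_of_mem h, Pi.one_apply, Std.le_refl]

theorem cnt_eq_one {A E : Set (Fin d → ℝ)} {x a : Fin d → ℝ} (ha : a ∈ A) (h : x - a ∈ E)
    (hu : ∀ b ∈ A, x - b ∈ E → b = a) : cnt A E x = 1 := by
  unfold cnt
  rw [tsum_eq_single (⟨a, ha⟩ : A)]
  · simp only [Set.indicator_of_mem h, Pi.one_apply]
  · intro b hb
    apply Set.indicator_of_notMem
    intro h1
    exact hb (Subtype.ext (hu b b.2 h1))

theorem cnt_C_le {A : Set (Fin d → ℝ)} (hsep : Sep A) (x : Fin d → ℝ) : cnt A (C d) x ≤ 1 := by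
  by_cases h0 : cnt A (C d) x = 0
  · rw [h0]; exact bot_le
  · obtain ⟨a, ha, hx⟩ := mem_of_cnt_ne_zero h0
    refine (cnt_eq_one ha hx ?_).le
    intro b hb hb'
    by_contra hne
    obtain ⟨i, hi⟩ := hsep b hb a ha hne
    have h1 := hx i
    have h2 := hb' i
    simp only [Pi.sub_apply] at h1 h2
    have : |b i - a i| < 1 := by
      rw [abs_lt]; constructor <;> linarith only [h1, h2]
    linarith only [hi, this]

theorem mem_add_iff {A : Set (Fin d → ℝ)} {b : Module.Basis (Fin d) ℝ (Fin d → ℝ)}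
    (hper : ∀ i, ∀ a, b i + a ∈ A ↔ a ∈ A) {v : Fin d → ℝ}
    (hv : v ∈ Submodule.span ℤ (Set.range b)) : ∀ a, v + a ∈ A ↔ a ∈ A := by
  refine Submodule.span_induction (p := fun v _ => ∀ a, v + a ∈ A ↔ a ∈ A) ?_ ?_ ?_ ?_ hv
  · rintro _ ⟨i, rfl⟩ a
    exact hper i a
  · intro a; simp
  · intro x y _ _ hx hy a
    rw [add_assoc, hx, hy]
  · intro n x _ hx a
    have hnat : ∀ (m : ℕ) (a : Fin d → ℝ), (m : ℤ) • x + a ∈ A ↔ a ∈ A := by
      intro m
      induction m with
      | zero => intro a; simp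
      | succ m ih =>
        intro a
        have e : ((m + 1 : ℕ) : ℤ) • x + a = (m : ℤ) • x + (x + a) := by
          push_cast
          rw [add_smul, one_smul, add_assoc]
        rw [e, ih, hx]
    obtain ⟨m, rfl | rfl⟩ := n.eq_nat_or_neg
    · exact hnat m a
    · have e : a = (m : ℤ) • x + (-(m : ℤ) • x + a) := by
        rw [← add_assoc, ← add_smul]; simp
      conv_rhs => rw [e]
      rw [hnat]

theorem cnt_add {A E : Set (Fin d → ℝ)} {v : Fin d → ℝ} (hv : ∀ a, v + a ∈ A ↔ a ∈ A)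
    (x : Fin d → ℝ) : cnt A E (v + x) = cnt A E x := by
  unfold cnt
  let e : A ≃ A :=
    { toFun := fun a => ⟨v + a, (hv a).2 a.2⟩
      invFun := fun a => ⟨-v + a, (hv _).1 (by simp only [add_neg_cancel_left, Subtype.coe_prop])⟩
      left_inv := fun a => Subtype.ext (by simp only [neg_add_cancel_left])
      right_inv := fun a => Subtype.ext (by simp only [add_neg_cancel_left]) }
  rw [← e.tsum_eq]
  refine tsum_congr fun a => ?_
  have h1 : v + x - (e a : Fin d → ℝ) = x - a := by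
    change v + x - (v + (a : Fin d → ℝ)) = x - a
    abel
  rw [h1]

/-- the integral of a periodic function over the fundamental domain is translation invariant -/
theorem integral_shift (b : Module.Basis (Fin d) ℝ (Fin d → ℝ)) (g : (Fin d → ℝ) → ENNReal)
    (hg : ∀ v ∈ Submodule.span ℤ (Set.range b), ∀ x, g (v + x) = g x) (e : Fin d → ℝ) :
    ∫⁻ x in ZSpan.fundamentalDomain b, g (x - e) = ∫⁻ x in ZSpan.fundamentalDomain b, g x := by
  have hD := ZSpan.isAddFundamentalDomain' b (volume : Measure (Fin d → ℝ))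
  have hD' := hD.vadd_of_comm (-e)
  have hc : Countable (Submodule.span ℤ (Set.range b)) := inferInstance
  have hc' : Countable (Submodule.span ℤ (Set.range b)).toAddSubgroup := hc
  have h1 : ∫⁻ x in (-e) +ᵥ ZSpan.fundamentalDomain b, g x =
      ∫⁻ x in ZSpan.fundamentalDomain b, g x :=
    hD'.setLIntegral_eq hD g (fun v x => hg v v.2 x)
  have h2 : MeasurePreserving (fun x : Fin d → ℝ => x - e) volume volume :=
    measurePreserving_sub_right volume e
  have h3 : MeasurableEmbedding (fun x : Fin d → ℝ => x - e) :=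
    (MeasurableEquiv.subRight e).measurableEmbedding
  have h4 := h2.setLIntegral_comp_preimage_emb h3 g ((-e) +ᵥ ZSpan.fundamentalDomain b)
  rw [h1] at h4
  rw [← h4]
  congr 2
  ext x
  rw [Set.mem_preimage, Set.mem_vadd_set]
  constructor
  · intro hx
    refine ⟨x, hx, ?_⟩
    change -e + x = x - e
    abel
  · rintro ⟨y, hy, hxy⟩
    have : x = y := by
      have h4 : -e + y = x - e := hxy
      have h5 : x = -e + y + e := by rw [h4]; abel
      rw [h5]; abel
    rwa [this]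

theorem pointwise (y : Fin d → ℝ) :
    (Rg d).indicator (1 : (Fin d → ℝ) → ENNReal) y + ∑ j, (Q j).indicator 1 y =
      (C d).indicator 1 y + ∑ j, (Q j).indicator 1 (y - ev j) := by
  classical
  have hQQ : ∀ i j, y ∈ Q i → y ∈ Q j → i = j := by
    intro i j hi hj
    by_contra hne
    have h1 := hi i
    have h2 := hj i
    simp only [cor, if_neg hne] at h1 h2
    simp only [↓reduceIte, one_div] at h1 h2
    linarith only [h1, h2]
  have hEE : ∀ i j, y - ev i ∈ Q i → y - ev j ∈ Q j → i = j := by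
    intro i j hi hj
    by_contra hne
    have h1 := hi i
    have h2 := hj i
    simp only [cor, ↓reduceIte, one_div, ev, Pi.sub_apply, Pi.single_eq_same, hne, ne_eq, not_false_eq_true, Pi.single_eq_of_ne, sub_zero] at h1 h2
    linarith only [h1, h2]
  have hCE : ∀ j, y - ev j ∈ Q j → y ∉ C d := by
    intro j hj hC
    have h1 := hj j
    have h2 := hC j
    simp only [cor, ↓reduceIte, one_div, ev, Pi.sub_apply, Pi.single_eq_same] at h1
    linarith only [h2, h1]
  by_cases hC : y ∈ C d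
  · have hE : ∀ j, y - ev j ∉ Q j := fun j hj => hCE j hj hC
    have e1 : ∑ j, (Q j).indicator (1 : (Fin d → ℝ) → ENNReal) (y - ev j) = 0 :=
      Finset.sum_eq_zero fun j _ => Set.indicator_of_notMem (hE j) _
    rw [e1, Set.indicator_of_mem hC]
    by_cases hQ : ∃ j, y ∈ Q j
    · obtain ⟨j, hj⟩ := hQ
      have hR : y ∉ Rg d := by
        rintro (⟨_, h⟩ | ⟨i, hi⟩)
        · exact h j hj
        · exact hE i hi
      have e2 : ∑ j, (Q j).indicator (1 : (Fin d → ℝ) → ENNReal) y = 1 := by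
        rw [Finset.sum_eq_single j]
        · simp only [Set.indicator_of_mem hj, Pi.one_apply]
        · intro i _ hij
          exact Set.indicator_of_notMem (fun hi => hij (hQQ i j hi hj)) _
        · simp only [Finset.mem_univ, not_true_eq_false, Set.indicator_apply_eq_zero, Pi.one_apply, one_ne_zero, imp_false, IsEmpty.forall_iff]
      rw [e2, Set.indicator_of_notMem hR]
      simp
    · push Not at hQ
      have hR : y ∈ Rg d := Or.inl ⟨hC, hQ⟩
      have e2 : ∑ j, (Q j).indicator (1 : (Fin d → ℝ) → ENNReal) y = 0 :=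
        Finset.sum_eq_zero fun j _ => Set.indicator_of_notMem (hQ j) _
      rw [e2, Set.indicator_of_mem hR]
  · have hQ : ∀ j, y ∉ Q j := fun j hj => hC (Q_subset_C j hj)
    have e2 : ∑ j, (Q j).indicator (1 : (Fin d → ℝ) → ENNReal) y = 0 :=
      Finset.sum_eq_zero fun j _ => Set.indicator_of_notMem (hQ j) _
    rw [e2, Set.indicator_of_notMem hC]
    by_cases hE : ∃ j, y - ev j ∈ Q j
    · obtain ⟨j, hj⟩ := hE
      have hR : y ∈ Rg d := Or.inr ⟨j, hj⟩
      have e1 : ∑ j, (Q j).indicator (1 : (Fin d → ℝ) → ENNReal) (y - ev j) = 1 := by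
        rw [Finset.sum_eq_single j]
        · simp [Set.indicator_of_mem hj]
        · intro i _ hij
          exact Set.indicator_of_notMem (fun hi => hij (hEE i j hi hj)) _
        · simp only [Finset.mem_univ, not_true_eq_false, Set.indicator_apply_eq_zero, Pi.one_apply, one_ne_zero, imp_false, IsEmpty.forall_iff]
      rw [e1, Set.indicator_of_mem hR]
      simp
    · push Not at hE
      have hR : y ∉ Rg d := by
        rintro (⟨h, _⟩ | ⟨i, hi⟩)
        · exact hC h
        · exact hE i hi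
      have e1 : ∑ j, (Q j).indicator (1 : (Fin d → ℝ) → ENNReal) (y - ev j) = 0 :=
        Finset.sum_eq_zero fun j _ => Set.indicator_of_notMem (hE j) _
      rw [e1, Set.indicator_of_notMem hR]

theorem cnt_identity (A : Set (Fin d → ℝ)) (x : Fin d → ℝ) :
    cnt A (Rg d) x + ∑ j, cnt A (Q j) x = cnt A (C d) x + ∑ j, cnt A (Q j) (x - ev j) := by
  unfold cnt
  rw [← Summable.tsum_finsetSum (fun _ _ => ENNReal.summable),
    ← Summable.tsum_finsetSum (fun _ _ => ENNReal.summable), ← ENNReal.tsum_add,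
    ← ENNReal.tsum_add]
  refine tsum_congr fun a => ?_
  have := pointwise (x - (a : Fin d → ℝ))
  rw [this]
  congr 1
  refine Finset.sum_congr rfl fun j _ => ?_
  rw [sub_right_comm]

/-- volume count modulo the lattice -/
theorem count (A : Set (Fin d → ℝ)) (hsep : Sep A) (b : Module.Basis (Fin d) ℝ (Fin d → ℝ))
    (hper : ∀ i, ∀ a, b i + a ∈ A ↔ a ∈ A) (htile : TilesAE (Rg d) A) :
    ∀ᵐ x : Fin d → ℝ, (∃ a ∈ A, ∃ j, x - a - ev j ∈ Q j) → (∃ a ∈ A, ∃ j, x - a ∈ Q j) := by
  classical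
  have hAc := hsep.countable
  have hAcount : Countable A := hAc.to_subtype
  have hmeas : ∀ {E}, MeasurableSet E → Measurable (cnt A E) := fun h => cnt_measurable hAc h
  have hinv : ∀ E : Set (Fin d → ℝ), ∀ v ∈ Submodule.span ℤ (Set.range b), ∀ x,
      cnt A E (v + x) = cnt A E x := fun E v hv x => cnt_add (mem_add_iff hper hv) x
  -- `cnt Rg = 1` almost everywhere
  have hRg : ∀ᵐ x : Fin d → ℝ, cnt A (Rg d) x = 1 := by
    have h1 : ∀ᵐ x : Fin d → ℝ, x ∈ ⋃ a ∈ A, {x | x - a ∈ Rg d} := by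
      rw [ae_iff]
      exact htile.1
    have h2 : ∀ᵐ x : Fin d → ℝ, ∀ a : A, ∀ a' : A, (a : Fin d → ℝ) ≠ a' →
        x ∉ {x | x - (a : Fin d → ℝ) ∈ Rg d} ∩ {x | x - (a' : Fin d → ℝ) ∈ Rg d} := by
      rw [ae_all_iff]
      intro a
      rw [ae_all_iff]
      intro a'
      by_cases haa : (a : Fin d → ℝ) = a'
      · exact Filter.Eventually.of_forall fun x h => absurd haa h
      · have h3 := htile.2 a a.2 a' a'.2 haa
        have h4 := measure_eq_zero_iff_ae_notMem.1 h3
        filter_upwards [h4] with x hx _ using hx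
    filter_upwards [h1, h2] with x hx1 hx2
    rw [Set.mem_iUnion₂] at hx1
    obtain ⟨a, ha, hxa⟩ := hx1
    refine cnt_eq_one ha hxa ?_
    intro a' ha' hxa'
    by_contra hne
    exact hx2 ⟨a', ha'⟩ ⟨a, ha⟩ hne ⟨hxa', hxa⟩
  set D := ZSpan.fundamentalDomain b with hDdef
  have hD := ZSpan.isAddFundamentalDomain' b (volume : Measure (Fin d → ℝ))
  have hc : Countable (Submodule.span ℤ (Set.range b)) := inferInstance
  have hc' : Countable (Submodule.span ℤ (Set.range b)).toAddSubgroup := hc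
  have hDfin : volume D ≠ ⊤ := (ZSpan.fundamentalDomain_isBounded b).measure_lt_top.ne
  have hQfin : ∀ j : Fin d, ∫⁻ x in D, cnt A (Q j) x ≠ ⊤ := by
    intro j
    have h1 : ∫⁻ x in D, cnt A (Q j) x ≤ ∫⁻ x in D, 1 := by
      refine lintegral_mono fun x => ?_
      refine le_trans ?_ (cnt_C_le hsep x)
      refine ENNReal.tsum_le_tsum fun a => ?_
      exact Set.indicator_le_indicator_of_subset (Q_subset_C j) (fun _ => bot_le) _
    rw [setLIntegral_one] at h1
    exact ne_top_of_le_ne_top hDfin h1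
  have hI : (∫⁻ x in D, cnt A (Rg d) x) + ∑ j, ∫⁻ x in D, cnt A (Q j) x =
      (∫⁻ x in D, cnt A (C d) x) + ∑ j, ∫⁻ x in D, cnt A (Q j) (x - ev j) := by
    have hms : ∀ j : Fin d, Measurable fun x => cnt A (Q j) (x - ev j) := fun j =>
      (hmeas (Q_measurable j)).comp (measurable_id.sub_const _)
    rw [← lintegral_finsetSum _ (fun j _ => hmeas (Q_measurable j)),
      ← lintegral_finsetSum _ (fun j _ => hms j),
      ← lintegral_add_left (hmeas Rg_measurable), ← lintegral_add_left (hmeas C_measurable)]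
    refine lintegral_congr fun x => ?_
    exact cnt_identity A x
  have hI2 : ∑ j, ∫⁻ x in D, cnt A (Q j) (x - ev j) = ∑ j, ∫⁻ x in D, cnt A (Q j) x :=
    Finset.sum_congr rfl fun j _ => integral_shift b _ (hinv _) _
  rw [hI2] at hI
  have hSfin : ∑ j, ∫⁻ x in D, cnt A (Q j) x ≠ ⊤ :=
    (ENNReal.sum_ne_top).2 fun j _ => hQfin j
  have hI3 : ∫⁻ x in D, cnt A (Rg d) x = ∫⁻ x in D, cnt A (C d) x :=
    (ENNReal.add_left_inj hSfin).1 hI
  have hI4 : ∫⁻ x in D, cnt A (Rg d) x = volume D := by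
    rw [← setLIntegral_one]
    refine lintegral_congr_ae ?_
    exact ae_restrict_of_ae hRg
  -- `cnt C = 1` almost everywhere
  have hC : ∀ᵐ x : Fin d → ℝ, cnt A (C d) x = 1 := by
    have h1 : ∀ᵐ x ∂(volume.restrict D), cnt A (C d) x = 1 := by
      have h2 : (fun x => cnt A (C d) x) =ᵐ[volume.restrict D] fun _ => (1 : ENNReal) := by
        refine ae_eq_of_ae_le_of_lintegral_le
          (Filter.Eventually.of_forall fun x => cnt_C_le hsep x) ?_ aemeasurable_const ?_
        · rw [← hI3, hI4]; exact hDfin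
        · rw [← hI3, hI4, setLIntegral_one]
      exact h2
    have h2 : volume {x : Fin d → ℝ | ¬ cnt A (C d) x = 1} = 0 := by
      refine hD.measure_zero_of_invariant _ (fun v => ?_) ?_
      · ext x
        rw [Set.mem_vadd_set]
        constructor
        · rintro ⟨y, hy, rfl⟩
          change ¬ cnt A (C d) ((v : Fin d → ℝ) + y) = 1
          rw [hinv _ _ v.2]
          exact hy
        · intro hx
          refine ⟨(-v : (Submodule.span ℤ (Set.range b)).toAddSubgroup) +ᵥ x, ?_, ?_⟩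
          · change ¬ cnt A (C d) (((-v : (Submodule.span ℤ (Set.range b)).toAddSubgroup) : Fin d → ℝ) + x) = 1
            rw [hinv _ _ (-v).2]
            exact hx
          · simp
      · have h3 := h1
        rw [ae_iff, Measure.restrict_apply' (ZSpan.fundamentalDomain_measurableSet b)] at h3
        exact h3
    rw [ae_iff]
    exact h2
  filter_upwards [hRg, hC] with x hx1 hx2
  rintro ⟨a, ha, j, hj⟩
  have h1 := cnt_identity A x
  rw [hx1, hx2] at h1
  have h2 : ∑ j, cnt A (Q j) x = ∑ j, cnt A (Q j) (x - ev j) :=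
    (ENNReal.add_right_inj ENNReal.one_ne_top).1 h1
  have h3 : 1 ≤ ∑ j, cnt A (Q j) (x - ev j) := by
    refine le_trans ?_ (Finset.single_le_sum (f := fun j => cnt A (Q j) (x - ev j))
      (fun _ _ => bot_le) (Finset.mem_univ j))
    refine one_le_cnt ha ?_
    rwa [sub_right_comm]
  have h4 : ∑ j, cnt A (Q j) x ≠ 0 := by
    rw [h2]
    intro h0
    rw [h0] at h3
    exact absurd h3 (by simp only [nonpos_iff_eq_zero, one_ne_zero, not_false_eq_true])
  obtain ⟨i, _, hi⟩ := Finset.exists_ne_zero_of_sum_ne_zero h4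
  obtain ⟨a', ha', hx'⟩ := mem_of_cnt_ne_zero hi
  exact ⟨a', ha', i, hx'⟩

end Vale.Agent.P043.Eu
end
end

section

section

namespace Vale.Agent.P043.Eu

open MeasureTheory

variable {d : ℕ}

theorem exists_mem_box {p : (Fin d → ℝ) → Prop} (h : ∀ᵐ x : Fin d → ℝ, p x) (lo hi : Fin d → ℝ)
    (hlh : ∀ i, lo i < hi i) : ∃ x, (∀ i, lo i < x i ∧ x i < hi i) ∧ p x := by
  by_contra hcon
  push Not at hcon
  set U : Set (Fin d → ℝ) := Set.univ.pi fun i => Set.Ioo (lo i) (hi i) with hU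
  have hUo : IsOpen U := isOpen_set_pi Set.finite_univ fun i _ => isOpen_Ioo
  have hUn : U.Nonempty :=
    ⟨fun i => (lo i + hi i) / 2, fun i _ => ⟨by have := hlh i; linarith, by have := hlh i; linarith only [this]⟩⟩
  have h1 := hUo.measure_pos volume hUn
  have h2 : volume U = 0 := by
    refine measure_mono_null ?_ (ae_iff.mp h)
    intro x hx
    exact hcon x fun i => hx i (Set.mem_univ i)
  rw [h2] at h1
  exact lt_irrefl _ h1

theorem cor_self (j : Fin d) : cor j j = 1 / 4 := by simp [cor]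

theorem cor_ne {i j : Fin d} (h : i ≠ j) : cor j i = 1 / 2 := by simp [cor, h]

theorem cor_bounds (j i : Fin d) : 1 / 4 ≤ cor j i ∧ cor j i ≤ 1 / 2 := by
  unfold cor
  split_ifs <;> norm_num

theorem ev_self (j : Fin d) : ev j j = 1 := by simp [ev]

theorem ev_ne {i j : Fin d} (h : i ≠ j) : ev j i = 0 := by simp [ev, h]

/-- two corners of small boxes of a separated set which are closer than `1/4` are equal -/
theorem corner_sep {A : Set (Fin d → ℝ)} (hsep : Sep A) {a1 a2 : Fin d → ℝ} (h1 : a1 ∈ A)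
    (h2 : a2 ∈ A) {i1 i2 : Fin d}
    (hlo : ∀ i, -(1 / 4) < (a2 i + cor i2 i) - (a1 i + cor i1 i))
    (hhi : ∀ i, (a2 i + cor i2 i) - (a1 i + cor i1 i) < 1 / 4) : a1 = a2 ∧ i1 = i2 := by
  have ha : a1 = a2 := by
    by_contra hne
    obtain ⟨i, hi⟩ := hsep a1 h1 a2 h2 hne
    have b1 := cor_bounds i1 i
    have b2 := cor_bounds i2 i
    have l := hlo i
    have r := hhi i
    rcases le_abs'.mp hi with h3 | h3 <;> linarith only [b1, b2, l, h3, r]
  refine ⟨ha, ?_⟩
  by_contra hne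
  have r := hhi i1
  rw [ha, cor_self, cor_ne hne] at r
  linarith only [r]

theorem corner (A : Set (Fin d → ℝ)) (hsep : Sep A)
    (h : ∀ᵐ x : Fin d → ℝ, (∃ a ∈ A, ∃ j, x - a - ev j ∈ Q j) → (∃ a ∈ A, ∃ j, x - a ∈ Q j)) :
    ∀ a ∈ A, ∀ j, a + ev j ∈ A := by
  intro a ha j
  set u : Fin d → ℝ := fun i => a i + ev j i + cor j i with hu
  -- approximation of the corner `u`
  have key : ∀ η : ℝ, 0 < η → η ≤ 1 / 16 → ∃ a1 ∈ A, ∃ i1, ∀ i,
      |a1 i + cor i1 i - u i| < η := by
    intro η hη hη2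
    obtain ⟨x, hx, hxp⟩ := exists_mem_box h u (fun i => u i + η) (fun i => by linarith only [hη])
    obtain ⟨y, hy, hyp⟩ := exists_mem_box h (fun i => u i + (1 / 8 - η)) (fun i => u i + 1 / 8)
      (fun i => by linarith only [hη])
    have hx1 : x - a - ev j ∈ Q j := by
      intro i
      have := hx i
      simp only [hu, Pi.sub_apply] at this ⊢
      constructor <;> linarith only [hη2, this]
    have hy1 : y - a - ev j ∈ Q j := by
      intro i
      have := hy i
      simp only [hu, Pi.sub_apply] at this ⊢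
      constructor <;> linarith only [hη2, this]
    obtain ⟨a1, ha1, i1, hq1⟩ := hxp ⟨a, ha, j, hx1⟩
    obtain ⟨a2, ha2, i2, hq2⟩ := hyp ⟨a, ha, j, hy1⟩
    have q1 : ∀ i, a1 i + cor i1 i ≤ x i ∧ x i < a1 i + cor i1 i + 1 / 8 := by
      intro i
      have := hq1 i
      simp only [Pi.sub_apply] at this
      constructor <;> linarith only [this]
    have q2 : ∀ i, a2 i + cor i2 i ≤ y i ∧ y i < a2 i + cor i2 i + 1 / 8 := by
      intro i
      have := hq2 i
      simp only [Pi.sub_apply] at this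
      constructor <;> linarith only [this]
    obtain ⟨e1, e2⟩ := corner_sep hsep ha1 ha2 (i1 := i1) (i2 := i2)
      (fun i => by linarith only [hη2, (q1 i).1, (q2 i).2, (hx i).2, (hy i).1])
      (fun i => by linarith only [(q1 i).2, (q2 i).1, (hx i).1, (hy i).2])
    subst e1
    subst e2
    refine ⟨a1, ha1, i1, fun i => ?_⟩
    rw [abs_lt]
    constructor <;> linarith only [(q1 i).1, (hx i).2, (q2 i).2, (hy i).1]
  obtain ⟨a1, ha1, i1, hq⟩ := key (1 / 16) (by norm_num) le_rfl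
  have hexact : ∀ i, a1 i + cor i1 i = u i := by
    intro i
    by_contra hne
    have hpos : 0 < |a1 i + cor i1 i - u i| := abs_pos.mpr (sub_ne_zero.mpr hne)
    obtain ⟨a2, ha2, i2, hq2⟩ := key (min (1 / 16) (|a1 i + cor i1 i - u i|))
      (lt_min (by norm_num) hpos) (min_le_left _ _)
    obtain ⟨e1, e2⟩ := corner_sep hsep ha1 ha2 (i1 := i1) (i2 := i2)
      (fun k => by
        have h1 := abs_lt.mp (hq k)
        have h2 := abs_lt.mp ((hq2 k).trans_le (min_le_left _ _))
        linarith only [h1, h2])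
      (fun k => by
        have h1 := abs_lt.mp (hq k)
        have h2 := abs_lt.mp ((hq2 k).trans_le (min_le_left _ _))
        linarith [h1.1, h1.2, h2.1, h2.2])
    subst e1
    subst e2
    exact lt_irrefl _ ((hq2 i).trans_le (min_le_right _ _))
  by_cases hij : i1 = j
  · subst hij
    have : a1 = a + ev i1 := by
      funext i
      have := hexact i
      simp only [hu] at this
      rw [Pi.add_apply]
      linarith
    rwa [← this]
  · exfalso
    have hj := hexact j
    simp only [hu] at hj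
    rw [ev_self, cor_self, cor_ne (Ne.symm hij)] at hj
    have hne : a1 ≠ a := by
      rintro rfl
      linarith only [hj]
    obtain ⟨i, hi⟩ := hsep a1 ha1 a ha hne
    have hi2 := hexact i
    simp only [hu] at hi2
    by_cases hc : i = j
    · subst hc
      rw [ev_self, cor_self, cor_ne (Ne.symm hij)] at hi2
      rcases le_abs'.mp hi with h3 | h3 <;> linarith only [hj, h3]
    · rw [ev_ne hc, cor_ne hc] at hi2
      have b := cor_bounds i1 i
      rcases le_abs'.mp hi with h3 | h3 <;> linarith only [hi2, b, h3]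

end Vale.Agent.P043.Eu
end
end

section

section

namespace Vale.Agent.P043.Eu

open MeasureTheory

variable {d : ℕ}

theorem coset_span_mem (A : Set (Fin d → ℝ))
    (b : Module.Basis (Fin d) ℝ (Fin d → ℝ)) (hper : ∀ i, ∀ a, b i + a ∈ A ↔ a ∈ A)
    {v : Fin d → ℝ} (hv : v ∈ Submodule.span ℤ (Set.range b)) : ∀ a, v + a ∈ A ↔ a ∈ A := by
  induction hv using Submodule.span_induction with
  | mem v hv =>
    obtain ⟨i, rfl⟩ := hv
    exact hper i
  | zero => intro a; rw [zero_add]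
  | add v w _ _ hv hw =>
    intro a
    rw [add_assoc, hv, hw]
  | smul n v _ hv =>
    have hneg : ∀ a, -v + a ∈ A ↔ a ∈ A := by
      intro a
      have := hv (-v + a)
      rw [add_neg_cancel_left] at this
      exact this.symm
    have hnat : ∀ (k : ℕ) (w : Fin d → ℝ), (∀ a, w + a ∈ A ↔ a ∈ A) →
        ∀ a, (k : ℤ) • w + a ∈ A ↔ a ∈ A := by
      intro k w hw
      induction k with
      | zero => intro a; simp
      | succ k ih =>
        intro a
        push_cast
        rw [add_smul, one_smul, add_assoc, ih, hw]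
    intro a
    rcases Int.eq_nat_or_neg n with ⟨k, hk | hk⟩
    · rw [hk]
      exact hnat k v hv a
    · rw [hk, neg_smul, ← smul_neg]
      exact hnat k (-v) hneg a

theorem coset_nat (A : Set (Fin d → ℝ)) (h : ∀ a ∈ A, ∀ j, a + ev j ∈ A) {s : Fin d → ℝ}
    (hs : s ∈ A) (n : Fin d → ℕ) : s + iv (fun i => (n i : ℤ)) ∈ A := by
  have hk : ∀ (j : Fin d) (k : ℕ), ∀ a ∈ A, a + (k : ℝ) • ev j ∈ A := by
    intro j k
    induction k with
    | zero => intro a ha; simpa using ha
    | succ k ih =>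
      intro a ha
      have h1 := h _ (ih a ha) j
      have h2 : a + (k : ℝ) • ev j + ev j = a + ((k + 1 : ℕ) : ℝ) • ev j := by
        push_cast
        rw [add_smul, one_smul, add_assoc]
      rw [← h2]
      exact h1
  have hsum : ∀ T : Finset (Fin d), s + ∑ j ∈ T, (n j : ℝ) • ev j ∈ A := by
    intro T
    classical
    induction T using Finset.induction_on with
    | empty => simpa only [Finset.sum_empty, add_zero] using hs
    | insert j T hj ih =>
      rw [Finset.sum_insert hj]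
      have h1 := hk j (n j) _ ih
      have h2 : s + ∑ j ∈ T, (n j : ℝ) • ev j + (n j : ℝ) • ev j =
          s + ((n j : ℝ) • ev j + ∑ j ∈ T, (n j : ℝ) • ev j) := by
        abel
      rw [← h2]
      exact h1
  have h1 := hsum Finset.univ
  have h2 : ∑ j, (n j : ℝ) • ev j = iv (fun i => (n i : ℤ)) := by
    funext i
    rw [Finset.sum_apply]
    simp only [ev, Pi.smul_apply, smul_eq_mul, iv]
    rw [Finset.sum_eq_single i]
    · simp only [Pi.single_eq_same, mul_one, Int.cast_natCast]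
    · intro j _ hj
      rw [Pi.single_eq_of_ne hj.symm, mul_zero]
    · intro hi
      exact absurd (Finset.mem_univ i) hi
  rw [h2] at h1
  exact h1

theorem coset_floor (A : Set (Fin d → ℝ)) (hsep : Sep A) (h : ∀ a ∈ A, ∀ j, a + ev j ∈ A)
    {s a : Fin d → ℝ} (hs : s ∈ A) (ha : a ∈ A) (hge : ∀ i, 0 ≤ a i - s i) :
    ∃ z : Fin d → ℤ, a = s + iv z := by
  have h1 := coset_nat A h hs (fun i => ⌊a i - s i⌋₊)
  refine ⟨fun i => ((⌊a i - s i⌋₊ : ℕ) : ℤ), ?_⟩
  by_contra hne
  obtain ⟨i, hi⟩ := hsep _ ha _ h1 hne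
  simp only [Pi.add_apply, iv, Int.cast_natCast] at hi
  have h2 := Nat.floor_le (hge i)
  have h3 := Nat.lt_floor_add_one (a i - s i)
  rw [le_abs] at hi
  rcases hi with hi | hi <;> linarith only [h2, hi, h3]

/-- a separated periodic set closed under adding unit vectors lies in a coset of `ℤ^d` -/
theorem lattice_coset (A : Set (Fin d → ℝ)) (hsep : Sep A)
    (b : Module.Basis (Fin d) ℝ (Fin d → ℝ)) (hper : ∀ i, ∀ a, b i + a ∈ A ↔ a ∈ A)
    (h : ∀ a ∈ A, ∀ j, a + ev j ∈ A) :
    ∀ s ∈ A, ∀ a ∈ A, ∃ z : Fin d → ℤ, a = s + iv z := by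
  intro s hs a ha
  set N : ℝ := ∑ i, ‖b i‖ + ‖a - s‖ with hN
  set w : Fin d → ℝ := fun _ => N with hw
  set lam : Fin d → ℝ := (ZSpan.floor b w : Fin d → ℝ) with hlam
  have hlamL : lam ∈ Submodule.span ℤ (Set.range b) := (ZSpan.floor b w).2
  have hfr : ‖w - lam‖ ≤ ∑ i, ‖b i‖ := by
    have := ZSpan.norm_fract_le b w
    rwa [ZSpan.fract_apply] at this
  have hge : ∀ i, ‖a - s‖ ≤ lam i := by
    intro i
    have h1 := norm_le_pi_norm (w - lam) i
    have h2 : w i - lam i ≤ ‖w - lam‖ := by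
      refine le_trans ?_ h1
      rw [Pi.sub_apply]
      exact Real.le_norm_self _
    have h3 : w i = N := rfl
    linarith only [hfr, h2]
  have hd : ∀ i, -‖a - s‖ ≤ a i - s i := by
    intro i
    have h1 := norm_le_pi_norm (a - s) i
    rw [Pi.sub_apply, Real.norm_eq_abs] at h1
    have := (abs_le.mp h1).1
    linarith only [this]
  have hns : 0 ≤ ‖a - s‖ := norm_nonneg _
  obtain ⟨z1, hz1⟩ := coset_floor A hsep h hs ((coset_span_mem A b hper hlamL s).mpr hs)
    (fun i => by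
      rw [Pi.add_apply]
      linarith [hge i])
  obtain ⟨z2, hz2⟩ := coset_floor A hsep h hs ((coset_span_mem A b hper hlamL a).mpr ha)
    (fun i => by
      rw [Pi.add_apply]
      linarith [hge i, hd i])
  refine ⟨z2 - z1, ?_⟩
  funext i
  have e1 := congrFun hz1 i
  have e2 := congrFun hz2 i
  simp only [Pi.add_apply, iv, Pi.sub_apply] at e1 e2 ⊢
  push_cast
  linarith

end Vale.Agent.P043.Eu
end
end

section

section

namespace Vale.Agent.P043.Eu

variable {d : ℕ}

/-- the group of periods of `B` -/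
def stab (B : Set (Fin d → ℤ)) : AddSubgroup (Fin d → ℤ) where
  carrier := {v | ∀ a, a + v ∈ B ↔ a ∈ B}
  zero_mem' := by intro a; rw [add_zero]
  add_mem' := by
    intro v w hv hw a
    rw [← add_assoc, hw, hv]
  neg_mem' := by
    intro v hv a
    rw [← hv (a + -v), neg_add_cancel_right]

/-- invariance under `d` linearly independent integer vectors gives a finite index subgroup -/
theorem perset_of_basis (B : Set (Fin d → ℤ)) (b : Module.Basis (Fin d) ℝ (Fin d → ℝ))
    (z : Fin d → (Fin d → ℤ)) (hb : ∀ i, b i = iv (z i))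
    (h : ∀ i, ∀ a, z i + a ∈ B ↔ a ∈ B) : PerSet B := by
  classical
  refine ⟨stab B, ?_, fun v hv a => hv a⟩
  have hz : ∀ i, z i ∈ stab B := by
    intro i a
    rw [add_comm]; exact h i a
  let M : Matrix (Fin d) (Fin d) ℤ := Matrix.of z
  have hdet : M.det ≠ 0 := by
    have hli : LinearIndependent ℝ (fun i => (M.map (Int.castRingHom ℝ)) i) := by
      have h1 : (fun i => (M.map (Int.castRingHom ℝ)) i) = b := by
        funext i
        rw [hb i]
        funext j
        simp [M, iv]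
      rw [h1]; exact b.linearIndependent
    have hunit := Matrix.linearIndependent_rows_iff_isUnit.1 hli
    have h2 : IsUnit (M.map (Int.castRingHom ℝ)).det := (Matrix.isUnit_iff_isUnit_det _).1 hunit
    have h3 : (M.map (Int.castRingHom ℝ)).det = ((M.det : ℤ) : ℝ) := by
      have := (Int.castRingHom ℝ).map_det M
      simpa only [Int.coe_castRingHom, RingHom.mapMatrix_apply, eq_intCast] using this.symm
    rw [h3] at h2
    intro h0
    rw [h0] at h2
    simp only [Int.cast_zero, isUnit_iff_ne_zero, ne_eq, not_true_eq_false] at h2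
  have hmem : ∀ v : Fin d → ℤ, M.det • v ∈ stab B := by
    intro v
    have h1 : M.det • v = ∑ i, (Matrix.vecMul v M.adjugate) i • z i := by
      have h2 : Matrix.vecMul (Matrix.vecMul v M.adjugate) M = M.det • v := by
        rw [Matrix.vecMul_vecMul, Matrix.adjugate_mul, Matrix.vecMul_smul, Matrix.vecMul_one]
      rw [← h2]
      funext j
      simp only [Matrix.vecMul, dotProduct, Matrix.of_apply, zsmul_eq_mul, Int.cast_sum, Int.cast_mul, Finset.sum_apply, Pi.mul_apply, Pi.intCast_apply, Int.cast_eq, M]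
    rw [h1]
    exact AddSubgroup.sum_mem _ fun i _ => AddSubgroup.zsmul_mem _ (hz i) _
  have htors : Module.IsTorsion ℤ ((Fin d → ℤ) ⧸ stab B) := by
    intro x
    obtain ⟨v, rfl⟩ := QuotientAddGroup.mk_surjective x
    refine ⟨⟨M.det, mem_nonZeroDivisors_of_ne_zero hdet⟩, ?_⟩
    show M.det • (QuotientAddGroup.mk v : (Fin d → ℤ) ⧸ stab B) = 0
    have h1 : M.det • (QuotientAddGroup.mk v : (Fin d → ℤ) ⧸ stab B)
        = QuotientAddGroup.mk (M.det • v) := rfl
    rw [h1]
    exact (QuotientAddGroup.eq_zero_iff _).2 (hmem v)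
  have hfg : Module.Finite ℤ ((Fin d → ℤ) ⧸ stab B) := by
    exact Module.Finite.of_surjective (QuotientAddGroup.mk' (stab B)).toIntLinearMap
      (QuotientAddGroup.mk'_surjective _)
  have hfin : Finite ((Fin d → ℤ) ⧸ stab B) := Module.finite_of_fg_torsion _ htors
  exact AddSubgroup.finiteIndex_of_finite_quotient

end Vale.Agent.P043.Eu
end
end

section

section

namespace Vale.Agent.P043.Eu

open MeasureTheory

variable {d : ℕ}

theorem iv_add (z w : Fin d → ℤ) : iv (z + w) = iv z + iv w := by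
  ext i; simp [iv]

theorem iv_sub (z w : Fin d → ℤ) : iv (z - w) = iv z - iv w := by
  ext i; simp only [iv, Pi.sub_apply, Int.cast_sub]

theorem iv_inj {z w : Fin d → ℤ} (h : iv z = iv w) : z = w := by
  ext i
  have := congrFun h i
  simpa [iv] using this

/-- two integer translates of `Rg` which share a point agree -/
theorem Rg_unique {x : Fin d → ℝ} {z w : Fin d → ℤ} (h : x - iv z ∈ Rg d) (h' : x - iv w ∈ Rg d) :
    z = w :=
  (Rg_fund x).unique h h'

theorem vol_shift (E : Set (Fin d → ℝ)) (y : Fin d → ℝ) :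
    volume {x | x - y ∈ E} = volume E := by
  have h2 : MeasurePreserving (fun x : Fin d → ℝ => x - y) volume volume :=
    measurePreserving_sub_right volume y
  have h3 : MeasurableEmbedding (fun x : Fin d → ℝ => x - y) :=
    (MeasurableEquiv.subRight y).measurableEmbedding
  exact h2.measure_preimage_emb h3 E

/-- the volume of `Rg` is positive -/
theorem Rg_pos (hd : 2 ≤ d) : 0 < volume (Rg d) := by
  have h := Rg_overlap hd 0 (by simp only [Pi.zero_apply, abs_zero, zero_lt_one, implies_true])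
  refine h.trans_le (measure_mono ?_)
  intro x hx
  exact hx.1

/-- Tilings of `ℝ^d` by `F + Rg` with periodic translation sets come from tilings of `ℤ^d` by `F`.
`Solves`, `PerSet`, `AperSys` are the definitions of `Vale.Agent.P043.Core`. -/
theorem euclid_of_discrete (hd : 2 ≤ d)
    (H : ∃ (P : Type) (_ : Finite P) (f : P → (Fin d → ℤ)), AperSys {f}) :
    ∃ Om : Set (Fin d → ℝ), Bornology.IsBounded Om ∧ MeasurableSet Om ∧ 0 < volume Om ∧
      (∃ A, TilesAE Om A) ∧ ∀ A, TilesAE Om A → ¬ LatticePeriodic A := by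
  obtain ⟨P, hP, f, ⟨A0, hA0⟩, hno⟩ := H
  have hA : Solves A0 f := hA0 f rfl
  obtain ⟨p00, hp00, _⟩ := hA 0
  have hfinj : Function.Injective f := by
    intro p q hpq
    have h1 : (f p + (0 - f p00)) - f p ∈ A0 := by simpa only [zero_sub, add_sub_cancel_left] using hp00
    have h2 : (f p + (0 - f p00)) - f q ∈ A0 := by rw [← hpq]; exact h1
    exact (hA (f p + (0 - f p00))).unique h1 h2
  set Om : Set (Fin d → ℝ) := {x | ∃ p, x - iv (f p) ∈ Rg d} with hOm
  have hOmU : Om = ⋃ p, {x | x - iv (f p) ∈ Rg d} := by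
    ext x; simp only [hOm, Set.mem_ofPred_eq, Set.mem_iUnion]
  have hbdd : Bornology.IsBounded Om := by
    rw [hOmU, Bornology.isBounded_iUnion]
    intro p
    have h1 := (Rg_bounded (d := d)).add (Bornology.isBounded_singleton (x := iv (f p)))
    refine h1.subset ?_
    intro x hx
    exact ⟨x - iv (f p), hx, iv (f p), rfl, by simp⟩
  have hms : MeasurableSet Om := by
    rw [hOmU]
    refine MeasurableSet.iUnion fun p => ?_
    exact (measurable_id.sub_const (iv (f p))) Rg_measurable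
  have hpos : 0 < volume Om := by
    have h1 : 0 < volume {x | x - iv (f p00) ∈ Rg d} := by
      rw [vol_shift]; exact Rg_pos hd
    refine h1.trans_le (measure_mono ?_)
    intro x hx
    exact ⟨p00, hx⟩
  refine ⟨Om, hbdd, hms, hpos, ⟨iv '' A0, ?_, ?_⟩, ?_⟩
  · -- existence: cover
    have : (⋃ a ∈ iv '' A0, {x | x - a ∈ Om}) = Set.univ := by
      rw [Set.eq_univ_iff_forall]
      intro x
      obtain ⟨z, hz, _⟩ := Rg_fund x
      obtain ⟨p, hp, _⟩ := hA z
      rw [Set.mem_iUnion₂]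
      refine ⟨iv (z - f p), ⟨_, hp, rfl⟩, p, ?_⟩
      rw [iv_sub]
      have : x - (iv z - iv (f p)) - iv (f p) = x - iv z := by abel
      rw [this]
      exact hz
    rw [this]
    simp
  · -- existence: disjointness
    rintro _ ⟨a, ha, rfl⟩ _ ⟨b, hb, rfl⟩ hab
    have : ({x | x - iv a ∈ Om} ∩ {x | x - iv b ∈ Om} : Set (Fin d → ℝ)) = ∅ := by
      rw [Set.eq_empty_iff_forall_notMem]
      rintro x ⟨⟨p, hp⟩, ⟨q, hq⟩⟩
      rw [sub_sub, ← iv_add] at hp hq
      have e := Rg_unique hp hq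
      have h1 : (a + f p) - f p ∈ A0 := by simpa using ha
      have h2 : (a + f p) - f q ∈ A0 := by rw [e]; simpa using hb
      have h3 := (hA (a + f p)).unique h1 h2
      apply hab
      rw [h3] at e
      rw [add_right_cancel e]
    rw [this]
    simp
  · rintro A ⟨hcov, hdisj⟩ ⟨b, hper⟩
    set A' : Set (Fin d → ℝ) := {y | ∃ a ∈ A, ∃ p, y = a + iv (f p)} with hA'
    have hsub : ∀ a p, {x | x - (a + iv (f p)) ∈ Rg d} ⊆ {x | x - a ∈ Om} := by
      intro a p x hx
      refine ⟨p, ?_⟩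
      rw [sub_sub]
      exact hx
    -- positive overlap of close translates
    have hover : ∀ y y' : Fin d → ℝ, (∀ i, |y i - y' i| < 1) →
        volume ({x | x - y ∈ Rg d} ∩ {x | x - y' ∈ Rg d}) ≠ 0 := by
      intro y y' hyy
      have h1 := Rg_overlap hd (y' - y) (fun i => by
        have := hyy i
        rw [abs_sub_comm] at this
        simpa only [Pi.sub_apply, gt_iff_lt] using this)
      rw [← vol_shift _ y] at h1
      refine ne_of_gt (h1.trans_le (measure_mono ?_))
      rintro x ⟨hx1, hx2⟩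
      refine ⟨hx1, ?_⟩
      have e : x - y - (y' - y) = x - y' := by abel
      rw [e] at hx2
      exact hx2
    have hsep : Sep A' := by
      rintro y ⟨a, ha, p, rfl⟩ y' ⟨a', ha', p', rfl⟩ hne
      by_contra hcon
      push Not at hcon
      by_cases haa : a = a'
      · subst haa
        apply hne
        have : f p = f p' := by
          ext i
          have := hcon i
          simp only [Pi.add_apply, iv, add_sub_add_left_eq_sub] at this
          have h1 : |f p i - f p' i| < 1 := by exact_mod_cast this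
          have h2 := Int.abs_lt_one_iff.1 h1
          omega
        rw [this]
      · have h1 := hdisj a ha a' ha' haa
        apply hover _ _ hcon
        exact measure_mono_null (Set.inter_subset_inter (hsub a p) (hsub a' p')) h1
    have htile : TilesAE (Rg d) A' := by
      refine ⟨measure_mono_null ?_ hcov, ?_⟩
      · apply Set.compl_subset_compl.2
        intro x hx
        rw [Set.mem_iUnion₂] at hx ⊢
        obtain ⟨a, ha, p, hp⟩ := hx
        refine ⟨a + iv (f p), ⟨a, ha, p, rfl⟩, ?_⟩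
        rw [sub_sub] at hp
        exact hp
      · rintro y ⟨a, ha, p, rfl⟩ y' ⟨a', ha', p', rfl⟩ hne
        by_cases haa : a = a'
        · subst haa
          have : ({x | x - (a + iv (f p)) ∈ Rg d} ∩ {x | x - (a + iv (f p')) ∈ Rg d} :
              Set (Fin d → ℝ)) = ∅ := by
            rw [Set.eq_empty_iff_forall_notMem]
            rintro x ⟨h1, h2⟩
            apply hne
            have h1' : x - a - iv (f p) ∈ Rg d := by rw [sub_sub]; exact h1
            have h2' : x - a - iv (f p') ∈ Rg d := by rw [sub_sub]; exact h2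
            rw [Rg_unique h1' h2']
          rw [this]
          simp
        · exact measure_mono_null (Set.inter_subset_inter (hsub a p) (hsub a' p'))
            (hdisj a ha a' ha' haa)
    have hper' : ∀ i, ∀ y, b i + y ∈ A' ↔ y ∈ A' := by
      intro i y
      constructor
      · rintro ⟨a, ha, p, h⟩
        refine ⟨-b i + a, ?_, p, ?_⟩
        · rw [← hper i]; simpa using ha
        · rw [add_assoc, ← h]; simp
      · rintro ⟨a, ha, p, rfl⟩
        exact ⟨b i + a, (hper i a).2 ha, p, by rw [add_assoc]⟩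
    have hcoset := lattice_coset A' hsep b hper' (corner A' hsep (count A' hsep b hper' htile))
    obtain ⟨a0, ha0⟩ : A.Nonempty := by
      by_contra hemp
      rw [Set.not_nonempty_iff_eq_empty] at hemp
      rw [hemp] at hcov
      simp only [Set.mem_empty_iff_false, Set.iUnion_of_empty, Set.iUnion_empty, Set.compl_empty, Measure.measure_univ_eq_zero] at hcov
      exact NeZero.ne (volume : Measure (Fin d → ℝ)) hcov
    have hs : a0 + iv (f p00) ∈ A' := ⟨a0, ha0, p00, rfl⟩
    apply hno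
    refine ⟨{z | a0 + iv z ∈ A}, ?_, ?_⟩
    · -- periodic
      have hz : ∀ i, ∃ z : Fin d → ℤ, b i = iv z := by
        intro i
        obtain ⟨z, hz⟩ := hcoset _ hs (b i + a0 + iv (f p00)) ⟨b i + a0, (hper i a0).2 ha0, p00, rfl⟩
        refine ⟨z, ?_⟩
        have e : b i + a0 + iv (f p00) = a0 + iv (f p00) + b i := by abel
        rw [e] at hz
        exact add_left_cancel hz
      choose z hz using hz
      refine perset_of_basis _ b z hz ?_
      intro i g
      change a0 + iv (z i + g) ∈ A ↔ a0 + iv g ∈ A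
      rw [iv_add, ← hz i, ← hper i (a0 + iv g)]
      have e : a0 + (b i + iv g) = b i + (a0 + iv g) := by abel
      rw [e]
    · rintro τ rfl g
      have hposg : volume {x | x - (a0 + iv g) ∈ Rg d} ≠ 0 := by
        rw [vol_shift]
        exact (Rg_pos hd).ne'
      apply existsUnique_of_exists_of_unique
      · -- existence
        have hnull := htile.1
        have : ∃ x, x ∈ {x | x - (a0 + iv g) ∈ Rg d} ∧ x ∈ ⋃ a ∈ A', {x | x - a ∈ Rg d} := by
          by_contra hcon
          push Not at hcon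
          apply hposg
          exact measure_mono_null (fun x hx => hcon x hx) hnull
        obtain ⟨x, hx1, hx2⟩ := this
        rw [Set.mem_iUnion₂] at hx2
        obtain ⟨y, hy, hxy⟩ := hx2
        obtain ⟨z, hz⟩ := hcoset _ hs y hy
        have h1 : x - a0 - iv g ∈ Rg d := by rw [sub_sub]; exact hx1
        have h2 : x - a0 - iv (τ p00 + z) ∈ Rg d := by
          rw [sub_sub, iv_add, ← add_assoc, ← hz]
          exact hxy
        have hgz := Rg_unique h1 h2
        obtain ⟨a, ha, p, hap⟩ := hy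
        refine ⟨p, ?_⟩
        change a0 + iv (g - τ p) ∈ A
        have e : a0 + iv (g - τ p) = a := by
          have e1 : a0 + iv g = a + iv (τ p) := by
            rw [← hap, hz, hgz, iv_add, add_assoc]
          rw [iv_sub, ← add_sub_assoc, e1]
          simp
        rw [e]
        exact ha
      · intro p q hp hq
        by_contra hne
        have hne' : a0 + iv (g - τ p) ≠ a0 + iv (g - τ q) := by
          intro h
          apply hne
          apply hfinj
          have := iv_inj (add_left_cancel h)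
          exact sub_right_injective this
        apply hposg
        refine measure_mono_null ?_ (hdisj _ hp _ hq hne')
        intro x hx
        have h3 : ∀ r, x - (a0 + iv (g - τ r)) - iv (τ r) = x - (a0 + iv g) := by
          intro r
          rw [iv_sub]; abel
        exact ⟨⟨p, by rw [h3]; exact hx⟩, ⟨q, by rw [h3]; exact hx⟩⟩

end Vale.Agent.P043.Eu
end
end

section

section

/-!
# Hybrid systems: integer horizontal positions, real vertical position
-/

namespace Vale.Agent.P043.Hy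

open Vale.Agent.P043 Vale.Agent.P043.Eu MeasureTheory

/-- horizontal integer position and vertical real position -/
abbrev H (k : ℕ) := (Fin k → ℤ) × ℝ

/-- the point of `ℝ^(k+1)`; the vertical coordinate is coordinate `0` -/
noncomputable def toR {k : ℕ} (g : H k) : Fin (k + 1) → ℝ := Fin.cons g.2 (iv g.1)

/-- `A + [0,1)`, vertical unit intervals -/
def Iv {k : ℕ} (A : Set (H k)) : Set (H k) :=
  {g | ∃ a ∈ A, a.1 = g.1 ∧ a.2 ≤ g.2 ∧ g.2 < a.2 + 1}

/-- the unit intervals which start at the points of `A` are disjoint -/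
def SepV {k : ℕ} (A : Set (H k)) : Prop :=
  ∀ a ∈ A, ∀ b ∈ A, a.1 = b.1 → a.2 ≤ b.2 → b.2 < a.2 + 1 → a = b

/-- invariance under a lattice of full rank -/
def PerH {k : ℕ} (A : Set (H k)) : Prop :=
  ∃ v : Fin (k + 1) → H k, LinearIndependent ℝ (fun i => toR (v i)) ∧
    ∀ i, ∀ a, v i + a ∈ A ↔ a ∈ A

/-- the system `S` has a solution but no lattice periodic solution -/
def AperH {k : ℕ} {P : Type} (S : Set (P → H k)) : Prop :=
  (∃ A : Set (H k), SepV A ∧ ∀ τ ∈ S, Solves (Iv A) τ) ∧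
    ¬ ∃ A : Set (H k), SepV A ∧ PerH A ∧ ∀ τ ∈ S, Solves (Iv A) τ

/-- two pieces have a vertical difference which is not an integer -/
def NonInt {k : ℕ} {P : Type} (τ : P → H k) : Prop :=
  ∃ p q, ∀ m : ℤ, (τ p).2 - (τ q).2 ≠ m

/-- the cell: `[0,1)` vertically, rigid fundamental domain horizontally -/
def Cell (k : ℕ) : Set (Fin (k + 1) → ℝ) := {x | (0 ≤ x 0 ∧ x 0 < 1) ∧ Fin.tail x ∈ Rg k}

/-- the full height column over the small box `Q j` -/
def QC {k : ℕ} (j : Fin k) : Set (Fin (k + 1) → ℝ) :=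
  {x | (0 ≤ x 0 ∧ x 0 < 1) ∧ Fin.tail x ∈ Q j}

/-- the tile -/
def Tile {k : ℕ} {P : Type} (τ : P → H k) : Set (Fin (k + 1) → ℝ) :=
  {x | ∃ p, x - toR (τ p) ∈ Cell k}

/-- all pieces of a translation set -/
def Pcs {k : ℕ} {P : Type} (τ : P → H k) (A : Set (Fin (k + 1) → ℝ)) : Set (Fin (k + 1) → ℝ) :=
  {y | ∃ a ∈ A, ∃ p, y = a + toR (τ p)}

end Vale.Agent.P043.Hy
end
end

section

section

/-!
# The hybrid system in `ℤ² × ℝ`
-/

namespace Vale.Agent.P043.Hy

open Vale.Agent.P043 Vale.Agent.P043.Eu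

/-- point `(x, y; z)` -/
def pt (x y : ℤ) (z : ℝ) : H 2 := (![x, y], z)

/-- index type of the pieces -/
abbrev PP := Fin 4 × Fin 4

/-- `{0,2} × {0,2,4,6} × {0,1}` -/
noncomputable def T1 (p : PP) : H 2 :=
  pt (2 * ((p.1 : ℕ) % 2 : ℕ)) (2 * ((p.2 : ℕ) : ℕ)) (((p.1 : ℕ) / 2 : ℕ) : ℝ)

/-- `T1` with both pieces over `(0,0)` moved to `(4,0)` -/
noncomputable def T1m (p : PP) : H 2 :=
  if (p.1 : ℕ) % 2 = 0 ∧ (p.2 : ℕ) = 0 then T1 p + pt 4 0 0 else T1 p

/-- `T1` with one piece moved by `c` -/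
noncomputable def T1c (c : H 2) (p : PP) : H 2 := if p = (0, 0) then T1 p + c else T1 p

/-- `{(0,2m), (2,2m+1)} × {0,1}` -/
noncomputable def T2 (p : PP) : H 2 :=
  pt (2 * ((p.1 : ℕ) % 2 : ℕ)) (2 * ((p.2 : ℕ) : ℕ) + ((p.1 : ℕ) % 2 : ℕ))
    (((p.1 : ℕ) / 2 : ℕ) : ℝ)

/-- `{(i,i), (i,i+4)} × {0,1}` -/
noncomputable def T3 (p : PP) : H 2 :=
  pt ((p.1 : ℕ) : ℕ) (((p.1 : ℕ) : ℕ) + 4 * ((p.2 : ℕ) % 2 : ℕ)) (((p.2 : ℕ) / 2 : ℕ) : ℝ)

/-- the drift tile -/
noncomputable def Om (β : ℝ) (p : PP) : H 2 :=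
  pt (((p.1 : ℕ) : ℕ) + ((p.2 : ℕ) : ℕ)) (2 * ((p.2 : ℕ) : ℕ))
    (β * ((p.1 : ℕ) : ℝ) + ((((p.1 : ℕ) + (p.2 : ℕ)) % 2 : ℕ) : ℝ))

/-- the system -/
def Sys (β : ℝ) : Set (PP → H 2) :=
  {T1, T1m, T1c (pt 0 8 0), T1c (pt 0 0 2), T2, T3, Om β}

end Vale.Agent.P043.Hy
end
end

section

section

/-!
# Solutions of the hybrid system give tilings
-/

namespace Vale.Agent.P043.Hy

open Vale.Agent.P043 Vale.Agent.P043.Eu MeasureTheory

theorem fy_toR_zero {k : ℕ} (g : H k) : toR g 0 = g.2 := by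
  simp [toR]

theorem fy_toR_succ {k : ℕ} (g : H k) (i : Fin k) : toR g i.succ = (g.1 i : ℝ) := by
  simp [toR, iv]

theorem fy_tail_toR {k : ℕ} (g : H k) : Fin.tail (toR g) = iv g.1 := by
  ext i
  simp [Fin.tail, toR]

theorem fy_tail_sub {k : ℕ} (x y : Fin (k + 1) → ℝ) :
    Fin.tail (x - y) = Fin.tail x - Fin.tail y := by
  ext i
  simp [Fin.tail]

theorem fy_self_mem {k : ℕ} {A : Set (H k)} {a : H k} (ha : a ∈ A) : a ∈ Iv A :=
  ⟨a, ha, rfl, le_rfl, by linarith⟩

/-- close pieces of a solvable tile agree -/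
theorem fy_close {k : ℕ} {P : Type} {τ : P → H k} {A : Set (H k)} (hA : Solves (Iv A) τ)
    {p q : P} (h : ∀ i, |toR (τ p) i - toR (τ q) i| < 1) (hle : (τ p).2 ≤ (τ q).2) : p = q := by
  obtain ⟨p0, ⟨a, ha, -⟩, -⟩ := hA 0
  have h1 : (τ p).1 = (τ q).1 := by
    ext i
    have h2 := h i.succ
    rw [fy_toR_succ, fy_toR_succ] at h2
    have h3 : |(τ p).1 i - (τ q).1 i| < 1 := by exact_mod_cast h2
    have h4 := Int.abs_lt_one_iff.1 h3
    omega
  have h0 := h 0
  rw [fy_toR_zero, fy_toR_zero, abs_lt] at h0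
  refine (hA (a + τ q)).unique ?_ ?_
  · refine ⟨a, ha, ?_, ?_, ?_⟩
    · rw [Prod.fst_sub, Prod.fst_add, h1]; simp
    · rw [Prod.snd_sub, Prod.snd_add]; linarith only [hle]
    · rw [Prod.snd_sub, Prod.snd_add]; linarith only [h0]
  · have : a + τ q - τ q = a := by abel
    show a + τ q - τ q ∈ Iv A
    rw [this]
    exact fy_self_mem ha

/-- the pieces of a solvable tile are separated -/
theorem tile_sep {k : ℕ} {P : Type} {τ : P → H k} {A : Set (H k)} (hA : Solves (Iv A) τ)
    {p q : P} (hpq : p ≠ q) : ∃ i, 1 ≤ |toR (τ p) i - toR (τ q) i| := by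
  by_contra hcon
  push Not at hcon
  rcases le_total (τ p).2 (τ q).2 with h | h
  · exact hpq (fy_close hA hcon h)
  · exact hpq (fy_close hA (fun i => by rw [abs_sub_comm]; exact hcon i) h).symm

theorem fy_unique {k : ℕ} {x : Fin k → ℝ} {z w : Fin k → ℤ} (h : x - iv z ∈ Rg k)
    (h' : x - iv w ∈ Rg k) : z = w :=
  (Rg_fund x).unique h h'

theorem fy_iv_add {k : ℕ} (z w : Fin k → ℤ) : iv (z + w) = iv z + iv w := by
  ext i; simp only [iv, Pi.add_apply, Int.cast_add]

/-- membership of a point in a piece of the tile at `a` -/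
theorem fy_mem {k : ℕ} (x : Fin (k + 1) → ℝ) (a b : H k) :
    x - toR a - toR b ∈ Cell k ↔
      (a.2 + b.2 ≤ x 0 ∧ x 0 < a.2 + b.2 + 1) ∧ Fin.tail x - iv (a.1 + b.1) ∈ Rg k := by
  have h1 : Fin.tail (x - toR a - toR b) = Fin.tail x - iv (a.1 + b.1) := by
    rw [fy_tail_sub, fy_tail_sub, fy_tail_toR, fy_tail_toR, fy_iv_add, sub_sub]
  have h2 : (x - toR a - toR b) 0 = x 0 - a.2 - b.2 := by
    rw [Pi.sub_apply, Pi.sub_apply, fy_toR_zero, fy_toR_zero]
  show ((0 ≤ (x - toR a - toR b) 0 ∧ (x - toR a - toR b) 0 < 1) ∧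
    Fin.tail (x - toR a - toR b) ∈ Rg k) ↔ _
  rw [h1, h2]
  constructor
  · rintro ⟨⟨h3, h4⟩, h5⟩
    exact ⟨⟨by linarith only [h3], by linarith only [h4]⟩, h5⟩
  · rintro ⟨⟨h3, h4⟩, h5⟩
    exact ⟨⟨by linarith, by linarith⟩, h5⟩

theorem tiles_of_solves {k : ℕ} {P : Type} {τ : P → H k} {A : Set (H k)}
    (hsep : SepV A) (hA : Solves (Iv A) τ) : TilesAE (Tile τ) (toR '' A) := by
  constructor
  · have : (⋃ a ∈ toR '' A, {x | x - a ∈ Tile τ}) = Set.univ := by
      rw [Set.eq_univ_iff_forall]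
      intro x
      obtain ⟨n, hn, -⟩ := Rg_fund (Fin.tail x)
      obtain ⟨p, ⟨a, ha, h1, h2, h3⟩, -⟩ := hA (n, x 0)
      rw [Set.mem_iUnion₂]
      refine ⟨toR a, ⟨a, ha, rfl⟩, p, ?_⟩
      rw [Prod.fst_sub] at h1
      rw [Prod.snd_sub] at h2 h3
      change a.2 ≤ x 0 - (τ p).2 at h2
      change x 0 - (τ p).2 < a.2 + 1 at h3
      change a.1 = n - (τ p).1 at h1
      rw [fy_mem]
      refine ⟨⟨by linarith, by linarith only [h3]⟩, ?_⟩
      rw [h1, sub_add_cancel]
      exact hn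
    rw [this]
    simp
  · rintro _ ⟨a, ha, rfl⟩ _ ⟨b, hb, rfl⟩ hab
    have : ({x | x - toR a ∈ Tile τ} ∩ {x | x - toR b ∈ Tile τ} : Set (Fin (k + 1) → ℝ)) = ∅ := by
      rw [Set.eq_empty_iff_forall_notMem]
      rintro x ⟨⟨p, hp⟩, ⟨q, hq⟩⟩
      rw [fy_mem] at hp hq
      obtain ⟨⟨hp1, hp2⟩, hp3⟩ := hp
      obtain ⟨⟨hq1, hq2⟩, hq3⟩ := hq
      have e := fy_unique hp3 hq3
      have h1 : ((a.1 + (τ p).1, x 0) : H k) - τ p ∈ Iv A := by
        refine ⟨a, ha, ?_, ?_, ?_⟩
        · rw [Prod.fst_sub]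
          show a.1 = a.1 + (τ p).1 - (τ p).1
          rw [add_sub_cancel_right]
        · rw [Prod.snd_sub]
          show a.2 ≤ x 0 - (τ p).2
          linarith only [hp1]
        · rw [Prod.snd_sub]
          show x 0 - (τ p).2 < a.2 + 1
          linarith only [hp2]
      have h2 : ((a.1 + (τ p).1, x 0) : H k) - τ q ∈ Iv A := by
        refine ⟨b, hb, ?_, ?_, ?_⟩
        · rw [Prod.fst_sub]
          show b.1 = a.1 + (τ p).1 - (τ q).1
          rw [e, add_sub_cancel_right]
        · rw [Prod.snd_sub]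
          show b.2 ≤ x 0 - (τ q).2
          linarith only [hq1]
        · rw [Prod.snd_sub]
          show x 0 - (τ q).2 < b.2 + 1
          linarith only [hq2]
      have h3 : p = q := (hA _).unique h1 h2
      subst h3
      have e1 : a.1 = b.1 := add_right_cancel e
      apply hab
      rcases le_total a.2 b.2 with h | h
      · rw [hsep a ha b hb e1 h (by linarith)]
      · rw [hsep b hb a ha e1.symm h (by linarith only [hp1, hq2])]
    rw [this]
    simp

end Vale.Agent.P043.Hy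
end
end

section

section

/-!
# The cell: measurability, boundedness, overlap; the volume count
-/

namespace Vale.Agent.P043.Hy

open Vale.Agent.P043 Vale.Agent.P043.Eu MeasureTheory

theorem c3_tail_measurable {k : ℕ} :
    Measurable (Fin.tail : (Fin (k + 1) → ℝ) → (Fin k → ℝ)) := by
  refine measurable_pi_iff.2 fun i => ?_
  exact measurable_pi_apply i.succ

theorem c3_col_measurable {k : ℕ} :
    MeasurableSet {x : Fin (k + 1) → ℝ | 0 ≤ x 0 ∧ x 0 < 1} := by
  have h : Measurable fun x : Fin (k + 1) → ℝ => x 0 := measurable_pi_apply 0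
  have h1 : {x : Fin (k + 1) → ℝ | 0 ≤ x 0 ∧ x 0 < 1} =
      (fun x : Fin (k + 1) → ℝ => x 0) ⁻¹' (Set.Ico 0 1) := rfl
  rw [h1]
  exact h measurableSet_Ico

theorem Cell_measurable {k : ℕ} : MeasurableSet (Cell k) :=
  c3_col_measurable.inter (c3_tail_measurable Rg_measurable)

theorem c3_QC_measurable {k : ℕ} (j : Fin k) : MeasurableSet (QC j) :=
  c3_col_measurable.inter (c3_tail_measurable (Q_measurable j))

theorem Cell_bounded {k : ℕ} : Bornology.IsBounded (Cell k) := by
  obtain ⟨R, hR⟩ := (Rg_bounded (d := k)).exists_norm_le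
  refine (Metric.isBounded_Icc (fun _ => -(max 1 R)) (fun _ => max 1 R)).subset ?_
  rintro x ⟨hx0, hx⟩
  have h1 : ∀ i, |x i| ≤ max 1 R := by
    intro i
    refine Fin.cases ?_ (fun j => ?_) i
    · rw [abs_of_nonneg hx0.1]
      exact hx0.2.le.trans (le_max_left _ _)
    · have h2 := norm_le_pi_norm (Fin.tail x) j
      rw [Real.norm_eq_abs] at h2
      exact (h2.trans (hR _ hx)).trans (le_max_right _ _)
  exact ⟨fun i => (abs_le.1 (h1 i)).1, fun i => (abs_le.1 (h1 i)).2⟩

theorem Cell_overlap {k : ℕ} (hk : 2 ≤ k) (a : Fin (k + 1) → ℝ) (ha : ∀ i, |a i| < 1) :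
    0 < volume {x | x ∈ Cell k ∧ x - a ∈ Cell k} := by
  classical
  set j0 : Fin k := ⟨0, by omega⟩ with hj0
  set j1 : Fin k := ⟨1, by omega⟩ with hj1
  set i0 : Fin (k + 1) := j0.succ with hi0
  set i1 : Fin (k + 1) := j1.succ with hi1
  have hne : i1 ≠ i0 := by
    intro h
    have := congrArg Fin.val h
    simp only [hi1, hj1, Fin.succ_mk, Nat.reduceAdd, hi0, hj0, zero_add, OfNat.ofNat_ne_one] at this
  set U : Set (Fin (k + 1) → ℝ) :=
    {x | (∀ i, 0 < x i ∧ x i < 1 ∧ 0 < x i - a i ∧ x i - a i < 1) ∧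
      (x i0 < 1 / 4 ∨ 5 / 8 < x i0) ∧ (x i1 - a i1 < 1 / 4 ∨ 5 / 8 < x i1 - a i1)} with hU
  have hUopen : IsOpen U := by
    have e : U = (⋂ i, {x : Fin (k + 1) → ℝ |
          0 < x i ∧ x i < 1 ∧ 0 < x i - a i ∧ x i - a i < 1}) ∩
        ({x | x i0 < 1 / 4 ∨ 5 / 8 < x i0} ∩ {x | x i1 - a i1 < 1 / 4 ∨ 5 / 8 < x i1 - a i1}) := by
      ext x
      simp only [hU, sub_pos, one_div, Set.mem_ofPred_eq, Set.mem_inter_iff, Set.mem_iInter]
    rw [e]
    have hc : ∀ i : Fin (k + 1), Continuous (fun x : Fin (k + 1) → ℝ => x i) :=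
      fun i => continuous_apply i
    have hca : ∀ i : Fin (k + 1), Continuous (fun x : Fin (k + 1) → ℝ => x i - a i) :=
      fun i => (hc i).sub continuous_const
    refine (isOpen_iInter_of_finite fun i => ?_).inter (IsOpen.inter ?_ ?_)
    · exact (isOpen_lt continuous_const (hc i)).inter ((isOpen_lt (hc i) continuous_const).inter
        ((isOpen_lt continuous_const (hca i)).inter (isOpen_lt (hca i) continuous_const)))
    · exact (isOpen_lt (hc i0) continuous_const).union (isOpen_lt continuous_const (hc i0))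
    · exact (isOpen_lt (hca i1) continuous_const).union (isOpen_lt continuous_const (hca i1))
  have hUne : U.Nonempty := by
    choose x0 hx0 hx0' using fun i => basic_line0 (a i) (ha i)
    choose x1 hx1 hx1' using fun i => basic_line1 (a i) (ha i)
    refine ⟨fun i => if i = i1 then x1 i else x0 i, ?_, ?_, ?_⟩
    · intro i
      by_cases h : i = i1
      · simp only [if_pos h]
        exact hx1 i
      · simp only [if_neg h]
        exact hx0 i
    · simp only [if_neg hne.symm]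
      exact hx0' i0
    · simp only [if_true]
      exact hx1' i1
  have hsub : U ⊆ {x | x ∈ Cell k ∧ x - a ∈ Cell k} := by
    rintro x ⟨hx, h0, h1⟩
    refine ⟨⟨⟨(hx 0).1.le, (hx 0).2.1⟩, Or.inl ⟨fun i => ⟨(hx i.succ).1.le, (hx i.succ).2.1⟩,
      fun j => basic_not_mem_Q (x := Fin.tail x) (i := j0) h0 j⟩⟩,
      ⟨⟨(hx 0).2.2.1.le, (hx 0).2.2.2⟩, Or.inl ⟨fun i => ⟨(hx i.succ).2.2.1.le,
        (hx i.succ).2.2.2⟩, fun j => ?_⟩⟩⟩
    exact basic_not_mem_Q (x := Fin.tail (x - a)) (i := j1) h1 j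
  exact lt_of_lt_of_le (hUopen.measure_pos volume hUne) (measure_mono hsub)

theorem c3_tail_sub_ev {k : ℕ} (y : Fin (k + 1) → ℝ) (j : Fin k) :
    Fin.tail (y - ev j.succ) = Fin.tail y - ev j := by
  funext i
  simp only [Fin.tail, Pi.sub_apply, ev]
  by_cases h : i = j
  · subst h; simp
  · rw [Pi.single_eq_of_ne h, Pi.single_eq_of_ne (fun h' => h (Fin.succ_injective _ h'))]

theorem c3_zero_sub_ev {k : ℕ} (y : Fin (k + 1) → ℝ) (j : Fin k) :
    (y - ev j.succ) 0 = y 0 := by
  simp only [Pi.sub_apply, ev]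
  rw [Pi.single_eq_of_ne (Fin.succ_ne_zero j).symm, sub_zero]

theorem c3_QC_subset_C {k : ℕ} (j : Fin k) : QC j ⊆ C (k + 1) := by
  rintro x ⟨hx0, hx⟩ i
  refine Fin.cases hx0 (fun l => ?_) i
  exact Q_subset_C j hx l

theorem c3_pointwise {k : ℕ} (y : Fin (k + 1) → ℝ) :
    (Cell k).indicator (1 : (Fin (k + 1) → ℝ) → ENNReal) y + ∑ j : Fin k, (QC j).indicator 1 y =
      (C (k + 1)).indicator 1 y + ∑ j : Fin k, (QC j).indicator 1 (y - ev j.succ) := by
  classical
  by_cases h0 : 0 ≤ y 0 ∧ y 0 < 1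
  · have key := pointwise (Fin.tail y)
    have e1 : (Cell k).indicator (1 : (Fin (k + 1) → ℝ) → ENNReal) y =
        (Rg k).indicator (1 : (Fin k → ℝ) → ENNReal) (Fin.tail y) := by
      simp only [Set.indicator_apply, Cell, Set.mem_ofPred_eq, h0, true_and, Pi.one_apply]
    have e2 : ∀ j : Fin k, (QC j).indicator (1 : (Fin (k + 1) → ℝ) → ENNReal) y =
        (Q j).indicator (1 : (Fin k → ℝ) → ENNReal) (Fin.tail y) := by
      intro j
      simp only [Set.indicator_apply, QC, Set.mem_ofPred_eq, h0, true_and, Pi.one_apply]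
    have e3 : (C (k + 1)).indicator (1 : (Fin (k + 1) → ℝ) → ENNReal) y =
        (C k).indicator (1 : (Fin k → ℝ) → ENNReal) (Fin.tail y) := by
      have h : y ∈ C (k + 1) ↔ Fin.tail y ∈ C k := by
        constructor
        · intro h i
          exact h i.succ
        · intro h i
          exact Fin.cases h0 (fun l => h l) i
      simp only [Set.indicator_apply, h, Pi.one_apply]
    have e4 : ∀ j : Fin k, (QC j).indicator (1 : (Fin (k + 1) → ℝ) → ENNReal) (y - ev j.succ) =
        (Q j).indicator (1 : (Fin k → ℝ) → ENNReal) (Fin.tail y - ev j) := by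
      intro j
      have h : y - ev j.succ ∈ QC j ↔ Fin.tail y - ev j ∈ Q j := by
        rw [← c3_tail_sub_ev]
        simp only [QC, Set.mem_ofPred_eq, c3_zero_sub_ev, h0, true_and, and_self]
      simp only [Set.indicator_apply, h, Pi.one_apply]
    rw [e1, e3, Finset.sum_congr rfl fun j _ => e2 j, Finset.sum_congr rfl fun j _ => e4 j]
    exact key
  · have e1 : (Cell k).indicator (1 : (Fin (k + 1) → ℝ) → ENNReal) y = 0 :=
      Set.indicator_of_notMem (fun h => h0 h.1) _
    have e2 : ∑ j : Fin k, (QC j).indicator (1 : (Fin (k + 1) → ℝ) → ENNReal) y = 0 :=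
      Finset.sum_eq_zero fun j _ => Set.indicator_of_notMem (fun h => h0 h.1) _
    have e3 : (C (k + 1)).indicator (1 : (Fin (k + 1) → ℝ) → ENNReal) y = 0 :=
      Set.indicator_of_notMem (fun h : y ∈ C (k + 1) => h0 (h 0)) _
    have e4 : ∑ j : Fin k,
        (QC j).indicator (1 : (Fin (k + 1) → ℝ) → ENNReal) (y - ev j.succ) = 0 := by
      refine Finset.sum_eq_zero fun j _ => Set.indicator_of_notMem (fun h => h0 ?_) _
      have h1 := h.1
      rwa [c3_zero_sub_ev] at h1
    rw [e1, e2, e3, e4]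

theorem c3_cnt_identity {k : ℕ} (A : Set (Fin (k + 1) → ℝ)) (x : Fin (k + 1) → ℝ) :
    cnt A (Cell k) x + ∑ j : Fin k, cnt A (QC j) x =
      cnt A (C (k + 1)) x + ∑ j : Fin k, cnt A (QC j) (x - ev j.succ) := by
  unfold cnt
  rw [← Summable.tsum_finsetSum (fun _ _ => ENNReal.summable),
    ← Summable.tsum_finsetSum (fun _ _ => ENNReal.summable), ← ENNReal.tsum_add,
    ← ENNReal.tsum_add]
  refine tsum_congr fun a => ?_
  have := c3_pointwise (x - (a : Fin (k + 1) → ℝ))
  rw [this]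
  congr 1
  refine Finset.sum_congr rfl fun j _ => ?_
  rw [sub_right_comm]

theorem countH {k : ℕ} (B : Set (Fin (k + 1) → ℝ)) (hsep : Sep B)
    (b : Module.Basis (Fin (k + 1)) ℝ (Fin (k + 1) → ℝ))
    (hper : ∀ i, ∀ a, b i + a ∈ B ↔ a ∈ B) (htile : TilesAE (Cell k) B) :
    ∀ᵐ x : Fin (k + 1) → ℝ, (∃ a ∈ B, x - a ∈ C (k + 1)) ∧
      ((∃ a ∈ B, ∃ j : Fin k, x - a - ev j.succ ∈ QC j) → ∃ a ∈ B, ∃ j : Fin k, x - a ∈ QC j) := by
  classical
  have hAc := hsep.countable
  have hAcount : Countable B := hAc.to_subtype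
  have hmeas : ∀ {E}, MeasurableSet E → Measurable (cnt B E) := fun h => cnt_measurable hAc h
  have hinv : ∀ E : Set (Fin (k + 1) → ℝ), ∀ v ∈ Submodule.span ℤ (Set.range b), ∀ x,
      cnt B E (v + x) = cnt B E x := fun E v hv x => cnt_add (mem_add_iff hper hv) x
  -- `cnt Cell = 1` almost everywhere
  have hRg : ∀ᵐ x : Fin (k + 1) → ℝ, cnt B (Cell k) x = 1 := by
    have h1 : ∀ᵐ x : Fin (k + 1) → ℝ, x ∈ ⋃ a ∈ B, {x | x - a ∈ Cell k} := by
      rw [ae_iff]
      exact htile.1
    have h2 : ∀ᵐ x : Fin (k + 1) → ℝ, ∀ a : B, ∀ a' : B, (a : Fin (k + 1) → ℝ) ≠ a' →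
        x ∉ {x | x - (a : Fin (k + 1) → ℝ) ∈ Cell k} ∩
          {x | x - (a' : Fin (k + 1) → ℝ) ∈ Cell k} := by
      rw [ae_all_iff]
      intro a
      rw [ae_all_iff]
      intro a'
      by_cases haa : (a : Fin (k + 1) → ℝ) = a'
      · exact Filter.Eventually.of_forall fun x h => absurd haa h
      · have h3 := htile.2 a a.2 a' a'.2 haa
        have h4 := measure_eq_zero_iff_ae_notMem.1 h3
        filter_upwards [h4] with x hx _ using hx
    filter_upwards [h1, h2] with x hx1 hx2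
    rw [Set.mem_iUnion₂] at hx1
    obtain ⟨a, ha, hxa⟩ := hx1
    refine cnt_eq_one ha hxa ?_
    intro a' ha' hxa'
    by_contra hne
    exact hx2 ⟨a', ha'⟩ ⟨a, ha⟩ hne ⟨hxa', hxa⟩
  set D := ZSpan.fundamentalDomain b with hDdef
  have hD := ZSpan.isAddFundamentalDomain' b (volume : Measure (Fin (k + 1) → ℝ))
  have hc : Countable (Submodule.span ℤ (Set.range b)) := inferInstance
  have hc' : Countable (Submodule.span ℤ (Set.range b)).toAddSubgroup := hc
  have hDfin : volume D ≠ ⊤ := (ZSpan.fundamentalDomain_isBounded b).measure_lt_top.ne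
  have hQfin : ∀ j : Fin k, ∫⁻ x in D, cnt B (QC j) x ≠ ⊤ := by
    intro j
    have h1 : ∫⁻ x in D, cnt B (QC j) x ≤ ∫⁻ x in D, 1 := by
      refine lintegral_mono fun x => ?_
      refine le_trans ?_ (cnt_C_le hsep x)
      refine ENNReal.tsum_le_tsum fun a => ?_
      exact Set.indicator_le_indicator_of_subset (c3_QC_subset_C j) (fun _ => bot_le) _
    rw [setLIntegral_one] at h1
    exact ne_top_of_le_ne_top hDfin h1
  have hI : (∫⁻ x in D, cnt B (Cell k) x) + ∑ j : Fin k, ∫⁻ x in D, cnt B (QC j) x =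
      (∫⁻ x in D, cnt B (C (k + 1)) x) +
        ∑ j : Fin k, ∫⁻ x in D, cnt B (QC j) (x - ev j.succ) := by
    have hms : ∀ j : Fin k, Measurable fun x => cnt B (QC j) (x - ev j.succ) := fun j =>
      (hmeas (c3_QC_measurable j)).comp (measurable_id.sub_const _)
    rw [← lintegral_finsetSum _ (fun j _ => hmeas (c3_QC_measurable j)),
      ← lintegral_finsetSum _ (fun j _ => hms j),
      ← lintegral_add_left (hmeas Cell_measurable), ← lintegral_add_left (hmeas C_measurable)]
    refine lintegral_congr fun x => ?_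
    exact c3_cnt_identity B x
  have hI2 : ∑ j : Fin k, ∫⁻ x in D, cnt B (QC j) (x - ev j.succ) =
      ∑ j : Fin k, ∫⁻ x in D, cnt B (QC j) x :=
    Finset.sum_congr rfl fun j _ => integral_shift b _ (hinv _) _
  rw [hI2] at hI
  have hSfin : ∑ j : Fin k, ∫⁻ x in D, cnt B (QC j) x ≠ ⊤ :=
    (ENNReal.sum_ne_top).2 fun j _ => hQfin j
  have hI3 : ∫⁻ x in D, cnt B (Cell k) x = ∫⁻ x in D, cnt B (C (k + 1)) x :=
    (ENNReal.add_left_inj hSfin).1 hI
  have hI4 : ∫⁻ x in D, cnt B (Cell k) x = volume D := by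
    rw [← setLIntegral_one]
    refine lintegral_congr_ae ?_
    exact ae_restrict_of_ae hRg
  -- `cnt C = 1` almost everywhere
  have hC : ∀ᵐ x : Fin (k + 1) → ℝ, cnt B (C (k + 1)) x = 1 := by
    have h1 : ∀ᵐ x ∂(volume.restrict D), cnt B (C (k + 1)) x = 1 := by
      have h2 : (fun x => cnt B (C (k + 1)) x) =ᵐ[volume.restrict D] fun _ => (1 : ENNReal) := by
        refine ae_eq_of_ae_le_of_lintegral_le
          (Filter.Eventually.of_forall fun x => cnt_C_le hsep x) ?_ aemeasurable_const ?_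
        · rw [← hI3, hI4]; exact hDfin
        · rw [← hI3, hI4, setLIntegral_one]
      exact h2
    have h2 : volume {x : Fin (k + 1) → ℝ | ¬ cnt B (C (k + 1)) x = 1} = 0 := by
      refine hD.measure_zero_of_invariant _ (fun v => ?_) ?_
      · ext x
        rw [Set.mem_vadd_set]
        constructor
        · rintro ⟨y, hy, rfl⟩
          change ¬ cnt B (C (k + 1)) ((v : Fin (k + 1) → ℝ) + y) = 1
          rw [hinv _ _ v.2]
          exact hy
        · intro hx
          refine ⟨(-v : (Submodule.span ℤ (Set.range b)).toAddSubgroup) +ᵥ x, ?_, ?_⟩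
          · change ¬ cnt B (C (k + 1))
              (((-v : (Submodule.span ℤ (Set.range b)).toAddSubgroup) : Fin (k + 1) → ℝ) + x) = 1
            rw [hinv _ _ (-v).2]
            exact hx
          · simp
      · have h3 := h1
        rw [ae_iff, Measure.restrict_apply' (ZSpan.fundamentalDomain_measurableSet b)] at h3
        exact h3
    rw [ae_iff]
    exact h2
  filter_upwards [hRg, hC] with x hx1 hx2
  refine ⟨mem_of_cnt_ne_zero (by rw [hx2]; exact one_ne_zero), ?_⟩
  rintro ⟨a, ha, j, hj⟩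
  have h1 := c3_cnt_identity B x
  rw [hx1, hx2] at h1
  have h2 : ∑ j : Fin k, cnt B (QC j) x = ∑ j : Fin k, cnt B (QC j) (x - ev j.succ) :=
    (ENNReal.add_right_inj ENNReal.one_ne_top).1 h1
  have h3 : 1 ≤ ∑ j : Fin k, cnt B (QC j) (x - ev j.succ) := by
    refine le_trans ?_ (Finset.single_le_sum (f := fun j : Fin k => cnt B (QC j) (x - ev j.succ))
      (fun _ _ => bot_le) (Finset.mem_univ j))
    refine one_le_cnt ha ?_
    rwa [sub_right_comm]
  have h4 : ∑ j : Fin k, cnt B (QC j) x ≠ 0 := by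
    rw [h2]
    intro h0
    rw [h0] at h3
    exact absurd h3 (by simp only [nonpos_iff_eq_zero, one_ne_zero, not_false_eq_true])
  obtain ⟨i, _, hi⟩ := Finset.exists_ne_zero_of_sum_ne_zero h4
  obtain ⟨a', ha', hx'⟩ := mem_of_cnt_ne_zero hi
  exact ⟨a', ha', i, hx'⟩

end Vale.Agent.P043.Hy
end
end

section

section

/-!
# `ℤ³`: definitions (blocks, row tiles, global tiles)

A *block* has a modulus `m`, two primes `P false`, `P true`.  Its fibre is
`FF m P = ZMod (m^3) × ∏_i ZMod (P i)`; the *row* group is `KK m P = ZMod (m^2) × ∏_i ZMod (P i)`,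
embedded in the fibre by `emb` (multiplication by `m` in the first coordinate).
-/

namespace Vale.Agent.P043.Z

open Vale.Agent.P043

/-- exchange lemma -/
theorem solves_exchange {G J : Type*} [AddCommGroup G] {f f' : J → G} {A : Set G}
    (h : Solves A f) (h' : Solves A f') (E : Set J) (hE : ∀ j, j ∉ E → f j = f' j) (g : G) :
    (∃ j ∈ E, g - f j ∈ A) ↔ (∃ j ∈ E, g - f' j ∈ A) := by
  constructor
  · rintro ⟨j, hj, hjA⟩
    obtain ⟨j', hj', -⟩ := h' g
    by_cases hjE : j' ∈ E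
    · exact ⟨j', hjE, hj'⟩
    · have h2 := (h g).unique hjA (show g - f j' ∈ A by rw [hE j' hjE]; exact hj')
      exact absurd (h2 ▸ hj) hjE
  · rintro ⟨j, hj, hjA⟩
    obtain ⟨j', hj', -⟩ := h g
    by_cases hjE : j' ∈ E
    · exact ⟨j', hjE, hj'⟩
    · have h2 := (h' g).unique hjA (show g - f' j' ∈ A by rw [← hE j' hjE]; exact hj')
      exact absurd (h2 ▸ hj) hjE

/-- graph of a function -/
def Gr {X K : Type*} (W : X → K) : Set (X × K) := {g | g.2 = W g.1}

/-- row group of a block -/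
abbrev KK (m : ℕ) (P : Bool → ℕ) := ZMod (m ^ 2) × ((i : Bool) → ZMod (P i))

/-- fibre of a block -/
abbrev FF (m : ℕ) (P : Bool → ℕ) := ZMod (m ^ 3) × ((i : Bool) → ZMod (P i))

/-- `e ↦ m e` from `ZMod (m^2)` to `ZMod (m^3)` -/
def emb1 (m : ℕ) : ZMod (m ^ 2) →+ ZMod (m ^ 3) :=
  ZMod.lift (m ^ 2) ⟨zmultiplesHom (ZMod (m ^ 3)) (m : ZMod (m ^ 3)), by
    rw [zmultiplesHom_apply]
    have h : ((m ^ 2 * m : ℕ) : ZMod (m ^ 3)) = 0 := by
      rw [← pow_succ]; exact ZMod.natCast_self _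
    rw [zsmul_eq_mul]
    push_cast at h ⊢
    exact h⟩

/-- embedding of the row group in the fibre -/
def emb (m : ℕ) (P : Bool → ℕ) (k : KK m P) : FF m P := (emb1 m k.1, k.2)

/-- the row of an element of the fibre -/
def rowOf (m : ℕ) (η : ZMod (m ^ 3)) : ZMod m :=
  ZMod.castHom (dvd_pow_self m (by norm_num : (3 : ℕ) ≠ 0)) (ZMod m) η

/-! ### Row tiles: maps `KK → ℤ × KK` -/

section RowTiles

variable (m : ℕ) (P : Bool → ℕ)

/-- lift a tile in the first coordinate -/
def lift0 (σ : ZMod (m ^ 2) → ℤ × ZMod (m ^ 2)) : KK m P → ℤ × KK m P :=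
  fun k => ((σ k.1).1, ((σ k.1).2, k.2))

/-- lift a tile in the first coordinate and the `i`-th prime coordinate -/
def lift1 (i : Bool) (σ : ZMod (m ^ 2) × ZMod (P i) → ℤ × (ZMod (m ^ 2) × ZMod (P i))) :
    KK m P → ℤ × KK m P :=
  fun k => ((σ (k.1, k.2 i)).1,
    ((σ (k.1, k.2 i)).2.1, Function.update k.2 i (σ (k.1, k.2 i)).2.2))

/-- label tile -/
def tL : ZMod (m ^ 2) → ℤ × ZMod (m ^ 2) := fun j =>
  if m ∣ j.val then ((m : ℤ), j + 1) else (0, j)

/-- periodicity tile -/
def tP : ZMod (m ^ 2) → ℤ × ZMod (m ^ 2) := fun j =>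
  if j = 0 then ((m : ℤ) ^ 2, 0) else (0, j)

/-- bijectivity tile -/
def tG : ZMod (m ^ 2) → ℤ × ZMod (m ^ 2) := fun j => (-(j.val : ℤ), j)

/-- holonomy tile -/
def tH (p : ℕ) : ZMod (m ^ 2) × ZMod p → ℤ × (ZMod (m ^ 2) × ZMod p) := fun j =>
  if j = (0, ((m ^ 2 : ℕ) : ZMod p)) then ((m : ℤ) ^ 2, (0, ((m ^ 2 : ℕ) : ZMod p)))
  else if j = (0, 0) then (-(m : ℤ) ^ 2, (0, 0))
  else (0, j)

/-- Families `J h a b` of subsets of `ZMod p` used in the two-frame tile. -/
structure JData (m p : ℕ) [NeZero m] where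
  J : Bool → ZMod m → ZMod m → Finset (ZMod p)
  nonempty : ∀ h a b, (J h a b).Nonempty
  card_eq : ∀ a b, (J false a b).card = (J true a b).card
  card_sum : ∑ a, ∑ b, (J false a b).card = m * p

/-- `τ` is a two-frame tile for the data `D`: its elements are, for all `i : ℤ` modulo `m^2`,
`b : ZMod m` and all pairs `(j0, j1)` of a bijection `J false i b ≃ J true i b`, the
`(Ξ; m b, j0)` with `Ξ ≡ i mod m^2`, `Ξ ≡ j0 - j1 mod p`. -/
def IsT {m p : ℕ} [NeZero m] (D : JData m p)
    (τ : ZMod (m ^ 2) × ZMod p → ℤ × (ZMod (m ^ 2) × ZMod p)) : Prop :=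
  ∃ (β : ZMod (m ^ 2) × ZMod p → ZMod m) (j0 j1 : ZMod (m ^ 2) × ZMod p → ZMod p),
    (∀ j, (τ j).2 = (((m * (β j).val : ℕ) : ZMod (m ^ 2)), j0 j)) ∧
    (∀ j, (((τ j).1 : ℤ) : ZMod p) = j0 j - j1 j) ∧
    (∀ (i : ℤ) (b : ZMod m) (x : ZMod p), x ∈ D.J false (i : ZMod m) b ↔
      ∃ j, (((τ j).1 : ℤ) : ZMod (m ^ 2)) = (i : ZMod (m ^ 2)) ∧ β j = b ∧ j0 j = x) ∧
    (∀ (i : ℤ) (b : ZMod m) (x : ZMod p), x ∈ D.J true (i : ZMod m) b ↔
      ∃ j, (((τ j).1 : ℤ) : ZMod (m ^ 2)) = (i : ZMod (m ^ 2)) ∧ β j = b ∧ j1 j = x) ∧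
    (∀ j j', (((τ j).1 : ℤ) : ZMod (m ^ 2)) = (((τ j').1 : ℤ) : ZMod (m ^ 2)) → β j = β j' →
      (j0 j = j0 j' ∨ j1 j = j1 j') → j = j')

end RowTiles

/-! ### Class data and the row functions they define -/

/-- class data: `κ α` label offset of the residue `α`, `b k α` digit, `ζ i k α` phase,
`h i k α` holonomy of the points of label `k` and residue `α`. -/
structure CD (m : ℕ) (P : Bool → ℕ) where
  κ : ZMod m → ZMod m
  b : ZMod m → ZMod m → ZMod m
  ζ : (i : Bool) → ZMod m → ZMod m → ZMod (P i)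
  h : Bool → ZMod m → ZMod m → Bool

section Rows

variable {m : ℕ} {P : Bool → ℕ}

/-- label of the position `ξ` -/
def lab (κ : ZMod m → ZMod m) (ξ : ℤ) : ZMod m := κ (ξ : ZMod m) + ((ξ / (m : ℤ) : ℤ) : ZMod m)

/-- first coordinate of the row function: `label + m * digit` -/
def rowE (κ : ZMod m → ZMod m) (b : ZMod m → ZMod m → ZMod m) (ξ : ℤ) : ZMod (m ^ 2) :=
  (((lab κ ξ).val + m * (b (lab κ ξ) (ξ : ZMod m)).val : ℕ) : ZMod (m ^ 2))

/-- prime coordinate of the row function: `phase + holonomy * position` -/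
def rowZ {p : ℕ} (κ : ZMod m → ZMod m) (ζ : ZMod m → ZMod m → ZMod p)
    (h : ZMod m → ZMod m → Bool) (ξ : ℤ) : ZMod p :=
  ζ (lab κ ξ) (ξ : ZMod m) + (if h (lab κ ξ) (ξ : ZMod m) then (ξ : ZMod p) else 0)

/-- the row function -/
def CD.W (D : CD m P) (ξ : ℤ) : KK m P :=
  (rowE D.κ D.b ξ, fun i => rowZ D.κ (D.ζ i) (D.h i) ξ)

/-- `U(s) = ∑_α b_{s-α}(α)` -/
def US [NeZero m] (b : ZMod m → ZMod m → ZMod m) (s : ZMod m) : ZMod m := ∑ α, b (s - α) α

/-- acceptance condition of the two-frame tile -/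
def Acc {p : ℕ} [NeZero m] (D : JData m p) (b : ZMod m → ZMod m → ZMod m)
    (ζ : ZMod m → ZMod m → ZMod p) (h : ZMod m → ZMod m → Bool) : Prop :=
  ∀ (x0 : ℤ) (k b0 : ZMod m) (z0 : ZMod p), ∃! a : ZMod m,
    z0 - ζ k ((x0 : ZMod m) - a) - (if h k ((x0 : ZMod m) - a) then (x0 : ZMod p) else 0) ∈
      D.J (h k ((x0 : ZMod m) - a)) a (b0 - b k ((x0 : ZMod m) - a))

end Rows

end Vale.Agent.P043.Z
end
end

section

section

/-!
# Star data: two-frame tiles with Sidon labels
-/

namespace Vale.Agent.P043.Z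

open Vale.Agent.P043

/-- Label data of a star tile. -/
structure Star (m : ℕ) where
  τ : Bool → ZMod m → ZMod m → ℕ
  dl : Bool → ZMod m → ZMod m → ℕ
  L : ℕ
  τ_lt : ∀ h a b, τ h a b < L
  dl_lt : ∀ h b a, dl h b a < L
  dl_inj : ∀ h b a a', a ≠ 0 → a' ≠ 0 → dl h b a = dl h b a' → a = a'
  nc : ∀ h a, a ≠ 0 → ∃ b b', τ h a b ≠ τ h a b'

/-- embedding of labels -/
def φ (p : ℕ) (n : ℕ) : ZMod p := ((2 ^ n : ℕ) : ZMod p)

variable {m : ℕ}

open Classical in
/-- the families of a star tile -/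
noncomputable def Star.Jf [NeZero m] (S : Star m) (p : ℕ) [NeZero p] :
    Bool → ZMod m → ZMod m → Finset (ZMod p) := fun h a b =>
  if a = 0 then Finset.univ \ ((Finset.univ.erase (0 : ZMod m)).image fun a' => φ p (S.dl h b a'))
  else {φ p (S.τ h a b)}

/-- label condition for one class -/
def Star.Ok (S : Star m) (h : Bool) (b : ZMod m → ZMod m) : Prop :=
  ∀ x β a : ZMod m, a ≠ 0 → ∃ a', a' ≠ 0 ∧ S.τ h a (β + b x - b (x - a)) = S.dl h β a'

/-- injectivity condition for one class -/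
def Star.Inj (S : Star m) (h : Bool) (b : ZMod m → ZMod m) : Prop :=
  ∀ x β a a' : ZMod m, a ≠ 0 → a' ≠ 0 →
    S.τ h a (β + b x - b (x - a)) = S.τ h a' (β + b x - b (x - a')) → a = a'

/-- label of an unordered pair -/
def pairLab (m : ℕ) (b c : ZMod m) : ℕ := min b.val c.val * m + max b.val c.val

/-- label of an ordered pair -/
def ordLab (m : ℕ) (a b : ZMod m) : ℕ := m * m + (a.val * m + b.val)

/-- sign -/
def sg (m : ℕ) (i : Bool) : ZMod m := if i then -1 else 1

end Vale.Agent.P043.Z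
end
end

section

section

/-!
# Blocks: definitions
-/

namespace Vale.Agent.P043.Z

open Vale.Agent.P043

/-- the row tiles of a block with two-frame tiles `τ i` -/
def rowTiles (m : ℕ) (P : Bool → ℕ)
    (τ : (i : Bool) → ZMod (m ^ 2) × ZMod (P i) → ℤ × (ZMod (m ^ 2) × ZMod (P i))) :
    Set (KK m P → ℤ × KK m P) :=
  {lift0 m P (tL m), lift0 m P (tP m), lift0 m P (tG m),
    lift1 m P false (tH m (P false)), lift1 m P true (tH m (P true)),
    lift1 m P false (τ false), lift1 m P true (τ true)}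

/-- numerical hypotheses on a block: `θ ≡ σ m mod m^2`, `θ ≡ 0 mod P i` -/
structure Num (m : ℕ) (P : Bool → ℕ) (θ : ℤ) (σ : ℕ) (L : ℕ) : Prop where
  big : ∀ i, 2 ^ (L + 1) < P i
  big' : ∀ i, m < P i
  co : ∀ i, Nat.Coprime m (P i)
  θm : (θ : ZMod (m ^ 2)) = ((σ * m : ℕ) : ZMod (m ^ 2))
  θP : ∀ i, (θ : ZMod (P i)) = 0

/-- all rows over `ξ` agree in the `i`-th prime coordinate -/
def Neu {m : ℕ} {P : Bool → ℕ} (θ : ℤ) (W : ℤ → KK m P) (i : Bool) (ξ : ℤ) : Prop :=
  ∀ c : ℕ, (W (ξ - c * θ)).2 i = (W ξ).2 i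

/-- parity of the first coordinate -/
def par4 {P : Bool → ℕ} (w : KK 4 P) : ZMod 2 := ((w.1.val : ℕ) : ZMod 2)

/-- Abstract description of what the global construction needs from a block. -/
structure Blk where
  m : ℕ
  P : Bool → ℕ
  θ : ℤ
  T : Set (KK m P → ℤ × KK m P)
  fin : T.Finite
  hm : 2 ≤ m
  hP : ∀ i, 1 < P i

/-- the block is a bit block -/
def Blk.IsBit (B : Blk) : Prop :=
  (∀ W : ℤ → KK B.m B.P, (∀ t ∈ B.T, Solves (Gr W) t) →
    ∃ (st : Bool) (g : ZMod (B.P st)), ∀ ξ : ℤ, Neu B.θ W st ξ → (ξ : ZMod (B.P st)) = g) ∧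
  (∀ st : Bool, ∃ W : ℤ → KK B.m B.P, (∀ t ∈ B.T, Solves (Gr W) t) ∧
      (∀ ξ, W (ξ + B.m * B.θ) = W ξ) ∧ ∀ ξ, Neu B.θ W (!st) ξ)

/-- the block is a seed block -/
def Blk.IsSeed (B : Blk) (pr : KK B.m B.P → ZMod 2) : Prop :=
  (∀ W : ℤ → KK B.m B.P, (∀ t ∈ B.T, Solves (Gr W) t) →
    (∀ ξ, pr (W (ξ + 4)) = pr (W ξ) + 1) ∧
    ∃ (e : Bool → ZMod 2) (g : (i : Bool) → ZMod (B.P i)), ∀ i ξ, pr (W ξ) = e i →
      Neu B.θ W i ξ → (ξ : ZMod (B.P i)) = g i) ∧
  (∃ W : ℤ → KK B.m B.P, (∀ t ∈ B.T, Solves (Gr W) t) ∧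
      (∀ ξ, W (ξ + B.m * B.θ) = W ξ) ∧
      ∀ (i : Bool) (ξ : ℤ), (ξ / 4) % 2 ≠ (if i then 1 else 0) → Neu B.θ W i ξ)

end Vale.Agent.P043.Z
end
end

section

section

/-!
# Forcing in the bit block
-/

namespace Vale.Agent.P043.Z

open Vale.Agent.P043

theorem bitOk_digits {m u v u' v' : ℕ} (hv : v < m) (hv' : v' < m)
    (h : u * m + v = u' * m + v') : u = u' ∧ v = v' := by
  have hm : 0 < m := by omega
  have h1 : (u * m + v) % m = (u' * m + v') % m := by rw [h]
  have h2 : (u * m + v) / m = (u' * m + v') / m := by rw [h]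
  rw [Nat.mul_add_mod_self_right, Nat.mul_add_mod_self_right, Nat.mod_eq_of_lt hv,
    Nat.mod_eq_of_lt hv'] at h1
  subst h1
  refine ⟨?_, rfl⟩
  have h3 : u * m = u' * m := by omega
  exact Nat.eq_of_mul_eq_mul_right hm h3

theorem bitOk_ordLab {m : ℕ} [NeZero m] {a b a' b' : ZMod m}
    (h : ordLab m a b = ordLab m a' b') : a = a' ∧ b = b' := by
  unfold ordLab at h
  have h1 : a.val * m + b.val = a'.val * m + b'.val := by omega
  have h2 := bitOk_digits (ZMod.val_lt b) (ZMod.val_lt b') h1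
  exact ⟨ZMod.val_injective m h2.1, ZMod.val_injective m h2.2⟩

theorem bitOk_pairLab {m : ℕ} [NeZero m] {b c b' c' : ZMod m}
    (h : pairLab m b c = pairLab m b' c') : b' = b ∨ b' = c := by
  unfold pairLab at h
  have hb := ZMod.val_lt b
  have hc := ZMod.val_lt c
  have hb' := ZMod.val_lt b'
  have hc' := ZMod.val_lt c'
  have h2 := bitOk_digits (max_lt hb hc) (max_lt hb' hc') h
  have h3 : b'.val = b.val ∨ b'.val = c.val := by omega
  rcases h3 with h3 | h3
  · exact Or.inl (ZMod.val_injective m h3)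
  · exact Or.inr (ZMod.val_injective m h3)

/-- forcing in the bit block -/
theorem bit_ok {m : ℕ} (hm : 3 ≤ m) (i : Bool) (S : Star m)
    (h1 : ∀ a b, S.τ true a b = pairLab m b (b + sg m i * a))
    (h2 : ∀ b a, S.dl true b a = pairLab m b (b + a))
    (h3 : ∀ a b, S.τ false a b = ordLab m (sg m i * a) (b - sg m i * a))
    (h4 : ∀ b a, S.dl false b a = ordLab m a b) (hk : Bool) (b : ZMod m → ZMod m)
    (hok : S.Ok hk b) :
    (hk = true → (∀ α, b α = b 0) ∨ (∀ α, b α = b 0 - sg m i * α)) ∧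
    (hk = false → ∀ α, b α = b 0 + sg m i * α) := by
  have : NeZero m := ⟨by omega⟩
  constructor
  · intro hk1
    subst hk1
    have key : ∀ x y : ZMod m, b x = b y ∨ b x + sg m i * x = b y + sg m i * y := by
      intro x y
      by_cases hxy : x = y
      · exact Or.inl (by rw [hxy])
      · obtain ⟨a', -, ha'⟩ := hok x 0 (x - y) (sub_ne_zero.mpr hxy)
        rw [h1, h2] at ha'
        have e : x - (x - y) = y := by ring
        rw [e] at ha'
        rcases bitOk_pairLab ha' with h | h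
        · left
          linear_combination -h
        · right
          linear_combination -h
    by_contra hcon
    push Not at hcon
    obtain ⟨⟨y1, hy1⟩, ⟨y2, hy2⟩⟩ := hcon
    have e1 : b y1 + sg m i * y1 = b 0 + sg m i * 0 := (key y1 0).resolve_left hy1
    have e2 : b y2 = b 0 := by
      refine (key y2 0).resolve_right ?_
      intro h
      apply hy2
      linear_combination h
    rcases key y1 y2 with h | h
    · exact hy1 (h.trans e2)
    · apply hy2
      linear_combination e1 - h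
  · intro hk1
    subst hk1
    intro α
    by_cases hα : α = 0
    · rw [hα]; ring
    · obtain ⟨a', -, ha'⟩ := hok α 0 α hα
      rw [h3, h4] at ha'
      have h := (bitOk_ordLab ha').2
      rw [sub_self] at h
      linear_combination h

end Vale.Agent.P043.Z
end
end

section

section

/-!
# Acceptance in the bit block
-/

namespace Vale.Agent.P043.Z

open Vale.Agent.P043

theorem bitAcc_sg_mul_sg {m : ℕ} (i : Bool) : sg m i * sg m i = 1 := by
  cases i <;> simp [sg]

theorem bitAcc_sg_inj {m : ℕ} (i : Bool) {a a' : ZMod m} (h : sg m i * a = sg m i * a') :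
    a = a' := by
  have h1 := bitAcc_sg_mul_sg (m := m) i
  linear_combination sg m i * h + (a' - a) * h1

theorem bitAcc_sg_ne {m : ℕ} (i : Bool) {a : ZMod m} (h : a ≠ 0) : sg m i * a ≠ 0 := by
  intro h1
  exact h (bitAcc_sg_inj i (by rw [h1, mul_zero]))

theorem bitAcc_pairLab_comm {m : ℕ} (b c : ZMod m) : pairLab m b c = pairLab m c b := by
  unfold pairLab
  rw [min_comm, max_comm]

theorem bitAcc_pairLab_inj {m : ℕ} [NeZero m] {b c c' : ZMod m} (hc' : c' ≠ b)
    (h : pairLab m b c = pairLab m b c') : c = c' := by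
  rw [bitAcc_pairLab_comm b c, bitAcc_pairLab_comm b c'] at h
  rcases bitOk_pairLab h with h1 | h1
  · exact h1.symm
  · exact absurd h1 hc'

/-- acceptance in the bit block -/
theorem bit_acc {m : ℕ} (hm : 3 ≤ m) (i : Bool) (S : Star m)
    (h1 : ∀ a b, S.τ true a b = pairLab m b (b + sg m i * a))
    (h2 : ∀ b a, S.dl true b a = pairLab m b (b + a))
    (h3 : ∀ a b, S.τ false a b = ordLab m (sg m i * a) (b - sg m i * a))
    (h4 : ∀ b a, S.dl false b a = ordLab m a b) (hk : Bool) (b : ZMod m → ZMod m)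
    (hb : (hk = true ∧ ((∀ α, b α = b 0) ∨ (∀ α, b α = b 0 - sg m i * α))) ∨
      (hk = false ∧ ∀ α, b α = b 0 + sg m i * α)) : S.Ok hk b ∧ S.Inj hk b := by
  have : NeZero m := ⟨by omega⟩
  rcases hb with ⟨rfl, hb | hb⟩ | ⟨rfl, hb⟩
  · have e : ∀ x β a : ZMod m, β + b x - b (x - a) = β := by
      intro x β a
      rw [hb x, hb (x - a)]
      ring
    constructor
    · intro x β a ha
      refine ⟨sg m i * a, bitAcc_sg_ne i ha, ?_⟩
      rw [e, h1, h2]
    · intro x β a a' _ ha' h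
      rw [e, e, h1, h1] at h
      have h5 := bitAcc_pairLab_inj (fun h6 => bitAcc_sg_ne i ha' (by
        linear_combination h6)) h
      exact bitAcc_sg_inj i (by linear_combination h5)
  · have e : ∀ x β a : ZMod m, β + b x - b (x - a) = β - sg m i * a := by
      intro x β a
      rw [hb x, hb (x - a)]
      ring
    have e2 : ∀ β a : ZMod m, β - sg m i * a + sg m i * a = β := fun β a => by ring
    constructor
    · intro x β a ha
      refine ⟨-(sg m i * a), neg_ne_zero.2 (bitAcc_sg_ne i ha), ?_⟩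
      rw [e, h1, h2, e2, bitAcc_pairLab_comm, ← sub_eq_add_neg]
    · intro x β a a' _ ha' h
      rw [e, e, h1, h1, e2, e2, bitAcc_pairLab_comm _ β, bitAcc_pairLab_comm _ β] at h
      have h5 := bitAcc_pairLab_inj (fun h6 => bitAcc_sg_ne i ha' (by
        linear_combination -h6)) h
      exact bitAcc_sg_inj i (by linear_combination -h5)
  · have e : ∀ x β a : ZMod m, β + b x - b (x - a) = β + sg m i * a := by
      intro x β a
      rw [hb x, hb (x - a)]
      ring
    have e2 : ∀ β a : ZMod m, β + sg m i * a - sg m i * a = β := fun β a => by ring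
    constructor
    · intro x β a ha
      refine ⟨sg m i * a, bitAcc_sg_ne i ha, ?_⟩
      rw [e, h3, h4, e2]
    · intro x β a a' _ _ h
      rw [e, e, h3, h3, e2, e2] at h
      exact bitAcc_sg_inj i (bitOk_ordLab h).1

end Vale.Agent.P043.Z
end
end

section

section

/-!
# The star data of the bit block
-/

namespace Vale.Agent.P043.Z

open Vale.Agent.P043

theorem bitStar_pair_aux {m x y x' y' : ℕ} (hx : x < m) (hy : y < m) (hx' : x' < m) (hy' : y' < m)
    (h : min x y * m + max x y = min x' y' * m + max x' y') :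
    (x = x' ∧ y = y') ∨ (x = y' ∧ y = x') := by
  have h1 : max x y < m := max_lt hx hy
  have h2 : max x' y' < m := max_lt hx' hy'
  have hm : 0 < m := by omega
  have e1 : (min x y * m + max x y) / m = min x y := by
    rw [add_comm, Nat.add_mul_div_right _ _ hm, Nat.div_eq_of_lt h1, zero_add]
  have e2 : (min x' y' * m + max x' y') / m = min x' y' := by
    rw [add_comm, Nat.add_mul_div_right _ _ hm, Nat.div_eq_of_lt h2, zero_add]
  have e3 : min x y = min x' y' := by rw [← e1, ← e2, h]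
  have e4 : max x y = max x' y' := by
    rw [e3] at h
    omega
  (clear * - e3 e4; omega)

theorem bitStar_pairLab_lt {m : ℕ} [NeZero m] (b c : ZMod m) : pairLab m b c < 2 * m * m := by
  have hb := ZMod.val_lt b
  have hc := ZMod.val_lt c
  unfold pairLab
  have h1 : max b.val c.val < m := max_lt hb hc
  have h2 : min b.val c.val + 1 ≤ m := by omega
  have h3 : (min b.val c.val + 1) * m ≤ m * m := Nat.mul_le_mul_right m h2
  nlinarith only [h1, h3]

theorem bitStar_ordLab_lt {m : ℕ} [NeZero m] (b c : ZMod m) : ordLab m b c < 2 * m * m := by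
  have hb := ZMod.val_lt b
  have hc := ZMod.val_lt c
  unfold ordLab
  have h2 : b.val + 1 ≤ m := by omega
  have h3 : (b.val + 1) * m ≤ m * m := Nat.mul_le_mul_right m h2
  linarith

theorem bitStar_pairLab_eq {m : ℕ} [NeZero m] {b c b' c' : ZMod m}
    (h : pairLab m b c = pairLab m b' c') : (b = b' ∧ c = c') ∨ (b = c' ∧ c = b') := by
  unfold pairLab at h
  rcases bitStar_pair_aux (ZMod.val_lt b) (ZMod.val_lt c) (ZMod.val_lt b') (ZMod.val_lt c') h with
    ⟨h1, h2⟩ | ⟨h1, h2⟩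
  · exact Or.inl ⟨ZMod.val_injective m h1, ZMod.val_injective m h2⟩
  · exact Or.inr ⟨ZMod.val_injective m h1, ZMod.val_injective m h2⟩

theorem bitStar_ordLab_eq {m : ℕ} [NeZero m] {b c b' c' : ZMod m}
    (h : ordLab m b c = ordLab m b' c') : b = b' ∧ c = c' := by
  unfold ordLab at h
  have hm : 0 < m := Nat.pos_of_ne_zero (NeZero.ne m)
  have h0 : b.val * m + c.val = b'.val * m + c'.val := by omega
  have e1 : (b.val * m + c.val) / m = b.val := by
    rw [add_comm, Nat.add_mul_div_right _ _ hm, Nat.div_eq_of_lt (ZMod.val_lt c), zero_add]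
  have e2 : (b'.val * m + c'.val) / m = b'.val := by
    rw [add_comm, Nat.add_mul_div_right _ _ hm, Nat.div_eq_of_lt (ZMod.val_lt c'), zero_add]
  have e3 : b.val = b'.val := by rw [← e1, ← e2, h0]
  have e4 : c.val = c'.val := by
    rw [e3] at h0
    omega
  exact ⟨ZMod.val_injective m e3, ZMod.val_injective m e4⟩

theorem bitStar_sg_ne {m : ℕ} (i : Bool) {a : ZMod m} (ha : a ≠ 0) : sg m i * a ≠ 0 := by
  cases i
  · simpa [sg] using ha
  · simpa [sg] using ha

theorem exists_bitStar {m : ℕ} (hm : 3 ≤ m) (i : Bool) : ∃ S : Star m, S.L = 2 * m * m ∧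
    (∀ a b, S.τ true a b = pairLab m b (b + sg m i * a)) ∧
    (∀ b a, S.dl true b a = pairLab m b (b + a)) ∧
    (∀ a b, S.τ false a b = ordLab m (sg m i * a) (b - sg m i * a)) ∧
    (∀ b a, S.dl false b a = ordLab m a b) := by
  have : NeZero m := ⟨by omega⟩
  have : Fact (1 < m) := ⟨by omega⟩
  refine ⟨{ τ := fun h a b => if h then pairLab m b (b + sg m i * a)
              else ordLab m (sg m i * a) (b - sg m i * a)
            dl := fun h b a => if h then pairLab m b (b + a) else ordLab m a b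
            L := 2 * m * m
            τ_lt := ?_
            dl_lt := ?_
            dl_inj := ?_
            nc := ?_ }, rfl, fun a b => rfl, fun b a => rfl, fun a b => rfl, fun b a => rfl⟩
  · intro h a b
    cases h
    · exact bitStar_ordLab_lt _ _
    · exact bitStar_pairLab_lt _ _
  · intro h b a
    cases h
    · exact bitStar_ordLab_lt _ _
    · exact bitStar_pairLab_lt _ _
  · intro h b a a' _ _ hab
    cases h
    · exact (bitStar_ordLab_eq hab).1
    · have hab' : pairLab m b (b + a) = pairLab m b (b + a') := hab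
      rcases bitStar_pairLab_eq hab' with ⟨_, h2⟩ | ⟨h1, h2⟩
      · exact add_left_cancel h2
      · have h3 : b + a = b + a' := h2.trans h1
        exact add_left_cancel h3
  · intro h a ha
    cases h
    · refine ⟨sg m i * a, sg m i * a + 1, fun hEq => ?_⟩
      have hEq' : ordLab m (sg m i * a) (sg m i * a - sg m i * a) =
          ordLab m (sg m i * a) (sg m i * a + 1 - sg m i * a) := hEq
      have h2 := (bitStar_ordLab_eq hEq').2
      rw [sub_self, add_sub_cancel_left] at h2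
      exact zero_ne_one h2
    · have hc := bitStar_sg_ne i ha
      obtain ⟨b', hb'⟩ : ∃ b' : ZMod m, b' ∉ ({0, sg m i * a} : Finset (ZMod m)) := by
        by_contra hcon
        push Not at hcon
        have h1 : (Finset.univ : Finset (ZMod m)).card ≤ ({0, sg m i * a} : Finset (ZMod m)).card :=
          Finset.card_le_card (fun x _ => hcon x)
        have h2 : ({0, sg m i * a} : Finset (ZMod m)).card ≤ 2 := Finset.card_le_two
        rw [Finset.card_univ, ZMod.card] at h1
        omega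
      simp only [Finset.mem_insert, Finset.mem_singleton, not_or] at hb'
      refine ⟨0, b', fun hEq => ?_⟩
      have hEq' : pairLab m 0 (0 + sg m i * a) = pairLab m b' (b' + sg m i * a) := hEq
      rcases bitStar_pairLab_eq hEq' with ⟨h1, _⟩ | ⟨_, h2⟩
      · exact hb'.1 h1.symm
      · rw [zero_add] at h2
        exact hb'.2 h2.symm

end Vale.Agent.P043.Z
end
end

section

section

namespace Vale.Agent.P043

/-- first coordinate form of the class `X` -/
def aX (X : Fin 3) (y : ℤ × ℤ) : ℤ := if X = 0 then y.2 else if X = 1 then y.1 else y.1 - y.2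

/-- second coordinate form of the class `X` -/
def bX (X : Fin 3) (y : ℤ × ℤ) : ℤ := if X = 0 then y.1 else y.2

/-- the linear form of the line family `(X, k)` -/
def nX (X : Fin 3) (k : Fin 5) (y : ℤ × ℤ) : ℤ := aX X y - 2 * (k : ℕ) * bX X y

def Pat (μ : Fin 5 → ZMod 3) (l : ZMod 3) : Prop :=
  (μ 0 = l ∧ μ 2 = l ∧ μ 4 = l ∧ (μ 1 = l + 1 ∨ μ 3 = l + 1)) ∨
  (μ 1 = l ∧ μ 3 = l ∧ ((μ 0 = l + 1 ∧ μ 4 = l + 1) ∨ μ 2 = l + 1))

def Om (s : Fin 3 → Fin 5 → ZMod 3) : Prop :=
  ∃ (l : ZMod 3) (X : Fin 3), (∀ X', X' ≠ X → ∀ k, s X' k = l) ∧ Pat (s X) (l + 1)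

def H1 (f : Fin 3 → Fin 5 → ℤ → ZMod 3) : Prop := ∀ X k n, Odd n → f X k n = 0

def H2 (f : Fin 3 → Fin 5 → ℤ → ZMod 3) : Prop := ∀ y, Om (fun X k => f X k (nX X k y))

theorem not_pat_const (c l : ZMod 3) : ¬ Pat (fun _ => c) l := by
  revert c l; unfold Pat; decide

theorem odd_nX {X : Fin 3} {y : ℤ × ℤ} (h : Odd (aX X y)) (k : Fin 5) : Odd (nX X k y) := by
  obtain ⟨t, ht⟩ := h
  refine ⟨t - (k : ℕ) * bX X y, ?_⟩
  unfold nX
  rw [ht]; ring

/-- the point with prescribed forms -/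
def pt (X : Fin 3) (a b : ℤ) : ℤ × ℤ := if X = 0 then (b, a) else if X = 1 then (a, b) else (a + b, b)

theorem aX_pt (X : Fin 3) (a b : ℤ) : aX X (pt X a b) = a := by
  fin_cases X <;> simp [aX, pt]

theorem bX_pt (X : Fin 3) (a b : ℤ) : bX X (pt X a b) = b := by
  fin_cases X <;> simp [bX, pt]

theorem odd_aX_pt {X X' : Fin 3} (hX : X' ≠ X) {a b : ℤ} (ha : Even a) (hb : Odd b) :
    Odd (aX X' (pt X a b)) := by
  obtain ⟨s, rfl⟩ := ha
  obtain ⟨t, rfl⟩ := hb
  fin_cases X <;> fin_cases X' <;> simp [aX, pt, Int.odd_iff] at hX ⊢ <;> omega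

theorem step1 {f : Fin 3 → Fin 5 → ℤ → ZMod 3} (h1 : H1 f) (h2 : H2 f) (X : Fin 3) {a b : ℤ}
    (ha : Even a) (hb : Odd b) : Pat (fun k : Fin 5 => f X k (a - 2 * (k : ℕ) * b)) 1 := by
  obtain ⟨l, X'', hl, hp⟩ := h2 (pt X a b)
  have hz : ∀ X', X' ≠ X → ∀ k, f X' k (nX X' k (pt X a b)) = 0 := fun X' hX' k =>
    h1 _ _ _ (odd_nX (odd_aX_pt hX' ha hb) k)
  by_cases hX : X'' = X
  · subst hX
    obtain ⟨X', hX'⟩ : ∃ X' : Fin 3, X' ≠ X'' := exists_ne X''
    have h0 : l = 0 := by rw [← hl X' hX' 0]; exact hz X' hX' 0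
    subst h0
    have : (fun k : Fin 5 => f X'' k (a - 2 * (k : ℕ) * b)) =
        (fun k => f X'' k (nX X'' k (pt X'' a b))) := by
      funext k; unfold nX; rw [aX_pt, bX_pt]
    rw [this]; simpa using hp
  · exfalso
    have : (fun k => f X'' k (nX X'' k (pt X a b))) = fun _ => 0 := by
      funext k; exact hz X'' hX k
    simp only [this] at hp
    exact not_pat_const _ _ hp

theorem pat_or {μ : Fin 5 → ZMod 3} (h : Pat μ 1) :
    (μ 0 = 1 ∨ μ 1 = 1) ∧ (μ 2 = 1 ∨ μ 1 = 1) ∧ (μ 2 = 1 ∨ μ 3 = 1) ∧ (μ 4 = 1 ∨ μ 3 = 1) := by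
  rcases h with ⟨h0, h2, h4, _⟩ | ⟨h1, h3, _⟩
  · exact ⟨Or.inl h0, Or.inl h2, Or.inl h2, Or.inl h4⟩
  · exact ⟨Or.inr h1, Or.inr h1, Or.inr h3, Or.inr h3⟩

theorem pat_02 {μ : Fin 5 → ZMod 3} (h : Pat μ 1) (h0 : μ 0 = 1) (h2 : μ 2 = 1) : μ 4 = 1 := by
  rcases h with ⟨_, _, h4, _⟩ | ⟨_, _, ⟨h, _⟩ | h⟩
  · exact h4
  · rw [h0] at h; exact absurd h (by decide)
  · rw [h2] at h; exact absurd h (by decide)

theorem pat_24 {μ : Fin 5 → ZMod 3} (h : Pat μ 1) (h2 : μ 2 = 1) (h4 : μ 4 = 1) : μ 0 = 1 := by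
  rcases h with ⟨h0, _, _, _⟩ | ⟨_, _, ⟨_, h⟩ | h⟩
  · exact h0
  · rw [h4] at h; exact absurd h (by decide)
  · rw [h2] at h; exact absurd h (by decide)

/-- Step 2: on each even residue class modulo 4, the even or the odd indexed functions are 1. -/
theorem step2 (μ : Fin 5 → ℤ → ZMod 3)
    (h : ∀ a b : ℤ, Even a → Odd b → Pat (fun k : Fin 5 => μ k (a - 2 * (k : ℕ) * b)) 1)
    (c c' : ℤ) (hc : c % 2 = 0) (hcc : c' % 4 = (c + 2) % 4) :
    ((∀ n, n % 4 = c % 4 → μ 0 n = 1) ∧ (∀ n, n % 4 = c % 4 → μ 2 n = 1) ∧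
      (∀ n, n % 4 = c % 4 → μ 4 n = 1)) ∨
    ((∀ n, n % 4 = c' % 4 → μ 1 n = 1) ∧ (∀ n, n % 4 = c' % 4 → μ 3 n = 1)) := by
  by_cases h1 : ∀ n, n % 4 = c' % 4 → μ 1 n = 1
  · by_cases h3 : ∀ n, n % 4 = c' % 4 → μ 3 n = 1
    · exact Or.inr ⟨h1, h3⟩
    · left
      simp only [not_forall] at h3
      obtain ⟨n, hn, hne⟩ := h3
      have h2 : ∀ m, m % 4 = c % 4 → μ 2 m = 1 := by
        intro m hm
        have := (pat_or (h (m + 4 * ((m - n) / 2)) ((m - n) / 2)
          (by rw [Int.even_iff]; omega) (by rw [Int.odd_iff]; omega))).2.2.1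
        rcases this with h' | h'
        · convert h' using 2
          simp
        · exfalso; apply hne
          convert h' using 2
          simp; omega
      have h4 : ∀ m, m % 4 = c % 4 → μ 4 m = 1 := by
        intro m hm
        have := (pat_or (h (m + 8 * ((n - m) / 2)) ((n - m) / 2)
          (by rw [Int.even_iff]; omega) (by rw [Int.odd_iff]; omega))).2.2.2
        rcases this with h' | h'
        · convert h' using 2
          simp
        · exfalso; apply hne
          convert h' using 2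
          simp; omega
      refine ⟨fun m hm => ?_, h2, h4⟩
      have := pat_24 (h m 1 (by rw [Int.even_iff]; omega) (by decide))
        (h2 _ (by simp; omega)) (h4 _ (by simp; omega))
      simpa using this
  · left
    simp only [not_forall] at h1
    obtain ⟨n, hn, hne⟩ := h1
    have h0 : ∀ m, m % 4 = c % 4 → μ 0 m = 1 := by
      intro m hm
      have := (pat_or (h m ((m - n) / 2)
        (by rw [Int.even_iff]; omega) (by rw [Int.odd_iff]; omega))).1
      rcases this with h' | h'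
      · simpa using h'
      · exfalso; apply hne
        convert h' using 2
        simp; omega
    have h2 : ∀ m, m % 4 = c % 4 → μ 2 m = 1 := by
      intro m hm
      have := (pat_or (h (m + 4 * ((n - m) / 2)) ((n - m) / 2)
        (by rw [Int.even_iff]; omega) (by rw [Int.odd_iff]; omega))).2.1
      rcases this with h' | h'
      · convert h' using 2
        simp
      · exfalso; apply hne
        convert h' using 2
        simp; omega
    refine ⟨h0, h2, fun m hm => ?_⟩
    have := pat_02 (h (m + 8) 1 (by rw [Int.even_iff]; omega) (by decide))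
      (h0 _ (by simp; omega)) (h2 _ (by simp; omega))
    convert this using 2
    simp


/-- doubling of a point -/
def dbl (y : ℤ × ℤ) : ℤ × ℤ := (2 * y.1, 2 * y.2)

theorem aX_dbl (X : Fin 3) (y : ℤ × ℤ) : aX X (dbl y) = 2 * aX X y := by
  unfold aX dbl; split_ifs <;> ring

theorem bX_dbl (X : Fin 3) (y : ℤ × ℤ) : bX X (dbl y) = 2 * bX X y := by
  unfold bX dbl; split_ifs <;> ring

theorem nX_dbl (X : Fin 3) (k : Fin 5) (y : ℤ × ℤ) : nX X k (dbl y) = 2 * nX X k y := by
  unfold nX; rw [aX_dbl, bX_dbl]; ring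

theorem nX_dbl_mod (X : Fin 3) (k : Fin 5) (y : ℤ × ℤ) :
    nX X k (dbl y) % 4 = (2 * aX X y) % 4 := by
  rw [nX_dbl]; unfold nX
  have : 2 * (aX X y - 2 * (k : ℕ) * bX X y) = 2 * aX X y + 4 * (-((k : ℕ) * bX X y)) := by ring
  rw [this, Int.add_mul_emod_self_left]

/-- a point on a prescribed line of class `X` whose position in another class is free -/
theorem exists_pt (X : Fin 3) :
    ∃ X' : Fin 3, X' ≠ X ∧ ∀ (k : Fin 5) (M : ℤ) (j : Fin 5) (d : ℤ), ∃ y : ℤ × ℤ,
      nX X k y = M ∧ nX X' j (dbl y) % 4 = (2 * d) % 4 := by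
  refine ⟨if X = 0 then 1 else 0, by fin_cases X <;> decide, fun k M j d => ?_⟩
  refine ⟨pt X (M + 2 * (k : ℕ) * d) d, ?_, ?_⟩
  · unfold nX; rw [aX_pt, bX_pt]; ring
  · rw [nX_dbl_mod]
    congr 2
    fin_cases X <;> simp [aX, pt]

theorem bad_false {f : Fin 3 → Fin 5 → ℤ → ZMod 3} (h1 : H1 f) (h2 : H2 f) (X : Fin 3)
    (k₀ : Fin 5) (M : ℤ) (i : Fin 5) (hi : ∀ n, f X i (2 * n) = 1) (hM : f X k₀ (2 * M) = 1 + 1)
    (hl : ∀ (y : ℤ × ℤ) (l : ZMod 3), nX X k₀ y = M →
      Pat (fun k => f X k (nX X k (dbl y))) (l + 1) → l = 0) : False := by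
  obtain ⟨X', hX', hpt⟩ := exists_pt X
  have key : ∀ (y : ℤ × ℤ) (j : Fin 5), nX X k₀ y = M → f X' j (nX X' j (dbl y)) = 0 := by
    intro y j hy
    obtain ⟨l, X'', hall, hp⟩ := h2 (dbl y)
    by_cases hX : X'' = X
    · subst hX
      have := hl y l hy hp
      subst this
      exact hall X' hX' j
    · exfalso
      have e1 := hall X (Ne.symm hX) i
      have e2 := hall X (Ne.symm hX) k₀
      simp only [nX_dbl] at e1 e2
      rw [hi] at e1
      rw [hy, hM] at e2
      rw [← e1] at e2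
      exact absurd e2 (by decide)
  rcases step2 (f X') (fun a b ha hb => step1 h1 h2 X' ha hb) 0 2 (by norm_num) (by norm_num)
    with ⟨h, _, _⟩ | ⟨h, _⟩
  · obtain ⟨y, hy, hm⟩ := hpt k₀ M 0 0
    have e1 := key y 0 hy
    have e2 := h _ (show nX X' 0 (dbl y) % 4 = 0 % 4 by rw [hm]; norm_num)
    rw [e1] at e2
    exact absurd e2 (by decide)
  · obtain ⟨y, hy, hm⟩ := hpt k₀ M 1 1
    have e1 := key y 1 hy
    have e2 := h _ (show nX X' 1 (dbl y) % 4 = 2 % 4 by rw [hm]; norm_num)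
    rw [e1] at e2
    exact absurd e2 (by decide)

theorem good_class {f : Fin 3 → Fin 5 → ℤ → ZMod 3} (h1 : H1 f) (h2 : H2 f) (X : Fin 3) :
    ∃ ε : ℤ, (ε = 0 ∨ ε = 1) ∧ ∀ k n, n % 4 = (2 + 2 * ε) % 4 → f X k n = 1 := by
  have st := step2 (f X) (fun a b ha hb => step1 h1 h2 X ha hb)
  have s0 := st 0 2 (by norm_num) (by norm_num)
  have s2 := st 2 0 (by norm_num) (by norm_num)
  have hp := step1 h1 h2 X (a := 0) (b := 1) (by decide) (by decide)
  have e1 : f X 1 (2 * (-1)) = f X 1 (0 - 2 * ((1 : Fin 5) : ℕ) * 1) := by norm_num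
  rcases s0 with ⟨a0, a2, a4⟩ | ⟨a1, a3⟩ <;> rcases s2 with ⟨b0, b2, b4⟩ | ⟨b1, b3⟩
  · exfalso
    have c0 : ∀ n, f X 0 (2 * n) = 1 := fun n => by
      rcases Int.emod_two_eq_zero_or_one n with h | h
      · exact a0 _ (by omega)
      · exact b0 _ (by omega)
    have c2 : ∀ n, f X 2 (2 * n) = 1 := fun n => by
      rcases Int.emod_two_eq_zero_or_one n with h | h
      · exact a2 _ (by omega)
      · exact b2 _ (by omega)
    have hl : ∀ (k₀ : Fin 5), (k₀ = 1 ∨ k₀ = 3) → ∀ M, f X k₀ (2 * M) = 1 + 1 →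
        ∀ (y : ℤ × ℤ) (l : ZMod 3), nX X k₀ y = M →
        Pat (fun k => f X k (nX X k (dbl y))) (l + 1) → l = 0 := by
      intro k₀ hk M hM y l hy hP
      have d0 : f X 0 (nX X 0 (dbl y)) = 1 := by rw [nX_dbl]; exact c0 _
      have d2 : f X 2 (nX X 2 (dbl y)) = 1 := by rw [nX_dbl]; exact c2 _
      have dk : f X k₀ (nX X k₀ (dbl y)) = 1 + 1 := by rw [nX_dbl, hy]; exact hM
      rcases hP with ⟨g0, -, -, -⟩ | ⟨g1, g3, g⟩
      · simp only [d0] at g0
        revert g0; revert l; decide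
      · exfalso
        simp only [d0, d2] at g
        rcases hk with rfl | rfl
        · simp only [dk] at g1
          clear g3
          revert g g1; generalize f X 4 (nX X 4 (dbl y)) = z
          revert l z; decide
        · simp only [dk] at g3
          clear g1
          revert g g3; generalize f X 4 (nX X 4 (dbl y)) = z
          revert l z; decide
    rcases hp with ⟨_, _, _, h | h⟩ | ⟨_, _, ⟨h, _⟩ | h⟩
    · exact bad_false h1 h2 X 1 (-1) 0 c0 (by rw [e1]; simpa using h)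
        (hl 1 (Or.inl rfl) _ (by rw [e1]; simpa using h))
    · have e3 : f X 3 (2 * (-3)) = f X 3 (0 - 2 * ((3 : Fin 5) : ℕ) * 1) := by norm_num
      exact bad_false h1 h2 X 3 (-3) 0 c0 (by rw [e3]; simpa using h)
        (hl 3 (Or.inr rfl) _ (by rw [e3]; simpa using h))
    · have := c0 0
      simp at h this
      rw [this] at h; exact absurd h (by decide)
    · have := c2 (-2)
      simp at h this
      rw [this] at h; exact absurd h (by decide)
  · refine ⟨1, Or.inr rfl, fun k n hn => ?_⟩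
    fin_cases k
    · exact a0 _ (by omega)
    · exact b1 _ (by omega)
    · exact a2 _ (by omega)
    · exact b3 _ (by omega)
    · exact a4 _ (by omega)
  · refine ⟨0, Or.inl rfl, fun k n hn => ?_⟩
    fin_cases k
    · exact b0 _ (by omega)
    · exact a1 _ (by omega)
    · exact b2 _ (by omega)
    · exact a3 _ (by omega)
    · exact b4 _ (by omega)
  · exfalso
    have c1 : ∀ n, f X 1 (2 * n) = 1 := fun n => by
      rcases Int.emod_two_eq_zero_or_one n with h | h
      · exact b1 _ (by omega)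
      · exact a1 _ (by omega)
    have c3 : ∀ n, f X 3 (2 * n) = 1 := fun n => by
      rcases Int.emod_two_eq_zero_or_one n with h | h
      · exact b3 _ (by omega)
      · exact a3 _ (by omega)
    have hl : ∀ (k₀ : Fin 5), (k₀ = 0 ∨ k₀ = 2) → ∀ M, f X k₀ (2 * M) = 1 + 1 →
        ∀ (y : ℤ × ℤ) (l : ZMod 3), nX X k₀ y = M →
        Pat (fun k => f X k (nX X k (dbl y))) (l + 1) → l = 0 := by
      intro k₀ hk M hM y l hy hP
      have d1 : f X 1 (nX X 1 (dbl y)) = 1 := by rw [nX_dbl]; exact c1 _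
      have d3 : f X 3 (nX X 3 (dbl y)) = 1 := by rw [nX_dbl]; exact c3 _
      have dk : f X k₀ (nX X k₀ (dbl y)) = 1 + 1 := by rw [nX_dbl, hy]; exact hM
      rcases hP with ⟨g0, g2, g4, g⟩ | ⟨g1, g3, g⟩
      · exfalso
        simp only [d1, d3] at g
        rcases hk with rfl | rfl
        · simp only [dk] at g0
          clear g2 g4
          revert g g0
          revert l; decide
        · simp only [dk] at g2
          clear g0 g4
          revert g g2
          revert l; decide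
      · simp only [d1] at g1
        clear g g3
        revert g1; revert l; decide
    have e0 : ∀ h : f X 0 (0 - 2 * ((0 : Fin 5) : ℕ) * 1) = 1 + 1, f X 0 (2 * 0) = 1 + 1 := by
      intro h; simpa using h
    rcases hp with ⟨_, _, _, h | h⟩ | ⟨_, _, ⟨h, _⟩ | h⟩
    · have := c1 (-1)
      simp at h this
      rw [this] at h; exact absurd h (by decide)
    · have := c3 (-3)
      simp at h this
      rw [this] at h; exact absurd h (by decide)
    · exact bad_false h1 h2 X 0 0 1 c1 (e0 h) (hl 0 (Or.inl rfl) _ (e0 h))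
    · have e2 : f X 2 (2 * (-2)) = f X 2 (0 - 2 * ((2 : Fin 5) : ℕ) * 1) := by norm_num
      exact bad_false h1 h2 X 2 (-2) 1 c1 (by rw [e2]; simpa using h)
        (hl 2 (Or.inr rfl) _ (by rw [e2]; simpa using h))

theorem exists_center {f : Fin 3 → Fin 5 → ℤ → ZMod 3} (h1 : H1 f) (h2 : H2 f) :
    ∃ e : ℤ × ℤ, ∀ X k n, n % 4 = (2 + 2 * aX X e) % 4 → f X k n = 1 := by
  choose ε hε hg using good_class h1 h2
  refine ⟨(ε 1, ε 0), ?_⟩
  have hcase : (ε 2 - (ε 1 - ε 0)) % 2 = 0 := by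
    by_contra hne
    obtain ⟨l, X, hl, hp⟩ := h2 (dbl (1 + ε 1, 1 + ε 0))
    have hall : ∀ X k, f X k (nX X k (dbl (1 + ε 1, 1 + ε 0))) = 1 := by
      intro X k
      apply hg
      rw [nX_dbl_mod]
      have h0 := hε 0
      have h1' := hε 1
      have h2' := hε 2
      fin_cases X <;> simp [aX] <;> omega
    simp only [hall] at hp
    exact not_pat_const _ _ hp
  intro X k n hn
  apply hg X k n
  rw [hn]
  fin_cases X <;> simp [aX] <;> omega

theorem om_shift {s : Fin 3 → Fin 5 → ZMod 3} (h : Om s) : Om (fun X k => s X k - 1) := by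
  obtain ⟨l, X, hl, hp⟩ := h
  refine ⟨l - 1, X, fun X' hX' k => by show s X' k - 1 = l - 1; rw [hl X' hX' k], ?_⟩
  unfold Pat at hp ⊢
  have e : ∀ a b : ZMod 3, (a - 1 = b - 1 + 1 ↔ a = b + 1) ∧
      (a - 1 = b - 1 + 1 + 1 ↔ a = b + 1 + 1) := by decide
  simp only [(e _ _).1, (e _ _).2]
  exact hp

theorem derived {f : Fin 3 → Fin 5 → ℤ → ZMod 3} (h2 : H2 f) (e : ℤ × ℤ)
    (he : ∀ X k n, n % 4 = (2 + 2 * aX X e) % 4 → f X k n = 1) :
    H1 (fun X k m => f X k (2 * (m - nX X k e)) - 1) ∧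
    H2 (fun X k m => f X k (2 * (m - nX X k e)) - 1) := by
  constructor
  · intro X k n hn
    have : f X k (2 * (n - nX X k e)) = 1 := by
      apply he
      obtain ⟨t, rfl⟩ := hn
      unfold nX
      have : 2 * (2 * t + 1 - (aX X e - 2 * (k : ℕ) * bX X e)) =
          2 + 2 * aX X e + 4 * (t - aX X e + (k : ℕ) * bX X e) := by ring
      rw [this, Int.add_mul_emod_self_left]
    simp [this]
  · intro y
    have := om_shift (h2 (dbl (y.1 - e.1, y.2 - e.2)))
    convert this using 5 with X k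
    rw [nX_dbl]
    congr 1
    unfold nX aX bX
    split_ifs <;> simp <;> ring

theorem no_periodic : ∀ T : ℕ, 0 < T → ∀ f : Fin 3 → Fin 5 → ℤ → ZMod 3, H1 f → H2 f →
    (∀ n, f 0 0 (n + T) = f 0 0 n) → False := by
  intro T
  induction T using Nat.strong_induction_on with
  | _ T ih =>
    intro hT f h1 h2 hper
    obtain ⟨e, he⟩ := exists_center h1 h2
    rcases Nat.even_or_odd T with ⟨S, hS⟩ | hodd
    · obtain ⟨g1, g2⟩ := derived h2 e he
      refine ih S (by omega) (by omega) _ g1 g2 (fun n => ?_)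
      have := hper (2 * (n - nX 0 0 e))
      rw [hS] at this
      push_cast at this
      rw [← this]
      congr 2
      ring
    · have a := he 0 0 (2 + 2 * aX 0 e) rfl
      have b := h1 0 0 (2 + 2 * aX 0 e + T) (by
        have : Even (2 + 2 * aX 0 e) := ⟨1 + aX 0 e, by ring⟩
        exact this.add_odd (by exact_mod_cast hodd))
      rw [hper, a] at b
      exact absurd b (by decide)

end Vale.Agent.P043
end
end

section

section

/-!
# Core definitions for the aperiodic tile in dimension at least four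
-/

namespace Vale.Agent.P043.B

/-! ### The line-state system (base 8) -/

/-- the nine directions -/
def dir : Fin 9 → ℤ × ℤ :=
  ![(0, 1), (1, 0), (1, -1), (8, -1), (1, -8), (9, -1), (0, 1), (1, 0), (1, -1)]

/-- relation `R1(k; y, y')` -/
def R1 (k y y' : ZMod 8) : Prop := y' = y + k ∨ y = -k ∨ y' = k

/-- The pointwise relation. Index: 0 G, 1 K, 2 H, 3 L, 4 M, 5 N, 6 Ca, 7 Cb, 8 Cab. -/
structure Rel (r : Bool) (F : Fin 9 → ZMod 8) : Prop where
  clock : F 8 = F 6 + F 7
  sign : r = decide ((F 6).val < 4)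
  ne : ∀ j : Fin 9, j.val < 6 → F j ≠ 0
  cG : F 6 ≠ 0 → F 0 = F 6
  cL : F 6 ≠ 0 → F 3 = F 6
  cK : F 7 ≠ 0 → F 1 = F 7
  cM : F 7 ≠ 0 → F 4 = F 7
  cH : F 8 ≠ 0 → F 2 = F 8
  cN : F 8 ≠ 0 → F 5 = F 8
  q1 : F 2 = F 1 → R1 (F 1) (F 0) (F 3)
  q2 : F 2 = F 0 → R1 (F 0) (F 1) (F 4)
  q3 : F 0 = - F 1 → R1 (F 1) (F 2) (F 5)
  q4 : F 2 = F 0 ∨ F 2 = F 1 ∨ F 2 = F 0 + F 1 ∨ F 0 = - F 1

/-! ### Encoding groups and the family -/

section Family

variable {R : ℕ} (p : Fin R → ℕ) (X : Type) [AddCommGroup X]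

/-- the group `∏ ℤ/p_n` -/
abbrev V := (n : Fin R) → ZMod (p n)

/-- clocks and lines -/
abbrev KK := (ZMod 4 × ZMod 4) × (V p × V p)

/-- the ambient group `X × (ℤ/4)² × V²` -/
abbrev Grp := X × KK p

/-- common index set -/
abbrev Idx := Bool × ZMod 4 × V p

/-- `0` or `2` in `ℤ/4` -/
def two (i : Bool) : ZMod 4 := if i then 2 else 0

variable {X} {p}

def Tb : Idx p → Grp p X := fun j => (0, (two j.1, j.2.1), (j.2.2, j.2.2))

def Tb' : Idx p → Grp p X := fun j => (0, (j.2.1, two j.1), (j.2.2, j.2.2))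

def Tc : Idx p → Grp p X := fun j =>
  (0, (two j.1 + (if j.2.2 = 0 then 1 else 0), j.2.1), (j.2.2, j.2.2))

def Tmix (n : Fin R) : Idx p → Grp p X := fun j =>
  if j = (false, 0, 0) then (0, (0, 0), (0, Pi.single n 1))
  else if j = (false, 0, Pi.single n 1) then (0, (0, 0), (Pi.single n 1, 0))
  else Tb j

def Tsh (w : X) (n : Fin R) : Idx p → Grp p X := fun j =>
  (if j.2.2 n = 0 then w else 0, (two j.1, j.2.1), (j.2.2, j.2.2))

def Tclk1 (h : X) : Idx p → Grp p X := fun j =>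
  (if j.1 then h else 0, (0, j.2.1), (j.2.2, j.2.2))

def Tclk2 (h : X) : Idx p → Grp p X := fun j =>
  (if j.1 then h else 0, (j.2.1, two j.1), (j.2.2, j.2.2))

def Tclk3 (h : X) : Idx p → Grp p X := fun j =>
  (if two j.1 + 2 * j.2.1 = 2 then h else 0, (two j.1, j.2.1), (j.2.2, j.2.2))

/-- a bit as an element of `ℤ/m` -/
def bitZ (m : ℕ) (b : Bool) : ZMod m := if b then 1 else 0

/-- `a` is a `0/1`-vector -/
def IsCube (a : V p) : Prop := ∀ n, a n = 0 ∨ a n = 1

/-- the bits of `a` -/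
def bitsOf (a : V p) : Fin R → Bool := fun n => decide (a n = 1)

/-- `d_{n-1}`, with `d_{-1} := t` -/
def prevBit (d : Fin R → Bool) (t : Bool) (n : Fin R) : Bool :=
  if (n : ℕ) = 0 then t else d ⟨(n : ℕ) - 1, lt_of_le_of_lt (Nat.sub_le _ _) n.2⟩

/-- the last bit `d_{R-1}` -/
def lastBit (d : Fin R → Bool) : Bool := if h : 0 < R then d ⟨R - 1, Nat.sub_lt h Nat.one_pos⟩ else false

/-- `⌊y/2⌋` for `y ∈ ℤ/4` -/
def halfBit (y : ZMod 4) : Bool := decide (2 ≤ y.val)

/-- the visible twist bit used for forbidding sign `r` -/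
def twist (r : Bool) (z : ZMod 4 × ZMod 4) : Bool :=
  if r then halfBit (z.1 + z.2) else halfBit (z.1 - z.2)

open Classical in
/-- clock part of the forbidding tile -/
noncomputable def fz (j : Idx p) : ZMod 4 × ZMod 4 :=
  (two j.1 + (if IsCube j.2.2 then bitZ 4 (lastBit (bitsOf j.2.2)) else 0), j.2.1)

open Classical in
/-- second vector of the forbidding tile -/
noncomputable def fe (r : Bool) (j : Idx p) : V p := fun n =>
  if IsCube j.2.2 then
    bitZ (p n) (xor (bitsOf j.2.2 n) (prevBit (bitsOf j.2.2) (twist r (fz j)) n))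
  else j.2.2 n

/-- the tile forbidding the state `(r, σ)` -/
noncomputable def Tforbid (r : Bool) (s : Fin R → Bool) : Idx p → Grp p X := fun j =>
  (0, fz j, (fun n => if s n then j.2.2 n else fe r j n, fun n => if s n then fe r j n else j.2.2 n))

/-- the family of tiles, for directions `w`, clock shift `h`, allowed set `S` -/
def Family (w : Fin R → X) (h : X) (S : Set (Bool × (Fin R → Bool))) :
    Set (Idx p → Grp p X) :=
  {Tb, Tb', Tc, Tclk1 h, Tclk2 h, Tclk3 h} ∪ Set.range Tmix ∪ Set.range (fun n => Tsh (w n) n) ∪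
    {f | ∃ r s, (r, s) ∉ S ∧ f = Tforbid r s}

end Family

end Vale.Agent.P043.B
end
end

section

section

namespace Vale.Agent.P043.B

/-- a fresh element outside a small finset of `ZMod 8` -/
theorem sa_fresh (s : Finset (ZMod 8)) (hs : s.card < 8) : ∃ w, w ∉ s := by
  by_contra h
  push Not at h
  have h1 : s = Finset.univ := Finset.eq_univ_iff_forall.2 h
  rw [h1, Finset.card_univ, ZMod.card] at hs
  exact lt_irrefl _ hs

/-- a family of edges that pairwise meet and cover all vertices is a star -/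
theorem sa_star (E : ZMod 8 → ZMod 8 → Prop) (hE : ∀ u, ∃ v, E u v)
    (hEE : ∀ u v w z, E u v → E w z → u = w ∨ u = z ∨ v = w ∨ v = z) :
    ∃ c, ∀ u v, E u v → u = c ∨ v = c := by
  obtain ⟨v₀, h₀⟩ := hE 0
  -- two outside vertices
  obtain ⟨w₁, hw₁⟩ := sa_fresh {0, v₀} (by
    refine lt_of_le_of_lt (Finset.card_insert_le _ _) ?_
    simp)
  simp only [Finset.mem_insert, Finset.mem_singleton, not_or] at hw₁
  obtain ⟨c, hc⟩ := hE w₁
  have hcm : c = 0 ∨ c = v₀ := by
    rcases hEE _ _ _ _ h₀ hc with h | h | h | h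
    · exact absurd h.symm hw₁.1
    · exact Or.inl h.symm
    · exact absurd h.symm hw₁.2
    · exact Or.inr h.symm
  refine ⟨c, fun u v huv => ?_⟩
  -- all outside vertices are joined to `c`
  have hout : ∀ w, w ≠ 0 → w ≠ v₀ → w ≠ w₁ → E w c := by
    intro w h1 h2 h3
    obtain ⟨x, hx⟩ := hE w
    have hxm : x = 0 ∨ x = v₀ := by
      rcases hEE _ _ _ _ h₀ hx with h | h | h | h
      · exact absurd h.symm h1
      · exact Or.inl h.symm
      · exact absurd h.symm h2
      · exact Or.inr h.symm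
    rcases hEE _ _ _ _ hc hx with h | h | h | h
    · exact absurd h.symm h3
    · rcases hxm with h' | h'
      · exact absurd (h.trans h') hw₁.1
      · exact absurd (h.trans h') hw₁.2
    · rcases hcm with h' | h'
      · exact absurd (h.symm.trans h') h1
      · exact absurd (h.symm.trans h') h2
    · rw [h]; exact hx
  by_contra hcon
  push Not at hcon
  obtain ⟨w, hw⟩ := sa_fresh {0, v₀, w₁, u, v} (by
    refine lt_of_le_of_lt (Finset.card_le_five) ?_
    norm_num)
  simp only [Finset.mem_insert, Finset.mem_singleton, not_or] at hw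
  rcases hEE _ _ _ _ huv (hout w hw.1 hw.2.1 hw.2.2.1) with h | h | h | h
  · exact hw.2.2.2.1 h.symm
  · exact hcon.1 h
  · exact hw.2.2.2.2 h.symm
  · exact hcon.2 h

theorem sa_lemmaB : ∀ d : ZMod 8, d ≠ 0 → ∃ g k : ZMod 8, g ≠ 0 ∧ k ≠ 0 ∧ g + k + d ≠ 0 ∧
    k + d ≠ 0 ∧ g + d ≠ 0 ∧ g + k ≠ 0 := by decide

theorem sa_odd : ∀ l : ZMod 8, (4 * l ≠ 0) → l * l = 1 := by decide

theorem sa_R1_smul {l k y y' : ZMod 8} (h : R1 k y y') : R1 (l * k) (l * y) (l * y') := by
  rcases h with h | h | h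
  · left; rw [h]; ring
  · right; left; rw [h]; ring
  · right; right; rw [h]

end Vale.Agent.P043.B
end
end

section

section

/-!
# Robust non-existence: definitions

Everything lives on `ZMod N`, `8 ∣ N`.  `ρ : ZMod N →+* ZMod 8`.  Constants: thin sets have density
`≤ 1/65536`, fine rows have bad density `≤ 1/64`, exceptional sets have density `≤ 1/1024`.
-/

namespace Vale.Agent.P043.Z3

open Vale.Agent.P043.B

open Classical in
/-- number of elements with a property -/
noncomputable def cnt {α : Type} [Fintype α] (p : α → Prop) : ℕ := (Finset.univ.filter p).card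

section

variable {N : ℕ} [NeZero N]

/-- `E` is thin on all images of homomorphisms whose range contains all multiples of `8 ^ J` -/
def Thin (E : Set (ZMod N × ZMod N)) : Prop :=
  ∀ (ψ : ZMod N × ZMod N →+ ZMod N × ZMod N) (J : ℕ), (∀ v, ∃ w, ψ w = (8 ^ J : ℕ) • v) →
    ∀ x₀, 65536 * cnt (fun w => x₀ + ψ w ∈ E) ≤ N ^ 2

/-- fine columns `a = 8 α` -/
def fineG (D : Set (ZMod N × ZMod N)) (α : ZMod N) : Prop := 64 * cnt (fun b => (8 * α, b) ∈ D) ≤ N

/-- fine rows `b = 8 β` -/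
def fineK (D : Set (ZMod N × ZMod N)) (β : ZMod N) : Prop := 64 * cnt (fun a => (a, 8 * β) ∈ D) ≤ N

/-- fine diagonals `a + b = 8 γ` -/
def fineH (D : Set (ZMod N × ZMod N)) (γ : ZMod N) : Prop :=
  64 * cnt (fun b => (8 * γ - b, b) ∈ D) ≤ N

/-- fine columns, rows, diagonals of the base level -/
def fine0 (E : Set (ZMod N × ZMod N)) (a : ZMod N) : Prop := 64 * cnt (fun b => (a, b) ∈ E) ≤ N
def fine1 (E : Set (ZMod N × ZMod N)) (b : ZMod N) : Prop := 64 * cnt (fun a => (a, b) ∈ E) ≤ N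
def fine2 (E : Set (ZMod N × ZMod N)) (c : ZMod N) : Prop := 64 * cnt (fun b => (c - b, b) ∈ E) ≤ N

/-- a system of one level -/
structure Lev (ρ : ZMod N →+* ZMod 8) (G K H L M N' : ZMod N → ZMod 8)
    (D : Set (ZMod N × ZMod N)) : Prop where
  thin : Thin D
  q1 : ∀ a b, (a, b) ∉ D → H (a + b) = K b → R1 (K b) (G a) (L (a + 8 * b))
  q2 : ∀ a b, (a, b) ∉ D → H (a + b) = G a → R1 (G a) (K b) (M (b + 8 * a))
  q3 : ∀ a b, (a, b) ∉ D → G a = - K b → R1 (K b) (H (a + b)) (N' (a + 9 * b))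
  q4 : ∀ a b, (a, b) ∉ D →
    H (a + b) = G a ∨ H (a + b) = K b ∨ H (a + b) = G a + K b ∨ G a = - K b
  eG : 1024 * cnt (fun m => ρ m ≠ 0 ∧ G m ≠ ρ m) ≤ N
  eK : 1024 * cnt (fun m => ρ m ≠ 0 ∧ K m ≠ ρ m) ≤ N
  eH : 1024 * cnt (fun m => ρ m ≠ 0 ∧ H m ≠ ρ m) ≤ N

/-- base level: the nine functions with the relation off `E` -/
structure Bas (G K H L M N' Ca Cb Cab : ZMod N → ZMod 8) (E : Set (ZMod N × ZMod N)) : Prop where
  thin : Thin E
  rel : ∀ a b, (a, b) ∉ E → Rel (decide ((Ca a).val < 4))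
    ![G a, K b, H (a + b), L (a + 8 * b), M (b + 8 * a), N' (a + 9 * b), Ca a, Cb b, Cab (a + b)]

end

end Vale.Agent.P043.Z3
end
end

section

section

/-!
# Thinness of the wild set

PROOF.  `perm_residues`: the predicate is `L`-periodic in `k` and `k ↦ 8^J k` is a bijection of the
residues mod `L` (`L` odd).
`thin_one`: let `w₀` with `ψ w₀ = 8^J • v̄` (`v̄` = image of `v` in `ZMod N × ZMod N`).  For every `k`:
`cnt {w | x₀ + ψ w ∈ Ē} = cnt {w | x₀ + ψ (w + k • w₀) ∈ Ē}`; sum over `k < L`, exchange the sums: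
`L * cnt {w | x₀ + ψ w ∈ Ē} = ∑ w, #{k < L | x₀ + ψ w + (8^J k) • v̄ ∈ Ē}`, and with an integer lift `x`
of `x₀ + ψ w`: `x + (8^J k) • v ∈ W`; multiplied by `P`, every inner number is `≤ L`
(`perm_residues`, `hW`).  So `P * L * cnt ≤ L * N²`.
`thin_of_wild`: union over `i : I`: `cnt (∃ i, ..) ≤ ∑ i, cnt (..)`, and
`65536 * |I| * cnt_i ≤ P i * cnt_i ≤ N²`; sum: `65536 * |I| * ∑ cnt_i ≤ |I| * N²` (if `I` is empty the
set is empty).
-/

namespace Vale.Agent.P043.Z3

open Vale.Agent.P043.B Classical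

private lemma rsp_shift (W : Set (ℤ × ℤ)) (v : ℤ × ℤ) (L : ℕ)
    (hWL : ∀ x, x + (L : ℤ) • v ∈ W ↔ x ∈ W) (x : ℤ × ℤ) (n : ℕ) :
    x + ((n * L : ℕ) : ℤ) • v ∈ W ↔ x ∈ W := by
  induction n with
  | zero => simp
  | succ n ih =>
    rw [← ih, ← hWL (x + ((n * L : ℕ) : ℤ) • v)]
    have : x + (((n + 1) * L : ℕ) : ℤ) • v = x + ((n * L : ℕ) : ℤ) • v + (L : ℤ) • v := by
      push_cast
      rw [add_mul, add_smul, one_mul, add_assoc]
    rw [this]

theorem perm_residues (W : Set (ℤ × ℤ)) (v : ℤ × ℤ) (L : ℕ) (hL : Odd L)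
    (hWL : ∀ x, x + (L : ℤ) • v ∈ W ↔ x ∈ W) (x : ℤ × ℤ) (J : ℕ) :
    ((Finset.range L).filter (fun k : ℕ => x + ((8 ^ J * k : ℕ) : ℤ) • v ∈ W)).card =
      ((Finset.range L).filter (fun k : ℕ => x + (k : ℤ) • v ∈ W)).card := by
  have hLpos : 0 < L := hL.pos
  have hcop : Nat.Coprime L (8 ^ J) := by
    apply Nat.Coprime.pow_right
    have h2 : Nat.Coprime L 2 := (Nat.coprime_two_right).2 hL
    have : (8 : ℕ) = 2 ^ 3 := by norm_num
    rw [this]
    exact Nat.Coprime.pow_right 3 h2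
  set f : ℕ → ℕ := fun k => (8 ^ J * k) % L with hf
  have hinj : Set.InjOn f (Finset.range L : Set ℕ) := by
    intro a ha b hb hab
    simp only [Finset.coe_range, Set.mem_Iio] at ha hb
    have h1 : 8 ^ J * a ≡ 8 ^ J * b [MOD L] := hab
    have h2 : a ≡ b [MOD L] := Nat.ModEq.cancel_left_of_coprime hcop h1
    have h3 := h2
    unfold Nat.ModEq at h3
    rwa [Nat.mod_eq_of_lt ha, Nat.mod_eq_of_lt hb] at h3
  have hmaps : (Finset.range L).image f = Finset.range L := by
    apply Finset.eq_of_subset_of_card_le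
    · intro k hk
      obtain ⟨a, -, rfl⟩ := Finset.mem_image.1 hk
      exact Finset.mem_range.2 (Nat.mod_lt _ hLpos)
    · rw [Finset.card_image_of_injOn hinj]
  have hpred : ∀ k : ℕ, x + ((8 ^ J * k : ℕ) : ℤ) • v ∈ W ↔ x + ((f k : ℕ) : ℤ) • v ∈ W := by
    intro k
    have hdiv : 8 ^ J * k = f k + (8 ^ J * k / L) * L := by
      rw [hf]
      have := Nat.mod_add_div (8 ^ J * k) L
      simp only
      rw [mul_comm (8 ^ J * k / L) L]
      exact this.symm
    rw [← rsp_shift W v L hWL (x + ((f k : ℕ) : ℤ) • v) (8 ^ J * k / L)]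
    have : x + ((8 ^ J * k : ℕ) : ℤ) • v =
        x + ((f k : ℕ) : ℤ) • v + ((8 ^ J * k / L * L : ℕ) : ℤ) • v := by
      rw [add_assoc, ← add_smul]
      congr 2
      exact_mod_cast hdiv
    rw [this]
  conv_rhs => rw [← hmaps, Finset.filter_image]
  rw [Finset.card_image_of_injOn]
  · congr 1
    apply Finset.filter_congr
    intro k _
    exact hpred k
  · apply hinj.mono
    intro k hk
    simp only [Finset.coe_filter, Set.mem_ofPred_eq] at hk
    exact Finset.mem_coe.2 hk.1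

private lemma rsp_cnt_shift {N : ℕ} [NeZero N] (p : ZMod N × ZMod N → Prop)
    (w₀ : ZMod N × ZMod N) : cnt (fun w => p (w + w₀)) = cnt p := by
  unfold cnt
  refine Finset.card_bij (fun w _ => w + w₀) ?_ ?_ ?_
  · intro w hw
    simpa using hw
  · intro a _ b _ h
    exact add_right_cancel h
  · intro b hb
    refine ⟨b - w₀, ?_, by simp⟩
    simpa using hb

/-- the wild predicate on residues -/
private def rspA {N : ℕ} (W : Set (ℤ × ℤ)) (y : ZMod N × ZMod N) : Prop :=
  ((y.1.val : ℤ), (y.2.val : ℤ)) ∈ W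

private lemma rsp_lift {N : ℕ} [NeZero N] (W : Set (ℤ × ℤ)) (v : ℤ × ℤ)
    (hWN : ∀ x (u : ℤ × ℤ), x + (N : ℤ) • u ∈ W ↔ x ∈ W) (y : ZMod N × ZMod N) (n : ℕ) :
    rspA W (y + n • (((v.1 : ℤ) : ZMod N), ((v.2 : ℤ) : ZMod N))) ↔
      ((y.1.val : ℤ), (y.2.val : ℤ)) + (n : ℤ) • v ∈ W := by
  have key : ∀ (a : ZMod N) (t : ℤ), ∃ u : ℤ,
      (((a + n • ((t : ℤ) : ZMod N)).val : ℕ) : ℤ) = (a.val : ℤ) + (n : ℤ) * t + (N : ℤ) * u := by
    intro a t
    have h : ((((a + n • ((t : ℤ) : ZMod N)).val : ℕ) : ℤ) : ZMod N) =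
        (((a.val : ℤ) + (n : ℤ) * t : ℤ) : ZMod N) := by
      push_cast
      simp
    have h2 := (ZMod.intCast_eq_intCast_iff_dvd_sub _ _ _).1 h
    obtain ⟨u, hu⟩ := h2
    refine ⟨-u, ?_⟩
    linarith
  obtain ⟨u1, hu1⟩ := key y.1 v.1
  obtain ⟨u2, hu2⟩ := key y.2 v.2
  rw [← hWN (((y.1.val : ℤ), (y.2.val : ℤ)) + (n : ℤ) • v) (u1, u2)]
  unfold rspA
  have : ((((y + n • (((v.1 : ℤ) : ZMod N), ((v.2 : ℤ) : ZMod N))).1.val : ℕ) : ℤ),
      (((y + n • (((v.1 : ℤ) : ZMod N), ((v.2 : ℤ) : ZMod N))).2.val : ℕ) : ℤ)) =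
      ((y.1.val : ℤ), (y.2.val : ℤ)) + (n : ℤ) • v + (N : ℤ) • (u1, u2) := by
    apply Prod.ext
    · simpa [smul_eq_mul] using hu1
    · simpa [smul_eq_mul] using hu2
  rw [this]

theorem thin_one {N : ℕ} [NeZero N] (W : Set (ℤ × ℤ)) (v : ℤ × ℤ) (L P : ℕ) (hL : Odd L)
    (hWN : ∀ x (u : ℤ × ℤ), x + (N : ℤ) • u ∈ W ↔ x ∈ W)
    (hWL : ∀ x, x + (L : ℤ) • v ∈ W ↔ x ∈ W)
    (hW : ∀ x, P * ((Finset.range L).filter (fun k : ℕ => x + (k : ℤ) • v ∈ W)).card ≤ L)
    (ψ : ZMod N × ZMod N →+ ZMod N × ZMod N) (J : ℕ) (hψ : ∀ v, ∃ w, ψ w = (8 ^ J : ℕ) • v)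
    (x₀ : ZMod N × ZMod N) :
    P * cnt (fun w => (((x₀ + ψ w).1.val : ℤ), ((x₀ + ψ w).2.val : ℤ)) ∈ W) ≤ N ^ 2 := by
  have hLpos : 0 < L := hL.pos
  set vb : ZMod N × ZMod N := (((v.1 : ℤ) : ZMod N), ((v.2 : ℤ) : ZMod N)) with hvb
  obtain ⟨w₀, hw₀⟩ := hψ vb
  have hgoal : cnt (fun w => (((x₀ + ψ w).1.val : ℤ), ((x₀ + ψ w).2.val : ℤ)) ∈ W) =
      cnt (fun w => rspA W (x₀ + ψ w)) := rfl
  rw [hgoal]
  have h1 : ∀ k : ℕ, cnt (fun w => rspA W (x₀ + ψ w)) =
      ∑ w : ZMod N × ZMod N, (if ((((x₀ + ψ w).1.val : ℤ), ((x₀ + ψ w).2.val : ℤ)) : ℤ × ℤ) +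
        ((8 ^ J * k : ℕ) : ℤ) • v ∈ W then 1 else 0) := by
    intro k
    rw [← rsp_cnt_shift (fun w => rspA W (x₀ + ψ w)) (k • w₀)]
    unfold cnt
    rw [Finset.card_filter]
    apply Finset.sum_congr rfl
    intro w _
    have : x₀ + ψ (w + k • w₀) = (x₀ + ψ w) + (8 ^ J * k) • vb := by
      rw [map_add, map_nsmul, hw₀, smul_smul, mul_comm k, add_assoc]
    have h2 : rspA W (x₀ + ψ (w + k • w₀)) ↔
        ((((x₀ + ψ w).1.val : ℤ), ((x₀ + ψ w).2.val : ℤ)) : ℤ × ℤ) +
          ((8 ^ J * k : ℕ) : ℤ) • v ∈ W := by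
      rw [this]
      exact rsp_lift W v hWN (x₀ + ψ w) (8 ^ J * k)
    simp only [h2]
  have h3 : L * cnt (fun w => rspA W (x₀ + ψ w)) =
      ∑ w : ZMod N × ZMod N, ((Finset.range L).filter (fun k : ℕ =>
        ((((x₀ + ψ w).1.val : ℤ), ((x₀ + ψ w).2.val : ℤ)) : ℤ × ℤ) +
          ((8 ^ J * k : ℕ) : ℤ) • v ∈ W)).card := by
    have h4 : L * cnt (fun w => rspA W (x₀ + ψ w)) =
        ∑ _k ∈ Finset.range L, cnt (fun w => rspA W (x₀ + ψ w)) := by
      rw [Finset.sum_const, Finset.card_range, smul_eq_mul]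
    rw [h4, Finset.sum_congr rfl (fun k _ => h1 k), Finset.sum_comm]
    apply Finset.sum_congr rfl
    intro w _
    rw [Finset.card_filter]
  have h5 : P * (L * cnt (fun w => rspA W (x₀ + ψ w))) ≤ L * N ^ 2 := by
    rw [h3, Finset.mul_sum]
    calc ∑ w : ZMod N × ZMod N, P * ((Finset.range L).filter (fun k : ℕ =>
          ((((x₀ + ψ w).1.val : ℤ), ((x₀ + ψ w).2.val : ℤ)) : ℤ × ℤ) +
            ((8 ^ J * k : ℕ) : ℤ) • v ∈ W)).card
        ≤ ∑ _w : ZMod N × ZMod N, L := by
          apply Finset.sum_le_sum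
          intro w _
          rw [perm_residues W v L hL hWL]
          exact hW _
      _ = L * N ^ 2 := by
          rw [Finset.sum_const, Finset.card_univ, Fintype.card_prod, ZMod.card, smul_eq_mul]
          ring
  have h6 : L * (P * cnt (fun w => rspA W (x₀ + ψ w))) ≤ L * N ^ 2 := by
    calc L * (P * cnt (fun w => rspA W (x₀ + ψ w)))
        = P * (L * cnt (fun w => rspA W (x₀ + ψ w))) := by ring
      _ ≤ _ := h5
  exact Nat.le_of_mul_le_mul_left h6 hLpos

theorem thin_of_wild {N : ℕ} [NeZero N] {I : Type} [Fintype I]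
    (W : I → Set (ℤ × ℤ)) (v : I → ℤ × ℤ) (L P : I → ℕ) (hL : ∀ i, Odd (L i))
    (hWN : ∀ i x (u : ℤ × ℤ), x + (N : ℤ) • u ∈ W i ↔ x ∈ W i)
    (hWL : ∀ i x, x + (L i : ℤ) • v i ∈ W i ↔ x ∈ W i)
    (hW : ∀ i x, P i * ((Finset.range (L i)).filter
      (fun k : ℕ => x + (k : ℤ) • v i ∈ W i)).card ≤ L i)
    (hP : ∀ i, 65536 * Fintype.card I ≤ P i) :
    Thin {x : ZMod N × ZMod N | ∃ i, (((x.1.val : ℤ), (x.2.val : ℤ)) : ℤ × ℤ) ∈ W i} := by
  intro ψ J hψ x₀
  have h1 : ∀ i, P i *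
      cnt (fun w => (((x₀ + ψ w).1.val : ℤ), ((x₀ + ψ w).2.val : ℤ)) ∈ W i) ≤ N ^ 2 :=
    fun i => thin_one (W i) (v i) (L i) (P i) (hL i) (hWN i) (hWL i) (hW i) ψ J hψ x₀
  have h2 : cnt (fun w => x₀ + ψ w ∈ {x : ZMod N × ZMod N |
      ∃ i, (((x.1.val : ℤ), (x.2.val : ℤ)) : ℤ × ℤ) ∈ W i}) ≤
      ∑ i, cnt (fun w => (((x₀ + ψ w).1.val : ℤ), ((x₀ + ψ w).2.val : ℤ)) ∈ W i) := by
    unfold cnt
    calc _ ≤ (Finset.univ.biUnion (fun i : I => Finset.univ.filter
            (fun w : ZMod N × ZMod N =>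
              (((x₀ + ψ w).1.val : ℤ), ((x₀ + ψ w).2.val : ℤ)) ∈ W i))).card := by
          apply Finset.card_le_card
          intro w hw
          simp only [Set.mem_ofPred_eq, Finset.mem_filter, Finset.mem_univ, true_and,
            Finset.mem_biUnion] at hw ⊢
          exact hw
      _ ≤ _ := Finset.card_biUnion_le
  rcases Nat.eq_zero_or_pos (Fintype.card I) with h0 | h0
  · have : IsEmpty I := Fintype.card_eq_zero_iff.1 h0
    have h3 : cnt (fun w => x₀ + ψ w ∈ {x : ZMod N × ZMod N |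
        ∃ i, (((x.1.val : ℤ), (x.2.val : ℤ)) : ℤ × ℤ) ∈ W i}) ≤ 0 := by
      simpa using h2
    have h4 := Nat.le_zero.1 h3
    rw [h4]
    simp
  · have h3 : Fintype.card I * (65536 * cnt (fun w => x₀ + ψ w ∈ {x : ZMod N × ZMod N |
        ∃ i, (((x.1.val : ℤ), (x.2.val : ℤ)) : ℤ × ℤ) ∈ W i})) ≤ Fintype.card I * N ^ 2 := by
      calc Fintype.card I * (65536 * cnt (fun w => x₀ + ψ w ∈ {x : ZMod N × ZMod N |
            ∃ i, (((x.1.val : ℤ), (x.2.val : ℤ)) : ℤ × ℤ) ∈ W i}))
          ≤ Fintype.card I * (65536 *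
            ∑ i, cnt (fun w => (((x₀ + ψ w).1.val : ℤ), ((x₀ + ψ w).2.val : ℤ)) ∈ W i)) := by
            gcongr
        _ = ∑ i, (65536 * Fintype.card I) *
            cnt (fun w => (((x₀ + ψ w).1.val : ℤ), ((x₀ + ψ w).2.val : ℤ)) ∈ W i) := by
            rw [← Finset.mul_sum]; ring
        _ ≤ ∑ i, P i *
            cnt (fun w => (((x₀ + ψ w).1.val : ℤ), ((x₀ + ψ w).2.val : ℤ)) ∈ W i) := by
            apply Finset.sum_le_sum
            intro i _
            exact Nat.mul_le_mul_right _ (hP i)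
        _ ≤ ∑ _i : I, N ^ 2 := Finset.sum_le_sum (fun i _ => h1 i)
        _ = Fintype.card I * N ^ 2 := by
            rw [Finset.sum_const, Finset.card_univ, smul_eq_mul]
    exact Nat.le_of_mul_le_mul_left h3 h0

end Vale.Agent.P043.Z3
end
end

section

section

/-!
# Counting lemmas

PROOFS.
`cnt_class`: all classes `{β | ρ β = w}` are translates of each other (`ρ` is onto: `ρ (k : ℕ) = k`), and
their sizes add up to `N`.
`exists_of_cnt`: `cnt p + cnt q < cnt r` gives an element with `r`, not `p`, not `q` (union bound).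
`markov`: `N * cnt {a | N < 64 * cnt {b | D a b}} ≤ 64 * ∑ a, cnt {b | D a b}` and the sum is
`cnt {x | D x.1 x.2}`; so `65536 * N * cnt (..) ≤ 64 * N²`, i.e. `1024 * cnt (..) ≤ N` (`N > 0`).
`fineG_cnt` etc.: `markov` for `D' α b := (8 α, b) ∈ D`, `ψ (α, b) = (8 α, b)` (`J = 1`: `ψ w = 8 • v` for
`w = (v.1, 8 v.2)`); `D' β a := (a, 8β) ∈ D`, `ψ (β, a) = (a, 8β)`; `D' γ b := (8γ - b, b) ∈ D`,
`ψ (γ, b) = (8γ - b, b)` (`8 • v = ψ (v.1 + v.2, 8 v.2)`); base level: `J = 0`,
`ψ = id`, swap, `(c, b) ↦ (c - b, b)`.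
-/

namespace Vale.Agent.P043.Z3

open Vale.Agent.P043.B Classical

variable {N : ℕ} [NeZero N]

theorem rc_mem {α : Type} [Fintype α] (p : α → Prop) (x : α) :
    x ∈ @Finset.filter α p (fun a => propDecidable (p a)) Finset.univ ↔ p x :=
  (@Finset.mem_filter α p (fun a => propDecidable (p a)) Finset.univ x).trans
    (and_iff_right (Finset.mem_univ x))

theorem cnt_le {α : Type} [Fintype α] {p q : α → Prop} (h : ∀ x, p x → q x) : cnt p ≤ cnt q := by
  unfold cnt
  refine Finset.card_le_card fun x hx => ?_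
  rw [Finset.mem_filter] at hx ⊢
  exact ⟨hx.1, h x hx.2⟩

theorem cnt_or {α : Type} [Fintype α] (p q : α → Prop) :
    cnt (fun x => p x ∨ q x) ≤ cnt p + cnt q := by
  unfold cnt
  refine (Finset.card_le_card fun x hx => ?_).trans (Finset.card_union_le _ _)
  rw [Finset.mem_union]
  exact ((rc_mem (fun x => p x ∨ q x) x).1 hx).imp (rc_mem p x).2 (rc_mem q x).2

theorem cnt_equiv {α β : Type} [Fintype α] [Fintype β] (e : α ≃ β) (p : β → Prop) :
    cnt (fun x => p (e x)) = cnt p := by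
  unfold cnt
  refine Finset.card_bij (fun x _ => e x) (fun x hx => ?_) (fun x _ y _ h => e.injective h)
    fun y hy => ⟨e.symm y, ?_, e.apply_symm_apply y⟩
  · rw [Finset.mem_filter] at hx ⊢
    exact ⟨Finset.mem_univ _, hx.2⟩
  · rw [Finset.mem_filter] at hy ⊢
    refine ⟨Finset.mem_univ _, ?_⟩
    rw [e.apply_symm_apply]
    exact hy.2

theorem exists_of_cnt {α : Type} [Fintype α] {p r : α → Prop} (h : cnt p < cnt r) :
    ∃ x, r x ∧ ¬ p x := by
  by_contra hcon
  push Not at hcon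
  exact absurd (cnt_le hcon) (not_le.2 h)

theorem cnt_class (ρ : ZMod N →+* ZMod 8) (w : ZMod 8) : 8 * cnt (fun β => ρ β = w) = N := by
  have h1 : ∀ v : ZMod 8, cnt (fun β => ρ β = v) = cnt (fun β => ρ β = w) := by
    intro v
    rw [← cnt_equiv (Equiv.addRight (((w - v).val : ℕ) : ZMod N)) fun β => ρ β = w]
    congr 1
    funext β
    have hρ : ρ (((w - v).val : ℕ) : ZMod N) = w - v := by
      rw [map_natCast, ZMod.natCast_zmod_val]
    rw [Equiv.coe_addRight, map_add, hρ]
    refine propext ⟨fun h => by rw [h]; ring, fun h => ?_⟩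
    have h3 := congrArg (fun z => z - (w - v)) h
    rw [add_sub_cancel_right] at h3
    rw [h3]
    ring
  have h2 : ∑ v : ZMod 8, cnt (fun β : ZMod N => ρ β = v) = N := by
    have := Finset.card_eq_sum_card_fiberwise (s := (Finset.univ : Finset (ZMod N)))
      (t := (Finset.univ : Finset (ZMod 8))) (f := ρ) (fun x _ => Finset.mem_coe.2 (Finset.mem_univ _))
    rw [Finset.card_univ, ZMod.card] at this
    refine Eq.trans (Finset.sum_congr rfl fun v _ => ?_) this.symm
    unfold cnt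
    congr
  rw [Finset.sum_congr rfl fun v _ => h1 v, Finset.sum_const, Finset.card_univ, ZMod.card,
    smul_eq_mul] at h2
  exact h2

theorem rc_sum (D : ZMod N → ZMod N → Prop) :
    ∑ a, cnt (fun b => D a b) = cnt (fun x : ZMod N × ZMod N => D x.1 x.2) := by
  unfold cnt
  rw [Finset.card_filter, ← Finset.univ_product_univ, Finset.sum_product]
  refine Finset.sum_congr rfl fun a _ => ?_
  rw [Finset.card_filter]

theorem markov (D : ZMod N → ZMod N → Prop)
    (h : 65536 * cnt (fun x : ZMod N × ZMod N => D x.1 x.2) ≤ N ^ 2) :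
    1024 * cnt (fun a => ¬ 64 * cnt (fun b => D a b) ≤ N) ≤ N := by
  have hN : 0 < N := Nat.pos_of_ne_zero (NeZero.ne N)
  rw [← rc_sum] at h
  have h1 : cnt (fun a => ¬ 64 * cnt (fun b => D a b) ≤ N) * N ≤
      ∑ a, 64 * cnt (fun b => D a b) := by
    conv_lhs => rw [cnt]
    rw [← smul_eq_mul, ← Finset.sum_const]
    refine (Finset.sum_le_sum fun a ha => ?_).trans
      (Finset.sum_le_univ_sum_of_nonneg fun a => Nat.zero_le _)
    exact (not_le.1 ((rc_mem (fun a => ¬ 64 * cnt (fun b => D a b) ≤ N) a).1 ha)).le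
  rw [← Finset.mul_sum] at h1
  have h2 : 1024 * cnt (fun a => ¬ 64 * cnt (fun b => D a b) ≤ N) * N ≤ N * N := by
    nlinarith
  exact Nat.le_of_mul_le_mul_right h2 hN

/-- thin sets along a homomorphism whose range contains all multiples of `8` -/
theorem rc_thin {D : Set (ZMod N × ZMod N)} (h : Thin D)
    (ψ : ZMod N × ZMod N →+ ZMod N × ZMod N) (J : ℕ) (hψ : ∀ v, ∃ w, ψ w = (8 ^ J : ℕ) • v) :
    65536 * cnt (fun w => ψ w ∈ D) ≤ N ^ 2 := by
  have := h ψ J hψ 0
  simp only [zero_add] at this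
  exact this

theorem fineG_cnt {D : Set (ZMod N × ZMod N)} (h : Thin D) :
    1024 * cnt (fun α => ¬ fineG D α) ≤ N := by
  refine markov (fun α b => (8 * α, b) ∈ D) (rc_thin h
    { toFun := fun w => (8 * w.1, w.2)
      map_zero' := by simp only [Prod.fst_zero, mul_zero, Prod.snd_zero, Prod.mk_zero_zero]
      map_add' := fun x y => by simp only [Prod.fst_add, Prod.snd_add, mul_add, Prod.mk_add_mk] }
    1 fun v => ⟨(v.1, 8 * v.2), ?_⟩)
  refine Prod.ext ?_ ?_
  · change 8 * v.1 = (8 ^ 1 : ℕ) • v.1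
    rw [nsmul_eq_mul, pow_one]
    rfl
  · change 8 * v.2 = (8 ^ 1 : ℕ) • v.2
    rw [nsmul_eq_mul, pow_one]
    rfl

theorem fineK_cnt {D : Set (ZMod N × ZMod N)} (h : Thin D) :
    1024 * cnt (fun α => ¬ fineK D α) ≤ N := by
  refine markov (fun β a => (a, 8 * β) ∈ D) (rc_thin h
    { toFun := fun w => (w.2, 8 * w.1)
      map_zero' := by simp only [Prod.fst_zero, mul_zero, Prod.snd_zero, Prod.mk_zero_zero]
      map_add' := fun x y => by simp only [Prod.fst_add, Prod.snd_add, mul_add, Prod.mk_add_mk] }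
    1 fun v => ⟨(v.2, 8 * v.1), ?_⟩)
  refine Prod.ext ?_ ?_
  · change 8 * v.1 = (8 ^ 1 : ℕ) • v.1
    rw [nsmul_eq_mul, pow_one]
    rfl
  · change 8 * v.2 = (8 ^ 1 : ℕ) • v.2
    rw [nsmul_eq_mul, pow_one]
    rfl

theorem fineH_cnt {D : Set (ZMod N × ZMod N)} (h : Thin D) :
    1024 * cnt (fun α => ¬ fineH D α) ≤ N := by
  refine markov (fun γ b => (8 * γ - b, b) ∈ D) (rc_thin h
    { toFun := fun w => (8 * w.1 - w.2, w.2)
      map_zero' := by
        simp only [Prod.fst_zero, mul_zero, Prod.snd_zero, sub_zero, Prod.mk_zero_zero]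
      map_add' := fun x y => by
        refine Prod.ext ?_ rfl
        change 8 * (x.1 + y.1) - (x.2 + y.2) = (8 * x.1 - x.2) + (8 * y.1 - y.2)
        ring }
    1 fun v => ⟨(v.1 + v.2, 8 * v.2), ?_⟩)
  refine Prod.ext ?_ ?_
  · change 8 * (v.1 + v.2) - 8 * v.2 = (8 ^ 1 : ℕ) • v.1
    rw [nsmul_eq_mul, pow_one]
    push_cast
    ring
  · change 8 * v.2 = (8 ^ 1 : ℕ) • v.2
    rw [nsmul_eq_mul, pow_one]
    rfl

theorem fine0_cnt {D : Set (ZMod N × ZMod N)} (h : Thin D) :
    1024 * cnt (fun α => ¬ fine0 D α) ≤ N :=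
  markov (fun a b => (a, b) ∈ D) (rc_thin h (AddMonoidHom.id _) 0 fun v => ⟨v, by
    rw [pow_zero, one_smul]
    rfl⟩)

theorem fine1_cnt {D : Set (ZMod N × ZMod N)} (h : Thin D) :
    1024 * cnt (fun α => ¬ fine1 D α) ≤ N :=
  markov (fun b a => (a, b) ∈ D) (rc_thin h
    { toFun := fun w => (w.2, w.1)
      map_zero' := rfl
      map_add' := fun _ _ => rfl } 0 fun v => ⟨(v.2, v.1), by
    rw [pow_zero, one_smul]
    rfl⟩)

theorem fine2_cnt {D : Set (ZMod N × ZMod N)} (h : Thin D) :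
    1024 * cnt (fun α => ¬ fine2 D α) ≤ N := by
  refine markov (fun c b => (c - b, b) ∈ D) (rc_thin h
    { toFun := fun w => (w.1 - w.2, w.2)
      map_zero' := by
        simp only [Prod.fst_zero, Prod.snd_zero, sub_zero, Prod.mk_zero_zero]
      map_add' := fun x y => by
        refine Prod.ext ?_ rfl
        change (x.1 + y.1) - (x.2 + y.2) = (x.1 - x.2) + (y.1 - y.2)
        ring }
    0 fun v => ⟨(v.1 + v.2, v.2), ?_⟩)
  rw [pow_zero, one_smul]
  refine Prod.ext ?_ rfl
  change v.1 + v.2 - v.2 = v.1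
  ring

/-- `8`-dilates of thin sets are thin (`ψ ↦ 8 ψ`) -/
theorem thin_dilate {D : Set (ZMod N × ZMod N)} (h : Thin D) (ka kb : ZMod N) :
    Thin {x : ZMod N × ZMod N | (8 * (x.1 + ka), 8 * (x.2 + kb)) ∈ D} := by
  intro ψ J hψ x₀
  have h1 := h ((8 : ℕ) • ψ) (J + 1) (fun v => by
    obtain ⟨w, hw⟩ := hψ v
    refine ⟨w, ?_⟩
    rw [AddMonoidHom.nsmul_apply, hw, ← mul_smul]
    congr 1
    ring) (8 * (x₀.1 + ka), 8 * (x₀.2 + kb))
  refine le_trans (le_of_eq ?_) h1
  congr 2
  funext w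
  refine propext (iff_of_eq ?_)
  change ((8 * ((x₀ + ψ w).1 + ka), 8 * ((x₀ + ψ w).2 + kb)) ∈ D) =
    ((8 * (x₀.1 + ka), 8 * (x₀.2 + kb)) + ((8 : ℕ) • ψ) w ∈ D)
  congr 1
  rw [AddMonoidHom.nsmul_apply]
  refine Prod.ext ?_ ?_
  · change 8 * (x₀.1 + (ψ w).1 + ka) = 8 * (x₀.1 + ka) + (8 : ℕ) • (ψ w).1
    rw [nsmul_eq_mul]
    push_cast
    ring
  · change 8 * (x₀.2 + (ψ w).2 + kb) = 8 * (x₀.2 + kb) + (8 : ℕ) • (ψ w).2
    rw [nsmul_eq_mul]
    push_cast
    ring

/-- translates of thin sets are thin -/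
theorem thin_shift {D : Set (ZMod N × ZMod N)} (h : Thin D) (s t : ZMod N) :
    Thin {x : ZMod N × ZMod N | (x.1 + s, x.2 + t) ∈ D} := by
  intro ψ J hψ x₀
  have h1 := h ψ J hψ (x₀.1 + s, x₀.2 + t)
  refine le_trans (le_of_eq ?_) h1
  congr 2
  funext w
  refine propext (iff_of_eq ?_)
  change (((x₀ + ψ w).1 + s, (x₀ + ψ w).2 + t) ∈ D) = ((x₀.1 + s, x₀.2 + t) + ψ w ∈ D)
  congr 1
  refine Prod.ext ?_ ?_
  · change x₀.1 + (ψ w).1 + s = x₀.1 + s + (ψ w).1
    ring
  · change x₀.2 + (ψ w).2 + t = x₀.2 + t + (ψ w).2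
    ring

/-- the points `(8 α, 8 β)` -/
theorem thin_eight {D : Set (ZMod N × ZMod N)} (h : Thin D) :
    65536 * cnt (fun x : ZMod N × ZMod N => (8 * x.1, 8 * x.2) ∈ D) ≤ N ^ 2 := by
  refine rc_thin h
    { toFun := fun w => (8 * w.1, 8 * w.2)
      map_zero' := by simp only [Prod.fst_zero, mul_zero, Prod.snd_zero, Prod.mk_zero_zero]
      map_add' := fun x y => by simp only [Prod.fst_add, Prod.snd_add, mul_add, Prod.mk_add_mk] }
    1 fun v => ⟨v, ?_⟩
  refine Prod.ext ?_ ?_
  · change 8 * v.1 = (8 ^ 1 : ℕ) • v.1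
    rw [nsmul_eq_mul, pow_one]
    rfl
  · change 8 * v.2 = (8 ^ 1 : ℕ) • v.2
    rw [nsmul_eq_mul, pow_one]
    rfl

end Vale.Agent.P043.Z3
end
end

section

section

/-!
# The star lemma

PROOF.  `sa_star` (B/SudokuAperiodic.lean) for `E u v := ∃ α, Fi α ∧ ρ α = u ∧ ρ α - g α = v`.
Every `u` occurs: `8 * cnt {α | ρ α = u} = N > 8 * cnt {α | ¬ Fi α}`.
Pairwise meeting: let `α, α'` be fine with `{u,v}`, `{w,z}` disjoint; choose `x ∉ {u,v,w,z}` (`sa_fresh`).
`8 * cnt {β | ρ β = x} = N`, the bad `β` for `α` and for `α'` are each fewer than `N/16`, so there is a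
`β`, `ρ β = x`, with `R1 (x - u) (g α) (l β)` and `R1 (x - w) (g α') (l β)`.  The first says
`x - l β = v` or `x = v` or `x - l β = u`, so `x - l β ∈ {u, v}`, and the second `x - l β ∈ {w, z}`:
contradiction.  Result: centre `c`: for fine `α`: `ρ α = c` or `ρ α - g α = c`.
-/

namespace Vale.Agent.P043.Z3

open Vale.Agent.P043.B Classical

variable {N : ℕ} [NeZero N]

theorem star_gen (ρ : ZMod N →+* ZMod 8) (g l : ZMod N → ZMod 8) (Fi : ZMod N → Prop)
    (h1 : 8 * cnt (fun α => ¬ Fi α) < N)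
    (h2 : ∀ α, Fi α → 16 * cnt (fun β => ρ β ≠ ρ α ∧ ¬ R1 (ρ β - ρ α) (g α) (l β)) < N) :
    ∃ c : ZMod 8, ∀ α, Fi α → ρ α ≠ c → g α = ρ α - c := by
  obtain ⟨c, hc⟩ := sa_star (fun u v => ∃ α, Fi α ∧ ρ α = u ∧ ρ α - g α = v)
    (fun u => by
      have h3 : cnt (fun α => ¬ Fi α) < cnt (fun α => ρ α = u) := by
        have := cnt_class ρ u
        omega
      obtain ⟨α, ha, hb⟩ := exists_of_cnt h3
      exact ⟨_, α, not_not.1 hb, ha, rfl⟩)
    (by
      rintro u v w z ⟨α, hα, rfl, rfl⟩ ⟨α', hα', rfl, rfl⟩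
      by_contra hcon
      simp only [not_or] at hcon
      obtain ⟨n1, n2, n3, n4⟩ := hcon
      obtain ⟨x, hx⟩ := sa_fresh {ρ α, ρ α - g α, ρ α', ρ α' - g α'} (by
        refine lt_of_le_of_lt (Finset.card_le_four) ?_
        norm_num)
      simp only [Finset.mem_insert, Finset.mem_singleton, not_or] at hx
      obtain ⟨x1, x2, x3, x4⟩ := hx
      have h3 : cnt (fun β => (ρ β ≠ ρ α ∧ ¬ R1 (ρ β - ρ α) (g α) (l β)) ∨
          (ρ β ≠ ρ α' ∧ ¬ R1 (ρ β - ρ α') (g α') (l β))) < cnt (fun β => ρ β = x) := by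
        have e1 := cnt_class ρ x
        have e2 := h2 α hα
        have e3 := h2 α' hα'
        have e4 := cnt_or (fun β => ρ β ≠ ρ α ∧ ¬ R1 (ρ β - ρ α) (g α) (l β))
          (fun β => ρ β ≠ ρ α' ∧ ¬ R1 (ρ β - ρ α') (g α') (l β))
        omega
      obtain ⟨β, hβ, hnb⟩ := exists_of_cnt h3
      simp only [not_or, not_and, not_not, hβ] at hnb
      have key : ∀ a b : ZMod 8, x ≠ a → x ≠ a - b → R1 (x - a) b (l β) →
          x - l β = a ∨ x - l β = a - b := by
        intro a b ha hb h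
        rcases h with h | h | h
        · right
          rw [h]; ring
        · exact absurd (by rw [h]; ring) hb
        · left
          rw [h]; ring
      have k1 := key _ _ x1 x2 (hnb.1 x1)
      have k2 := key _ _ x3 x4 (hnb.2 x3)
      rcases k1 with k1 | k1 <;> rcases k2 with k2 | k2
      · exact n1 (k1.symm.trans k2)
      · exact n2 (k1.symm.trans k2)
      · exact n3 (k1.symm.trans k2)
      · exact n4 (k1.symm.trans k2))
  refine ⟨c, fun α hα hne => ?_⟩
  have h3 : ρ α - g α = c := (hc _ _ ⟨α, hα, rfl, rfl⟩).resolve_left hne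
  rw [← h3]; ring

end Vale.Agent.P043.Z3
end
end

section

section

/-!
# Rows

PROOF.  (`N > 0`.)  All three: if the relation fails for `β` (with `ρ β ≠ ρ α`), then one of three bad events
happens, each with a small number of `β`: `N/64 + N/1024 + N/1024 < N/16`.
* `row_G`: `b := β - α`, `ρ b ≠ 0`.  If `(8α, b) ∉ D`, `K b = ρ b`, `H (8α + b) = ρ (8α + b) = ρ b` (`ρ 8 = 0`)
  then `q1 (8α) b`: `H = K b` so `R1 (K b) (G (8α)) (L (8α + 8b))`, `8α + 8b = 8β`, `K b = ρ β - ρ α`.
  Bad events: `(8α, β - α) ∈ D` (`≤ N/64` by fineness; `β ↦ β - α` bijective), `K b ≠ ρ b` and `ρ b ≠ 0`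
  (`eK`), `H (8α + b) ≠ ρ (..)`, `ρ (..) ≠ 0` (`eH`; `β ↦ 7α + β` bijective).
* `row_K`: fixed `β`, variable `α`: `a := α - β`, point `(a, 8β)`: `G a = ρ a` (`eG`),
  `H (a + 8β) = ρ a` (`eH`), `q2`: `R1 (G a) (K (8β)) (M (8β + 8a))`, `8β + 8a = 8α`.
* `row_H`: fixed `γ`, variable `δ`: `b := δ - γ`, `a := 8γ - b`, point `(8γ - b, b)`: `K b = ρ b` (`eK`),
  `G a = ρ a = -ρ b` (`eG`; `δ ↦ 9γ - δ` bijective), `q3`: `R1 (K b) (H (8γ)) (N' (a + 9b))`,
  `a + 9b = 8γ + 8b = 8δ`.
-/

set_option linter.all false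

namespace Vale.Agent.P043.Z3

open Vale.Agent.P043.B Classical

variable {N : ℕ} [NeZero N] {ρ : ZMod N →+* ZMod 8} {G K H L M N' : ZMod N → ZMod 8}
  {D : Set (ZMod N × ZMod N)}

private theorem rr738_count {p A B C : ZMod N → Prop} (h : ∀ x, p x → A x ∨ B x ∨ C x)
    (hA : 64 * cnt A ≤ N) (hB : 1024 * cnt B ≤ N) (hC : 1024 * cnt C ≤ N) : 16 * cnt p < N := by
  have h1 : cnt p ≤ cnt (fun x => A x ∨ B x ∨ C x) := cnt_le h
  have h2 := cnt_or A (fun x => B x ∨ C x)
  have h3 := cnt_or B C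
  have hN : 0 < N := Nat.pos_of_ne_zero (NeZero.ne N)
  omega

private theorem rr738_eight (x : ZMod N) : ρ (8 * x) = 0 := by
  rw [map_mul, map_ofNat]
  have : (OfNat.ofNat 8 : ZMod 8) = 0 := by decide
  rw [this, zero_mul]

theorem row_G (h : Lev ρ G K H L M N' D) (α : ZMod N) (hα : fineG D α) :
    16 * cnt (fun β => ρ β ≠ ρ α ∧ ¬ R1 (ρ β - ρ α) (G (8 * α)) (L (8 * β))) < N := by
  refine rr738_count (A := fun β => (8 * α, β - α) ∈ D)
    (B := fun β => ρ (β - α) ≠ 0 ∧ K (β - α) ≠ ρ (β - α))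
    (C := fun β => ρ (8 * α + (β - α)) ≠ 0 ∧ H (8 * α + (β - α)) ≠ ρ (8 * α + (β - α)))
    ?_ ?_ ?_ ?_
  · rintro β ⟨h1, h2⟩
    by_contra hcon
    push Not at hcon
    obtain ⟨hA, hB, hC⟩ := hcon
    have e1 : ρ (β - α) = ρ β - ρ α := map_sub ρ β α
    have hne : ρ (β - α) ≠ 0 := by
      rw [e1]
      exact sub_ne_zero.2 h1
    have e2 : ρ (8 * α + (β - α)) = ρ (β - α) := by
      rw [map_add, rr738_eight, zero_add]
    have hK := hB hne
    have hH := hC (by rw [e2]; exact hne)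
    rw [e2] at hH
    have h3 := h.q1 (8 * α) (β - α) hA (by rw [hH, hK])
    rw [hK, e1] at h3
    refine h2 ?_
    have e3 : 8 * α + 8 * (β - α) = 8 * β := by ring
    rw [e3] at h3
    exact h3
  · have := cnt_equiv (Equiv.subRight α) (fun b => (8 * α, b) ∈ D)
    refine le_trans (le_of_eq ?_) hα
    exact congrArg (fun t => 64 * t) this
  · have := cnt_equiv (Equiv.subRight α) (fun m => ρ m ≠ 0 ∧ K m ≠ ρ m)
    refine le_trans (le_of_eq ?_) h.eK
    exact congrArg (fun t => 1024 * t) this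
  · have := cnt_equiv ((Equiv.subRight α).trans (Equiv.addLeft (8 * α)))
      (fun m => ρ m ≠ 0 ∧ H m ≠ ρ m)
    refine le_trans (le_of_eq ?_) h.eH
    exact congrArg (fun t => 1024 * t) this

theorem row_K (h : Lev ρ G K H L M N' D) (β : ZMod N) (hβ : fineK D β) :
    16 * cnt (fun α => ρ α ≠ ρ β ∧ ¬ R1 (ρ α - ρ β) (K (8 * β)) (M (8 * α))) < N := by
  refine rr738_count (A := fun α => (α - β, 8 * β) ∈ D)
    (B := fun α => ρ (α - β) ≠ 0 ∧ G (α - β) ≠ ρ (α - β))
    (C := fun α => ρ (8 * β + (α - β)) ≠ 0 ∧ H (8 * β + (α - β)) ≠ ρ (8 * β + (α - β)))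
    ?_ ?_ ?_ ?_
  · rintro α ⟨h1, h2⟩
    by_contra hcon
    push Not at hcon
    obtain ⟨hA, hB, hC⟩ := hcon
    have e1 : ρ (α - β) = ρ α - ρ β := map_sub ρ α β
    have hne : ρ (α - β) ≠ 0 := by
      rw [e1]
      exact sub_ne_zero.2 h1
    have e2 : ρ (8 * β + (α - β)) = ρ (α - β) := by
      rw [map_add, rr738_eight, zero_add]
    have hG := hB hne
    have hH := hC (by rw [e2]; exact hne)
    rw [e2] at hH
    have h3 := h.q2 (α - β) (8 * β) hA (by rw [add_comm, hH, hG])
    rw [hG, e1] at h3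
    refine h2 ?_
    have e3 : 8 * β + 8 * (α - β) = 8 * α := by ring
    rw [e3] at h3
    exact h3
  · have := cnt_equiv (Equiv.subRight β) (fun a => (a, 8 * β) ∈ D)
    refine le_trans (le_of_eq ?_) hβ
    exact congrArg (fun t => 64 * t) this
  · have := cnt_equiv (Equiv.subRight β) (fun m => ρ m ≠ 0 ∧ G m ≠ ρ m)
    refine le_trans (le_of_eq ?_) h.eG
    exact congrArg (fun t => 1024 * t) this
  · have := cnt_equiv ((Equiv.subRight β).trans (Equiv.addLeft (8 * β)))
      (fun m => ρ m ≠ 0 ∧ H m ≠ ρ m)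
    refine le_trans (le_of_eq ?_) h.eH
    exact congrArg (fun t => 1024 * t) this

theorem row_H (h : Lev ρ G K H L M N' D) (γ : ZMod N) (hγ : fineH D γ) :
    16 * cnt (fun δ => ρ δ ≠ ρ γ ∧ ¬ R1 (ρ δ - ρ γ) (H (8 * γ)) (N' (8 * δ))) < N := by
  refine rr738_count (A := fun δ => (8 * γ - (δ - γ), δ - γ) ∈ D)
    (B := fun δ => ρ (δ - γ) ≠ 0 ∧ K (δ - γ) ≠ ρ (δ - γ))
    (C := fun δ => ρ (8 * γ - (δ - γ)) ≠ 0 ∧ G (8 * γ - (δ - γ)) ≠ ρ (8 * γ - (δ - γ)))
    ?_ ?_ ?_ ?_
  · rintro δ ⟨h1, h2⟩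
    by_contra hcon
    push Not at hcon
    obtain ⟨hA, hB, hC⟩ := hcon
    have e1 : ρ (δ - γ) = ρ δ - ρ γ := map_sub ρ δ γ
    have hne : ρ (δ - γ) ≠ 0 := by
      rw [e1]
      exact sub_ne_zero.2 h1
    have e2 : ρ (8 * γ - (δ - γ)) = - ρ (δ - γ) := by
      rw [map_sub, rr738_eight, zero_sub]
    have hK := hB hne
    have hG := hC (by rw [e2]; exact neg_ne_zero.2 hne)
    rw [e2] at hG
    have h3 := h.q3 (8 * γ - (δ - γ)) (δ - γ) hA (by rw [hG, hK])
    rw [hK, e1] at h3
    refine h2 ?_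
    have e3 : 8 * γ - (δ - γ) + 9 * (δ - γ) = 8 * δ := by ring
    have e4 : 8 * γ - (δ - γ) + (δ - γ) = 8 * γ := by ring
    rw [e3, e4] at h3
    exact h3
  · have := cnt_equiv (Equiv.subRight γ) (fun b => (8 * γ - b, b) ∈ D)
    refine le_trans (le_of_eq ?_) hγ
    exact congrArg (fun t => 64 * t) this
  · have := cnt_equiv (Equiv.subRight γ) (fun m => ρ m ≠ 0 ∧ K m ≠ ρ m)
    refine le_trans (le_of_eq ?_) h.eK
    exact congrArg (fun t => 1024 * t) this
  · have := cnt_equiv ((Equiv.subRight γ).trans (Equiv.subLeft (8 * γ)))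
      (fun m => ρ m ≠ 0 ∧ G m ≠ ρ m)
    refine le_trans (le_of_eq ?_) h.eG
    exact congrArg (fun t => 1024 * t) this

end Vale.Agent.P043.Z3
end
end

section

section

/-!
# Base level

PROOF of `base_aff`.  (A) For `a, a+t, a', a'+t` all `fine0` there is `b` with `(a,b), (a+t,b-t), (a',b),
(a'+t,b-t) ∉ E` (`4 N/64 < N`), and `rel`(`.clock`): `Ca a + Cb b = Cab (a+b) = Ca (a+t) + Cb (b-t)`, so
`Ca (a+t) - Ca a = Cb b - Cb (b-t) = Ca (a'+t) - Ca a'`.  For every `t` there is a fine pair `a, a+t`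
(`2 N/1024 < N`): define `lam t` as this common difference.  `lam (t + t') = lam t + lam t'` (choose `a`, `a+t`,
`a+t+t'` fine).  So `lam t = l * ρ t`, `l := lam 1` (`t = t.val • 1`).  With a fine `a₀`,
`ca := Ca a₀ - l ρ a₀`: `Ca a = l ρ a + ca` for all fine `a`.
(B) for `b, b - t` both `fine1` choose `a` with `a, a+t` `fine0` and `(a,b), (a+t,b-t) ∉ E`
(`2 N/1024 + 2 N/64 < N`): `Cb b - Cb (b-t) = lam t`; so `Cb b = l ρ b + cb`.
(C) for `c` `fine2` choose `b` with `(c-b,b) ∉ E`, `c-b` `fine0`, `b` `fine1`: `Cab c = Ca (c-b) + Cb b`.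
(D) last statement: choose `a` with `a, a+u` fine.

PROOF of `base_lev`.  `l * l = 1` (`sa_odd`).  Choose `s, t` with `ρ s = -(l ca)`, `ρ t = -(l cb)` (`ρ` onto).
`q1..q4` of the new system at `(a,b)`: `rel` at `(a+s, b+t)` multiplied by `l` (`sa_R1_smul`; `l * y = l * z`
implies `y = z`).  `eG`: if `m + s` is `fine0`, `ρ m ≠ 0`: `Ca (m+s) = l (ρ m + ρ s) + ca = l ρ m ≠ 0`, some
`b` has `(m+s, b) ∉ E`, `cG`: `G (m+s) = Ca (m+s) = l ρ m`, so `l * G (m+s) = ρ m`.  `eK`: `fine1`, `cK`.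
`eH`: `fine2` at `m+s+t`: `Cab = l ρ m + l ρ s + l ρ t + ca + cb = l ρ m`, `cH`.
-/

namespace Vale.Agent.P043.Z3

open Vale.Agent.P043.B Classical

variable {N : ℕ} [NeZero N] {G K H L M N' Ca Cb Cab : ZMod N → ZMod 8}
  {E : Set (ZMod N × ZMod N)}

theorem rb_avoid {α : Type} [Fintype α] {p : α → Prop} (h : cnt p < Fintype.card α) :
    ∃ x, ¬ p x := by
  obtain ⟨x, -, hx⟩ := exists_of_cnt (p := p) (r := fun _ : α => True) (by
    refine lt_of_lt_of_eq h ?_
    unfold cnt
    rw [Finset.filter_true, Finset.card_univ])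
  exact ⟨x, hx⟩

theorem rb_avoidN {p : ZMod N → Prop} (h : cnt p < N) : ∃ x, ¬ p x :=
  rb_avoid (by rw [ZMod.card]; exact h)

theorem rb_right (p : ZMod N → Prop) (t : ZMod N) : cnt (fun a => p (a + t)) = cnt p :=
  cnt_equiv (Equiv.addRight t) p

theorem rb_sub (p : ZMod N → Prop) (t : ZMod N) : cnt (fun a => p (a - t)) = cnt p :=
  cnt_equiv (Equiv.subRight t) p

theorem rb_left (p : ZMod N → Prop) (c : ZMod N) : cnt (fun a => p (c - a)) = cnt p :=
  cnt_equiv (Equiv.subLeft c) p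

theorem rb_pos : 0 < N := Nat.pos_of_ne_zero (NeZero.ne N)

theorem rb_rho (ρ : ZMod N →+* ZMod 8) (t : ZMod N) : ρ t = (t.val : ZMod 8) := by
  conv_lhs => rw [← ZMod.natCast_zmod_val t]
  rw [map_natCast]

omit [NeZero N] in
theorem rb_onto (ρ : ZMod N →+* ZMod 8) (x : ZMod 8) : ∃ s, ρ s = x :=
  ⟨(x.val : ZMod N), by rw [map_natCast, ZMod.natCast_zmod_val]⟩

theorem rb_clock (h : Bas G K H L M N' Ca Cb Cab E) {a b : ZMod N} (hab : (a, b) ∉ E) :
    Cab (a + b) = Ca a + Cb b := (h.rel a b hab).clock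

theorem base_aff (ρ : ZMod N →+* ZMod 8) (h : Bas G K H L M N' Ca Cb Cab E) :
    ∃ l ca cb : ZMod 8, (∀ a, fine0 E a → Ca a = l * ρ a + ca) ∧
      (∀ b, fine1 E b → Cb b = l * ρ b + cb) ∧
      (∀ c, fine2 E c → Cab c = l * ρ c + ca + cb) ∧
      ∀ u : ZMod N, ∃ a, fine0 E a ∧ fine0 E (a + u) ∧ Ca (a + u) - Ca a = l * ρ u := by
  have hN : 0 < N := rb_pos
  have hf0 := fine0_cnt h.thin
  have hf1 := fine1_cnt h.thin
  -- three fine points
  have three : ∀ t t' : ZMod N, ∃ a, fine0 E a ∧ fine0 E (a + t) ∧ fine0 E (a + t') := by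
    intro t t'
    obtain ⟨a, ha⟩ := rb_avoidN (p := fun a => (¬ fine0 E a ∨ ¬ fine0 E (a + t)) ∨
      ¬ fine0 E (a + t')) (by
      have h1 := cnt_or (fun a => ¬ fine0 E a ∨ ¬ fine0 E (a + t)) (fun a => ¬ fine0 E (a + t'))
      have h2 := cnt_or (fun a => ¬ fine0 E a) (fun a => ¬ fine0 E (a + t))
      rw [rb_right (fun a => ¬ fine0 E a) t'] at h1
      rw [rb_right (fun a => ¬ fine0 E a) t] at h2
      omega)
    rw [not_or, not_or, not_not, not_not, not_not] at ha
    exact ⟨a, ha.1.1, ha.1.2, ha.2⟩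
  -- the difference
  have diff : ∀ t a a' : ZMod N, fine0 E a → fine0 E (a + t) → fine0 E a' → fine0 E (a' + t) →
      Ca (a + t) - Ca a = Ca (a' + t) - Ca a' := by
    intro t a a' h1 h2 h3 h4
    obtain ⟨b, hb⟩ := rb_avoidN (p := fun b => (((a, b) ∈ E ∨ (a + t, b - t) ∈ E) ∨ (a', b) ∈ E) ∨
      (a' + t, b - t) ∈ E) (by
      have e1 := cnt_or (fun b => ((a, b) ∈ E ∨ (a + t, b - t) ∈ E) ∨ (a', b) ∈ E)
        (fun b => (a' + t, b - t) ∈ E)
      have e2 := cnt_or (fun b => (a, b) ∈ E ∨ (a + t, b - t) ∈ E) (fun b => (a', b) ∈ E)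
      have e3 := cnt_or (fun b => (a, b) ∈ E) (fun b => (a + t, b - t) ∈ E)
      rw [rb_sub (fun b => (a' + t, b) ∈ E) t] at e1
      rw [rb_sub (fun b => (a + t, b) ∈ E) t] at e3
      unfold fine0 at h1 h2 h3 h4
      omega)
    rw [not_or, not_or, not_or] at hb
    have c1 := rb_clock h hb.1.1.1
    have c2 := rb_clock h hb.1.1.2
    have c3 := rb_clock h hb.1.2
    have c4 := rb_clock h hb.2
    have e : ∀ x : ZMod N, x + t + (b - t) = x + b := fun x => by ring
    rw [e] at c2 c4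
    rw [c1] at c2
    rw [c3] at c4
    linear_combination c4 - c2
  have hd : ∀ t : ZMod N, ∃ d, ∀ a, fine0 E a → fine0 E (a + t) → Ca (a + t) - Ca a = d := by
    intro t
    obtain ⟨a, h1, h2, -⟩ := three t t
    exact ⟨_, fun a' h3 h4 => diff t a' a h3 h4 h1 h2⟩
  choose lam hlam using hd
  have hadd : ∀ t t', lam (t + t') = lam t + lam t' := by
    intro t t'
    obtain ⟨a, h1, h2, h3⟩ := three t (t + t')
    have e1 := hlam t a h1 h2
    have e2 := hlam (t + t') a h1 h3
    have e3 := hlam t' (a + t) h2 (by rwa [add_assoc])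
    rw [add_assoc] at e3
    rw [← e1, ← e2, ← e3]
    ring
  have hlin : ∀ t, lam t = lam 1 * ρ t := by
    intro t
    have e1 := map_nsmul (AddMonoidHom.mk' lam hadd) t.val 1
    change lam (t.val • 1) = t.val • lam 1 at e1
    rw [nsmul_eq_mul, mul_one, ZMod.natCast_zmod_val, nsmul_eq_mul] at e1
    rw [e1, rb_rho ρ t, mul_comm]
  obtain ⟨a₀, ha₀, -, -⟩ := three 0 0
  obtain ⟨b₀, hb₀⟩ := rb_avoidN (p := fun b => ¬ fine1 E b) (by omega)
  rw [not_not] at hb₀
  have hA : ∀ a, fine0 E a → Ca a = lam 1 * ρ a + (Ca a₀ - lam 1 * ρ a₀) := by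
    intro a ha
    have e1 := hlam (a - a₀) a₀ ha₀ (by rwa [add_sub_cancel])
    rw [add_sub_cancel, hlin, map_sub] at e1
    linear_combination e1
  have hB : ∀ b, fine1 E b → Cb b = lam 1 * ρ b + (Cb b₀ - lam 1 * ρ b₀) := by
    intro b hb
    obtain ⟨a, ha⟩ := rb_avoidN (p := fun a => ((¬ fine0 E a ∨ ¬ fine0 E (a + (b - b₀))) ∨
      (a, b) ∈ E) ∨ (a + (b - b₀), b₀) ∈ E) (by
      have e1 := cnt_or (fun a => (¬ fine0 E a ∨ ¬ fine0 E (a + (b - b₀))) ∨ (a, b) ∈ E)
        (fun a => (a + (b - b₀), b₀) ∈ E)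
      have e2 := cnt_or (fun a => ¬ fine0 E a ∨ ¬ fine0 E (a + (b - b₀))) (fun a => (a, b) ∈ E)
      have e3 := cnt_or (fun a => ¬ fine0 E a) (fun a => ¬ fine0 E (a + (b - b₀)))
      rw [rb_right (fun a => (a, b₀) ∈ E) (b - b₀)] at e1
      rw [rb_right (fun a => ¬ fine0 E a) (b - b₀)] at e3
      unfold fine1 at hb hb₀
      omega)
    rw [not_or, not_or, not_or, not_not, not_not] at ha
    have c1 := rb_clock h ha.1.2
    have c2 := rb_clock h ha.2
    have e : a + (b - b₀) + b₀ = a + b := by ring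
    rw [e, c1] at c2
    have e1 := hlam (b - b₀) a ha.1.1.1 ha.1.1.2
    rw [hlin, map_sub] at e1
    linear_combination c2 + e1
  refine ⟨lam 1, Ca a₀ - lam 1 * ρ a₀, Cb b₀ - lam 1 * ρ b₀, hA, hB, ?_, ?_⟩
  · intro c hc
    obtain ⟨b, hb⟩ := rb_avoidN (p := fun b => (¬ fine0 E (c - b) ∨ ¬ fine1 E b) ∨
      (c - b, b) ∈ E) (by
      have e1 := cnt_or (fun b => ¬ fine0 E (c - b) ∨ ¬ fine1 E b) (fun b => (c - b, b) ∈ E)
      have e2 := cnt_or (fun b => ¬ fine0 E (c - b)) (fun b => ¬ fine1 E b)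
      rw [rb_left (fun a => ¬ fine0 E a) c] at e2
      unfold fine2 at hc
      omega)
    rw [not_or, not_or, not_not, not_not] at hb
    have c1 := rb_clock h hb.2
    rw [sub_add_cancel] at c1
    rw [c1, hA _ hb.1.1, hB _ hb.1.2, map_sub]
    ring
  · intro u
    obtain ⟨a, h1, h2, -⟩ := three u u
    exact ⟨a, h1, h2, by rw [hlam u a h1 h2, hlin]⟩

theorem base_lev (ρ : ZMod N →+* ZMod 8) (h : Bas G K H L M N' Ca Cb Cab E) (l ca cb : ZMod 8)
    (hl : 4 * l ≠ 0) (ha : ∀ a, fine0 E a → Ca a = l * ρ a + ca)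
    (hb : ∀ b, fine1 E b → Cb b = l * ρ b + cb)
    (hc : ∀ c, fine2 E c → Cab c = l * ρ c + ca + cb) :
    ∃ s t : ZMod N, Lev ρ (fun m => l * G (m + s)) (fun m => l * K (m + t))
      (fun m => l * H (m + s + t)) (fun m => l * L (m + s + 8 * t))
      (fun m => l * M (m + t + 8 * s)) (fun m => l * N' (m + s + 9 * t))
      {x | (x.1 + s, x.2 + t) ∈ E} := by
  have hN : 0 < N := rb_pos
  have hll := sa_odd l hl
  have hmul : ∀ y z : ZMod 8, l * y = l * z → y = z := by
    intro y z hyz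
    linear_combination l * hyz - (y - z) * hll
  have hne : ∀ y : ZMod 8, y ≠ 0 → l * y ≠ 0 := fun y hy h0 =>
    hy (hmul y 0 (by rw [h0, mul_zero]))
  obtain ⟨s, hs⟩ := rb_onto ρ (-(l * ca))
  obtain ⟨t, ht⟩ := rb_onto ρ (-(l * cb))
  refine ⟨s, t, thin_shift h.thin s t, ?_, ?_, ?_, ?_, ?_, ?_, ?_⟩
  · intro a b hab heq
    have e1 : a + b + s + t = a + s + (b + t) := by ring
    have e2 : a + 8 * b + s + 8 * t = a + s + 8 * (b + t) := by ring
    simp only [e1, e2] at heq ⊢
    exact sa_R1_smul ((h.rel (a + s) (b + t) hab).q1 (hmul _ _ heq))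
  · intro a b hab heq
    have e1 : a + b + s + t = a + s + (b + t) := by ring
    have e2 : b + 8 * a + t + 8 * s = b + t + 8 * (a + s) := by ring
    simp only [e1, e2] at heq ⊢
    exact sa_R1_smul ((h.rel (a + s) (b + t) hab).q2 (hmul _ _ heq))
  · intro a b hab heq
    have e1 : a + b + s + t = a + s + (b + t) := by ring
    have e2 : a + 9 * b + s + 9 * t = a + s + 9 * (b + t) := by ring
    simp only [e1, e2] at heq ⊢
    refine sa_R1_smul ((h.rel (a + s) (b + t) hab).q3 (hmul _ _ ?_))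
    rw [mul_neg]
    exact heq
  · intro a b hab
    have e1 : a + b + s + t = a + s + (b + t) := by ring
    simp only [e1]
    rcases (h.rel (a + s) (b + t) hab).q4 with h1 | h1 | h1 | h1
    · exact Or.inl (congrArg (l * ·) h1)
    · exact Or.inr (Or.inl (congrArg (l * ·) h1))
    · refine Or.inr (Or.inr (Or.inl ?_))
      rw [← mul_add]
      exact congrArg (l * ·) h1
    · refine Or.inr (Or.inr (Or.inr ?_))
      rw [← mul_neg]
      exact congrArg (l * ·) h1
  · have h1 := fine0_cnt h.thin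
    rw [← rb_right (fun a => ¬ fine0 E a) s] at h1
    refine le_trans (Nat.mul_le_mul_left 1024 (cnt_le ?_)) h1
    rintro m ⟨hm, hm2⟩ hf
    apply hm2
    have hC : Ca (m + s) = l * ρ m := by
      rw [ha _ hf, map_add, hs]
      linear_combination -ca * hll
    obtain ⟨b, hbE⟩ := rb_avoidN (p := fun b => (m + s, b) ∈ E) (by
      unfold fine0 at hf
      omega)
    have h2 : G (m + s) = Ca (m + s) := (h.rel _ _ hbE).cG (by
      change Ca (m + s) ≠ 0
      rw [hC]
      exact hne _ hm)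
    change l * G (m + s) = ρ m
    rw [h2, hC]
    linear_combination ρ m * hll
  · have h1 := fine1_cnt h.thin
    rw [← rb_right (fun a => ¬ fine1 E a) t] at h1
    refine le_trans (Nat.mul_le_mul_left 1024 (cnt_le ?_)) h1
    rintro m ⟨hm, hm2⟩ hf
    apply hm2
    have hC : Cb (m + t) = l * ρ m := by
      rw [hb _ hf, map_add, ht]
      linear_combination -cb * hll
    obtain ⟨a, haE⟩ := rb_avoidN (p := fun a => (a, m + t) ∈ E) (by
      unfold fine1 at hf
      omega)
    have h2 : K (m + t) = Cb (m + t) := (h.rel _ _ haE).cK (by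
      change Cb (m + t) ≠ 0
      rw [hC]
      exact hne _ hm)
    change l * K (m + t) = ρ m
    rw [h2, hC]
    linear_combination ρ m * hll
  · have h1 := fine2_cnt h.thin
    rw [← rb_right (fun a => ¬ fine2 E a) (s + t)] at h1
    refine le_trans (Nat.mul_le_mul_left 1024 (cnt_le ?_)) h1
    rintro m ⟨hm, hm2⟩ hf
    apply hm2
    have e0 : m + s + t = m + (s + t) := by ring
    have hC : Cab (m + (s + t)) = l * ρ m := by
      rw [hc _ hf, map_add, map_add, hs, ht]
      linear_combination -(ca + cb) * hll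
    obtain ⟨b, hbE⟩ := rb_avoidN (p := fun b => (m + (s + t) - b, b) ∈ E) (by
      unfold fine2 at hf
      omega)
    have h2 := (h.rel _ _ hbE).cH
    change Cab (m + (s + t) - b + b) ≠ 0 → H (m + (s + t) - b + b) = Cab (m + (s + t) - b + b) at h2
    rw [sub_add_cancel] at h2
    have h3 := h2 (by
      rw [hC]
      exact hne _ hm)
    change l * H (m + s + t) = ρ m
    rw [e0, h3, hC]
    linear_combination ρ m * hll

end Vale.Agent.P043.Z3
end
end

section

attribute [-instance] ProperSMul.toContinuousSMul IsTopologicalTorsor.toContinuousSMul IdemSemiring.toCanonicallyOrderedAdd IdemSemiring.toMulLeftMono IdemSemiring.toMulRightMono AddQuantale.instAddLeftMono AddQuantale.instAddRightMono Quantale.instMulLeftMono Quantale.instMulRightMono FiniteDimensional.rclike_to_real IsScalarTower.complexToReal FiniteDimensional.complexToReal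

section

namespace Vale.Agent.P043

open Classical

/-- Lemma 2. Lifting a system along a surjection with finitely generated kernel. -/
theorem lift_system {G G₁ : Type} [AddCommGroup G] [AddCommGroup G₁] (φ : G →+ G₁)
    (hφ : Function.Surjective φ) (hker : φ.ker.FG)
    {P : Type} (S : Set (P → G₁)) (hfin : S.Finite) (hne : S.Nonempty)
    (hS : AperSys S) :
    ∃ S' : Set (P → G), S'.Finite ∧ S'.Nonempty ∧ AperSys S' := by
  obtain ⟨s, hs⟩ := hφ.hasRightInverse
  obtain ⟨τ0, hτ0⟩ := hne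
  obtain ⟨⟨A, hA⟩, hno⟩ := hS
  obtain ⟨p0, -, -⟩ := hA τ0 hτ0 0
  obtain ⟨T, hT⟩ := hker
  set up : G → (P → G) := fun k => Function.update (s ∘ τ0) p0 (s (τ0 p0) + k) with hup
  set S' : Set (P → G) := (fun τ : P → G₁ => s ∘ τ) '' S ∪ up '' (T : Set G) with hS'
  refine ⟨S', (hfin.image _).union (T.finite_toSet.image _), ⟨s ∘ τ0, Or.inl ⟨τ0, hτ0, rfl⟩⟩, ?_, ?_⟩
  · -- existence
    refine ⟨φ ⁻¹' A, ?_⟩
    rintro τ' (⟨τ, hτ, rfl⟩ | ⟨k, hk, rfl⟩)
    · intro g
      obtain ⟨p, hp, hu⟩ := hA τ hτ (φ g)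
      refine ⟨p, ?_, ?_⟩
      · simp only [Set.mem_preimage, Function.comp_apply, map_sub, hs (τ p)]
        exact hp
      · intro r hr
        simp only [Function.comp_apply, Set.mem_preimage, map_sub, hs (τ r)] at hr
        exact hu r hr
    · have hk0 : φ k = 0 := by
        have : k ∈ φ.ker := by rw [← hT]; exact AddSubgroup.subset_closure hk
        exact this
      have hval : ∀ r : P, φ (up k r) = τ0 r := by
        intro r
        simp only [hup, Function.update_apply]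
        split_ifs with h
        · rw [map_add, hs, hk0, add_zero, h]
        · simp only [Function.comp_apply, hs (τ0 r)]
      intro g
      obtain ⟨p, hp, hu⟩ := hA τ0 hτ0 (φ g)
      refine ⟨p, ?_, ?_⟩
      · simp only [Set.mem_preimage, map_sub, hval]
        exact hp
      · intro r hr
        simp only [Set.mem_preimage, map_sub, hval] at hr
        exact hu r hr
  · -- non-periodicity
    rintro ⟨B, ⟨Λ, hΛ, hper⟩, hB⟩
    apply hno
    -- invariance under the kernel
    have hinvT : ∀ k ∈ T, ∀ x : G, x + k ∈ B ↔ x ∈ B := by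
      intro k hk x
      have h1 := hB (s ∘ τ0) (Or.inl ⟨τ0, hτ0, rfl⟩)
      have h2 := hB (up k) (Or.inr ⟨k, hk, rfl⟩)
      -- consider g = x + k + s (τ0 p0)
      set g := x + k + s (τ0 p0) with hg
      have e1 : g - (s ∘ τ0) p0 = x + k := by
        simp only [Function.comp_apply, hg]; abel
      have e2 : g - up k p0 = x := by
        simp only [hup, Function.update_self, hg]; abel
      have e3 : ∀ r, r ≠ p0 → up k r = (s ∘ τ0) r := by
        intro r hr
        simp only [hup, Function.update_of_ne hr]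
      obtain ⟨p, hp, hpu⟩ := h1 g
      obtain ⟨q, hq, hqu⟩ := h2 g
      constructor
      · intro hx
        have hpp : p = p0 := (hpu p0 (by simp only [e1]; exact hx)).symm
        by_cases hqq : q = p0
        · rw [hqq] at hq
          simp only [e2] at hq
          exact hq
        · exfalso
          simp only [e3 q hqq] at hq
          exact hqq ((hpu q hq).trans hpp)
      · intro hx
        have hqq : q = p0 := (hqu p0 (by simp only [e2]; exact hx)).symm
        by_cases hpp : p = p0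
        · rw [hpp] at hp
          simp only [e1] at hp
          exact hp
        · exfalso
          have hp' : g - up k p ∈ B := by rw [e3 p hpp]; exact hp
          exact hpp ((hqu p hp').trans hqq)
    have hinv : ∀ k ∈ φ.ker, ∀ x : G, x + k ∈ B ↔ x ∈ B := by
      intro k hk
      rw [← hT] at hk
      induction hk using AddSubgroup.closure_induction with
      | mem k hk => exact hinvT k hk
      | zero => intro x; rw [add_zero]
      | add a b _ _ ha hb => intro x; rw [← add_assoc, hb, ha]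
      | neg a _ ha =>
        intro x
        have := ha (x + -a)
        rw [neg_add_cancel_right] at this
        exact this.symm
    have hmem : ∀ x : G, φ x ∈ φ '' B ↔ x ∈ B := by
      intro x
      constructor
      · rintro ⟨b, hb, hbx⟩
        have h1 : x - b ∈ φ.ker := by
          rw [AddMonoidHom.mem_ker, map_sub, hbx, sub_self]
        have h2 := (hinv _ h1 b).2 hb
        rwa [add_sub_cancel] at h2
      · intro hx; exact ⟨x, hx, rfl⟩
    refine ⟨φ '' B, ⟨Λ.map φ, ?_, ?_⟩, ?_⟩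
    · constructor
      have h3 : (Λ.map φ).index ∣ Λ.index := AddSubgroup.index_map_dvd Λ hφ
      intro h0
      rw [h0] at h3
      exact hΛ.index_ne_zero (Nat.eq_zero_of_zero_dvd h3)
    · rintro h ⟨l, hl, rfl⟩ a
      obtain ⟨x, rfl⟩ := hφ a
      rw [← map_add, hmem, hmem]
      exact hper l hl x
    · intro τ hτ y
      obtain ⟨g, rfl⟩ := hφ y
      have h1 := hB (s ∘ τ) (Or.inl ⟨τ, hτ, rfl⟩)
      obtain ⟨p, hp, hu⟩ := h1 g
      have e : ∀ r, φ g - τ r ∈ φ '' B ↔ g - (s ∘ τ) r ∈ B := by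
        intro r
        have : φ g - τ r = φ (g - (s ∘ τ) r) := by
          rw [map_sub, Function.comp_apply, hs (τ r)]
        rw [this, hmem]
      refine ⟨p, (e p).2 hp, ?_⟩
      intro r hr
      exact hu r ((e r).1 hr)

/-- For `d ≥ 4` and pairwise coprime moduli there is a surjection. -/
theorem exists_surj {d : ℕ} (hd : 4 ≤ d) {K : Type} [Fintype K] (n : K → ℕ)
    (hn : ∀ κ, n κ ≠ 0) (hco : Pairwise fun i j => Nat.Coprime (n i) (n j)) :
    ∃ φ : (Fin d → ℤ) →+ (ℤ × ℤ) × (∀ κ, ZMod (n κ) × ZMod (n κ)),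
      Function.Surjective φ ∧ φ.ker.FG := by
  let i0 : Fin d := ⟨0, by omega⟩
  let i1 : Fin d := ⟨1, by omega⟩
  let i2 : Fin d := ⟨2, by omega⟩
  let i3 : Fin d := ⟨3, by omega⟩
  let φ : (Fin d → ℤ) →+ (ℤ × ℤ) × (∀ κ, ZMod (n κ) × ZMod (n κ)) :=
    { toFun := fun x => ((x i0, x i1), fun κ => ((x i2 : ZMod (n κ)), (x i3 : ZMod (n κ))))
      map_zero' := by
        ext <;> simp
      map_add' := by
        intro x y
        ext <;> simp }
  refine ⟨φ, ?_, ?_⟩
  · -- surjectivity by the Chinese remainder theorem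
    have crt : ∀ c : (∀ κ, ZMod (n κ)), ∃ z : ℤ, ∀ κ, (z : ZMod (n κ)) = c κ := by
      intro c
      let r := Nat.chineseRemainderOfFinset (fun κ => (c κ).val) n (Finset.univ : Finset K)
        (fun κ _ => hn κ) (fun i _ j _ hij => hco hij)
      refine ⟨((r : ℕ) : ℤ), fun κ => ?_⟩
      have h1 := r.2 κ (Finset.mem_univ κ)
      have h2 : (((r : ℕ) : ℕ) : ZMod (n κ)) = (((c κ).val : ℕ) : ZMod (n κ)) :=
        (ZMod.natCast_eq_natCast_iff _ _ _).2 h1
      haveI : NeZero (n κ) := ⟨hn κ⟩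
      rw [ZMod.natCast_val, ZMod.cast_id', id] at h2
      rw [Int.cast_natCast]
      exact h2
    rintro ⟨⟨a, b⟩, c⟩
    obtain ⟨z, hz⟩ := crt (fun κ => (c κ).1)
    obtain ⟨w, hw⟩ := crt (fun κ => (c κ).2)
    refine ⟨fun i => if i = i0 then a else if i = i1 then b else if i = i2 then z else w, ?_⟩
    have n10 : i1 ≠ i0 := by simp only [ne_eq, Fin.ext_iff, one_ne_zero, not_false_eq_true, i1, i0]
    have n20 : i2 ≠ i0 := by simp [i0, i2, Fin.ext_iff]
    have n21 : i2 ≠ i1 := by simp [i1, i2, Fin.ext_iff]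
    have n30 : i3 ≠ i0 := by simp only [ne_eq, Fin.ext_iff, OfNat.ofNat_ne_zero, not_false_eq_true, i3, i0]
    have n31 : i3 ≠ i1 := by simp [i1, i3, Fin.ext_iff]
    have n32 : i3 ≠ i2 := by simp [i2, i3, Fin.ext_iff]
    ext κ
    · simp only [AddMonoidHom.coe_mk, ZeroHom.coe_mk, ↓reduceIte, Int.cast_ite, φ]
    · simp only [AddMonoidHom.coe_mk, ZeroHom.coe_mk, ↓reduceIte, n10, Int.cast_ite, φ]
    · simp only [AddMonoidHom.coe_mk, ZeroHom.coe_mk, ↓reduceIte, n20, n21, hz, Int.cast_ite, φ]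
    · simp only [AddMonoidHom.coe_mk, ZeroHom.coe_mk, ↓reduceIte, Int.cast_ite, n30, n31, n32, hw, φ]
  · -- the kernel is finitely generated
    have h1 : IsNoetherian ℤ (Fin d → ℤ) := inferInstance
    have h2 := IsNoetherian.noetherian (AddSubgroup.toIntSubmodule φ.ker)
    rw [← φ.ker.toIntSubmodule_toAddSubgroup, ← Submodule.fg_iff_addSubgroup_fg]
    exact h2

end Vale.Agent.P043
end
end

section

attribute [-instance] ProperSMul.toContinuousSMul IsTopologicalTorsor.toContinuousSMul IdemSemiring.toCanonicallyOrderedAdd IdemSemiring.toMulLeftMono IdemSemiring.toMulRightMono AddQuantale.instAddLeftMono AddQuantale.instAddRightMono Quantale.instMulLeftMono Quantale.instMulRightMono FiniteDimensional.rclike_to_real IsScalarTower.complexToReal FiniteDimensional.complexToReal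

section

namespace Vale.Agent.P043

/-- base complement of the marker block -/
def mc (q : ZMod 4 × Bool) : ZMod 4 × ZMod 4 := (q.1, if q.2 = true then 2 else 0)

/-- alternative complement of the marker block -/
def mc' (q : ZMod 4 × Bool) : ZMod 4 × ZMod 4 := (if q.2 = true then 2 else 0, q.1)

def mD (b : Bool) : ZMod 4 × ZMod 4 := if b = true then (1, 1) else (1, 3)

def ms (b : Bool) : ZMod 4 × ZMod 4 := if b = true then (1, 3) else (1, 1)

def mgood (δ : ZMod 4 × ZMod 4) : Prop :=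
  δ = 0 ∨ ((δ.1 = 1 ∨ δ.1 = 3) ∧ (δ.2 = 1 ∨ δ.2 = 3))

instance : DecidablePred mgood := fun δ => by unfold mgood; infer_instance

theorem mc_solv : ∀ (b : Bool) (u : ZMod 4 × ZMod 4), ∃ q, (u - mc q = 0 ∨ u - mc q = mD b) ∧
    ∀ y, (u - mc y = 0 ∨ u - mc y = mD b) → y = q := by
  decide

theorem mc'_solv : ∀ (b : Bool) (u : ZMod 4 × ZMod 4), ∃ q, (u - mc' q = 0 ∨ u - mc' q = mD b) ∧
    ∀ y, (u - mc' y = 0 ∨ u - mc' y = mD b) → y = q := by
  decide

theorem m_alt : ∀ δ, ¬ mgood δ → (∃ q1 q2, q1 ≠ q2 ∧ mc q1 = δ ∧ mc q2 = 0) ∨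
    (∃ q1 q2, q1 ≠ q2 ∧ mc' q1 = δ ∧ mc' q2 = 0) := by
  decide

theorem m_good_c : ∀ q, mgood (mc q) → mc q = 0 := by decide

theorem m_cst : ∀ (b : Bool) (u : ZMod 4 × ZMod 4) (q q' : ZMod 4 × Bool),
    (u - mc q = 0 ∨ u - mc q = mD b) → (u - ms (!b) - mc q' = 0 ∨ u - ms (!b) - mc q' = mD b) →
    ((q = (0, false) ∨ q = (2, true)) ↔ (q' = (0, false) ∨ q' = (2, true))) := by
  decide

/-- membership in the two point set `{v, v + D}` -/
def mem2 (b : Bool) (v u : ZMod 4 × ZMod 4) : Bool := decide (u = v ∨ u = v + mD b)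

/-- the two relations force a flip of the type -/
theorem m_flip : ∀ (b b' : Bool) (v : ZMod 4 × ZMod 4),
    (∀ u : ZMod 4 × ZMod 4, ((mem2 b 0 u || mem2 b 0 (u - (2, 0))) =
      (mem2 b' v (u - (1, 1)) || mem2 b' v (u - (1, 1) - (2, 0))))) →
    (∀ u : ZMod 4 × ZMod 4, ((mem2 b 0 u || mem2 b 0 (u - (0, 2))) =
      (mem2 b' v u || mem2 b' v (u - (0, 2))))) → b = !b' := by
  decide

/-- the cyclic sequence of slices -/
def mJ (k : ZMod 4) (u : ZMod 4 × ZMod 4) : Bool :=
  if k = 0 then mem2 true (0, 0) u else if k = 1 then mem2 false (0, 2) u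
  else if k = 2 then mem2 true (0, 2) u else mem2 false (0, 0) u

theorem mJ_rel1 : ∀ (k : ZMod 4) (u : ZMod 4 × ZMod 4), (mJ (k + 1) u || mJ (k + 1) (u - (2, 0))) =
    (mJ k (u - (1, 1)) || mJ k (u - (1, 1) - (2, 0))) := by
  decide

theorem mJ_rel2 : ∀ (k : ZMod 4) (u : ZMod 4 × ZMod 4), (mJ (k + 1) u || mJ (k + 1) (u - (0, 2))) =
    (mJ k u || mJ k (u - (0, 2))) := by
  decide

end Vale.Agent.P043
end
end

section

attribute [-instance] ProperSMul.toContinuousSMul IsTopologicalTorsor.toContinuousSMul IdemSemiring.toCanonicallyOrderedAdd IdemSemiring.toMulLeftMono IdemSemiring.toMulRightMono AddQuantale.instAddLeftMono AddQuantale.instAddRightMono Quantale.instMulLeftMono Quantale.instMulRightMono FiniteDimensional.rclike_to_real IsScalarTower.complexToReal FiniteDimensional.complexToReal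

section

namespace Vale.Agent.P043

open Classical

theorem mix_iff {H Q : Type} [AddCommGroup H] (c : Q → H) (X X' : Set H)
    (hX : ∀ h, ∃! q, h - c q ∈ X) (hX' : ∀ h, ∃! q, h - c q ∈ X') (S : Set Q) (τ : H) :
    (∀ h, ∃! a, h - (c a + if a ∈ S then 0 else τ) ∈ (if a ∈ S then X else X')) ↔
      ∀ h, (∃ a ∈ S, h - c a ∈ X) ↔ (∃ a ∈ S, h - τ - c a ∈ X') := by
  have hpos : ∀ h a, a ∈ S → (h - (c a + if a ∈ S then 0 else τ) ∈ (if a ∈ S then X else X') ↔
      h - c a ∈ X) := by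
    intro h a ha
    rw [if_pos ha, if_pos ha, add_zero]
  have hneg : ∀ h a, a ∉ S → (h - (c a + if a ∈ S then 0 else τ) ∈ (if a ∈ S then X else X') ↔
      h - τ - c a ∈ X') := by
    intro h a ha
    rw [if_neg ha, if_neg ha, add_comm, sub_sub]
  constructor
  · intro hm h
    obtain ⟨a, ha, hu⟩ := hm h
    constructor
    · rintro ⟨a1, h1, h2⟩
      obtain ⟨a2, h3, _⟩ := hX' (h - τ)
      refine ⟨a2, ?_, h3⟩
      by_contra hns
      have e1 := hu a1 ((hpos h a1 h1).mpr h2)
      have e2 := hu a2 ((hneg h a2 hns).mpr h3)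
      rw [e1] at h1
      rw [e2] at hns
      exact hns h1
    · rintro ⟨a2, h1, h2⟩
      by_cases has : a ∈ S
      · exact ⟨a, has, (hpos h a has).mp ha⟩
      · exfalso
        have h3 := (hneg h a has).mp ha
        have := (hX' (h - τ)).unique h2 h3
        rw [← this] at has
        exact has h1
  · intro hm h
    obtain ⟨a1, h1, u1⟩ := hX h
    obtain ⟨a2, h2, u2⟩ := hX' (h - τ)
    have hiff : a1 ∈ S ↔ a2 ∈ S := by
      constructor
      · intro hs
        obtain ⟨a3, h3, h4⟩ := (hm h).mp ⟨a1, hs, h1⟩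
        rwa [← u2 a3 h4]
      · intro hs
        obtain ⟨a3, h3, h4⟩ := (hm h).mpr ⟨a2, hs, h2⟩
        rwa [← u1 a3 h4]
    by_cases hs : a1 ∈ S
    · refine ⟨a1, (hpos h a1 hs).mpr h1, fun a ha => ?_⟩
      beta_reduce at ha
      by_cases has : a ∈ S
      · exact u1 a ((hpos h a has).mp ha)
      · exfalso
        have := u2 a ((hneg h a has).mp ha)
        rw [this] at has
        exact has (hiff.mp hs)
    · have hs2 : a2 ∉ S := fun h' => hs (hiff.mpr h')
      refine ⟨a2, (hneg h a2 hs2).mpr h2, fun a ha => ?_⟩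
      beta_reduce at ha
      by_cases has : a ∈ S
      · exfalso
        have := u1 a ((hpos h a has).mp ha)
        rw [this] at has
        exact hs has
      · exact u2 a ((hneg h a has).mp ha)

/-- the Boolean block: rows and columns of `(ℤ/p)²` -/
noncomputable def boolBlk (p : ℕ) (hp : 1 < p) : Blk (ZMod p × ZMod p) (ZMod p) where
  c t := (t, t)
  good δ := δ.1 = 0 ∨ δ.2 = 0
  V b X := ∃ a, X = {h | (if b = true then h.2 else h.1) = a}
  Sg := {0}
  s b := if b = true then (0, 1) else (1, 0)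
  q0 := 0
  c_q0 := rfl
  solv := by
    rintro b X ⟨a, rfl⟩ h
    cases b
    · refine ⟨h.1 - a, by simp, fun q hq => ?_⟩
      simp at hq
      rw [← hq]; ring
    · refine ⟨h.2 - a, by simp, fun q hq => ?_⟩
      simp at hq
      rw [← hq]; ring
  alt := by
    rintro ⟨u, v⟩ hbad
    simp only [not_or] at hbad
    refine ⟨fun t => (t, Equiv.swap u v t), u, 0, hbad.1, by simp, ?_, ?_⟩
    · simp only
      rw [Equiv.swap_apply_of_ne_of_ne (Ne.symm hbad.1) (Ne.symm hbad.2)]
      rfl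
    · rintro b X ⟨a, rfl⟩ h
      cases b
      · refine ⟨h.1 - a, by simp, fun q hq => ?_⟩
        simp at hq
        rw [← hq]; ring
      · refine ⟨Equiv.swap u v (h.2 - a), by simp, fun q hq => ?_⟩
        simp at hq
        rw [← hq]
        simp
  good_c := by
    rintro q (h | h)
    · simp only at h; rw [h]; rfl
    · simp only at h; rw [h]; rfl
  cls := by
    intro X hX hg
    obtain ⟨q, hq, -⟩ := hX 0
    set x0 : ZMod p × ZMod p := 0 - (q, q) with hx0
    have hq : x0 ∈ X := hq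
    have hcase : (∀ x ∈ X, x.1 = x0.1) ∨ (∀ x ∈ X, x.2 = x0.2) := by
      by_contra hcon
      simp only [not_or, not_forall] at hcon
      obtain ⟨⟨x, hx, hx1⟩, ⟨y, hy, hy2⟩⟩ := hcon
      have h1 : x.2 = x0.2 := by
        rcases hg x hx x0 hq with h | h
        · exact absurd (sub_eq_zero.mp h) hx1
        · exact sub_eq_zero.mp h
      have h2 : y.1 = x0.1 := by
        rcases hg y hy x0 hq with h | h
        · exact sub_eq_zero.mp h
        · exact absurd (sub_eq_zero.mp h) hy2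
      rcases hg x hx y hy with h | h
      · have := sub_eq_zero.mp h
        exact hx1 (this.trans h2)
      · have := sub_eq_zero.mp h
        exact hy2 (this.symm.trans h1)
    rcases hcase with hc | hc
    · refine ⟨false, x0.1, ?_⟩
      ext h
      simp only [Bool.false_eq_true, if_false, Set.mem_ofPred_eq]
      refine ⟨fun hh => hc h hh, fun hh => ?_⟩
      obtain ⟨r, hr, -⟩ := hX h
      have h1 := hc _ hr
      simp only [Prod.fst_sub] at h1
      rw [← hh] at h1
      have hr0 : r = 0 := by simpa using h1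
      rw [hr0] at hr
      have e : h - ((0 : ZMod p), (0 : ZMod p)) = h := sub_zero h
      rwa [e] at hr
    · refine ⟨true, x0.2, ?_⟩
      ext h
      simp only [if_true, Set.mem_ofPred_eq]
      refine ⟨fun hh => hc h hh, fun hh => ?_⟩
      obtain ⟨r, hr, -⟩ := hX h
      have h1 := hc _ hr
      simp only [Prod.snd_sub] at h1
      rw [← hh] at h1
      have hr0 : r = 0 := by simpa using h1
      rw [hr0] at hr
      have e : h - ((0 : ZMod p), (0 : ZMod p)) = h := sub_zero h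
      rwa [e] at hr
  noncst := by
    have : Fact (1 < p) := ⟨hp⟩
    rintro b X ⟨a, rfl⟩
    cases b
    · refine ⟨(a, 0), 0, -1, ?_, ?_, rfl, ?_⟩
      · simp
      · simp
      · simp
    · refine ⟨(0, a), 0, -1, ?_, ?_, rfl, ?_⟩
      · simp
      · simp
      · simp
  cst := by
    rintro b X ⟨a, rfl⟩ h q q' h1 h2
    have : q = q' := by
      cases b
      · simp at h1 h2
        rw [← h2] at h1
        simpa using h1
      · simp at h1 h2
        rw [← h2] at h1
        simpa using h1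
    rw [this]

/-! ### The marker block -/

/-- the marker block in `(ℤ/4)²` -/
noncomputable def markBlk : Blk (ZMod 4 × ZMod 4) (ZMod 4 × Bool) where
  c := mc
  good := mgood
  V b X := ∃ a, X = {h | h = a ∨ h = a + mD b}
  Sg := {q | q = (0, false) ∨ q = (2, true)}
  s := ms
  q0 := (0, false)
  c_q0 := rfl
  solv := by
    rintro b X ⟨a, rfl⟩ h
    obtain ⟨q, hq, hu⟩ := mc_solv b (h - a)
    have e : ∀ q', (h - mc q' ∈ {h | h = a ∨ h = a + mD b}) ↔
        (h - a - mc q' = 0 ∨ h - a - mc q' = mD b) := by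
      intro q'
      show (h - mc q' = a ∨ h - mc q' = a + mD b) ↔ _
      rw [sub_right_comm h a, sub_eq_zero, sub_eq_iff_eq_add' (b := a)]
    exact ⟨q, (e q).mpr hq, fun q' hq' => hu q' ((e q').mp hq')⟩
  alt := by
    intro δ hδ
    rcases m_alt δ hδ with ⟨q1, q2, h1, h2, h3⟩ | ⟨q1, q2, h1, h2, h3⟩
    · refine ⟨mc, q1, q2, h1, h2, h3, ?_⟩
      rintro b X ⟨a, rfl⟩ h
      obtain ⟨q, hq, hu⟩ := mc_solv b (h - a)
      have e : ∀ q', (h - mc q' ∈ {h | h = a ∨ h = a + mD b}) ↔
          (h - a - mc q' = 0 ∨ h - a - mc q' = mD b) := by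
        intro q'
        show (h - mc q' = a ∨ h - mc q' = a + mD b) ↔ _
        rw [sub_right_comm h a, sub_eq_zero, sub_eq_iff_eq_add' (b := a)]
      exact ⟨q, (e q).mpr hq, fun q' hq' => hu q' ((e q').mp hq')⟩
    · refine ⟨mc', q1, q2, h1, h2, h3, ?_⟩
      rintro b X ⟨a, rfl⟩ h
      obtain ⟨q, hq, hu⟩ := mc'_solv b (h - a)
      have e : ∀ q', (h - mc' q' ∈ {h | h = a ∨ h = a + mD b}) ↔
          (h - a - mc' q' = 0 ∨ h - a - mc' q' = mD b) := by
        intro q'
        show (h - mc' q' = a ∨ h - mc' q' = a + mD b) ↔ _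
        rw [sub_right_comm h a, sub_eq_zero, sub_eq_iff_eq_add' (b := a)]
      exact ⟨q, (e q).mpr hq, fun q' hq' => hu q' ((e q').mp hq')⟩
  good_c := m_good_c
  cls := by
    intro X hX hg
    obtain ⟨q, hq, -⟩ := hX 0
    obtain ⟨a, ha⟩ : ∃ a, a ∈ X := ⟨_, hq⟩
    obtain ⟨r, hr, -⟩ := hX (a + (0, 1))
    set a' := a + (0, 1) - mc r with ha'
    have hD : (a' - a).2 = 1 ∨ (a' - a).2 = 3 := by
      have : (a' - a).2 = 1 - (mc r).2 := by
        rw [ha']; simp; ring
      rw [this]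
      unfold mc
      simp only
      split_ifs <;> decide
    have hg1 := hg a' hr a ha
    have hD1 : (a' - a).1 = 1 ∨ (a' - a).1 = 3 := by
      rcases hg1 with h | h
      · rw [h] at hD; exact absurd hD (by decide)
      · exact h.1
    have honly : ∀ z ∈ X, z = a ∨ z = a' := by
      intro z hz
      have g1 := hg z hz a ha
      have g2 := hg z hz a' hr
      rcases g1 with h | ⟨h1, h2⟩
      · left; exact sub_eq_zero.mp h
      · right
        have e : z - a' = (z - a) - (a' - a) := by abel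
        rcases g2 with h | ⟨h3, h4⟩
        · exact sub_eq_zero.mp h
        · exfalso
          rw [e] at h3
          rw [Prod.fst_sub] at h3
          revert h1 h3 hD1
          generalize (z - a).1 = p
          generalize (a' - a).1 = q
          revert p q; decide
    have hXe : X = {h | h = a ∨ h = a'} := by
      ext z
      constructor
      · exact honly z
      · rintro (rfl | rfl)
        · exact ha
        · exact hr
    have hfin : ∀ D : ZMod 4 × ZMod 4, (D.1 = 1 ∨ D.1 = 3) → (D.2 = 1 ∨ D.2 = 3) →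
        ∃ b, D = mD b ∨ -D = mD b := by decide
    obtain ⟨b, hb | hb⟩ := hfin (a' - a) hD1 hD
    · refine ⟨b, a, ?_⟩
      rw [← hb, hXe]
      simp
    · refine ⟨b, a', ?_⟩
      rw [← hb, hXe]
      ext z
      simp [or_comm]
  noncst := by
    rintro b X ⟨a, rfl⟩
    refine ⟨a, (0, false), (2, false), ?_, ?_, Or.inl rfl, ?_⟩
    · show a - mc (0, false) = a ∨ _
      left
      show a - 0 = a
      rw [sub_zero]
    · show _ ∨ a - ms b - mc (2, false) = a + mD b
      right
      rw [sub_sub, sub_eq_add_neg]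
      congr 1
      revert b; decide
    · show ¬ (_ ∨ _)
      decide
  cst := by
    rintro b X ⟨a, rfl⟩ h q q' h1 h2
    apply m_cst b (h - a) q q'
    · rw [sub_right_comm h a, sub_eq_zero, sub_eq_iff_eq_add' (b := a)]
      exact h1
    · have e : h - a - ms (!b) - mc q' = h - ms (!b) - mc q' - a := by abel
      rw [e, sub_eq_zero, sub_eq_iff_eq_add' (b := a)]
      exact h2

end Vale.Agent.P043
end
end

section

attribute [-instance] ProperSMul.toContinuousSMul IsTopologicalTorsor.toContinuousSMul IdemSemiring.toCanonicallyOrderedAdd IdemSemiring.toMulLeftMono IdemSemiring.toMulRightMono AddQuantale.instAddLeftMono AddQuantale.instAddRightMono Quantale.instMulLeftMono Quantale.instMulRightMono FiniteDimensional.rclike_to_real IsScalarTower.complexToReal FiniteDimensional.complexToReal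

section

namespace Vale.Agent.P043

/-! ### Existence of the valuation solution -/

noncomputable def vv (n : ℤ) : ZMod 3 := ((padicValInt 2 n : ℕ) : ZMod 3)

theorem vv_odd {n : ℤ} (h : Odd n) : vv n = 0 := by
  unfold vv
  rw [padicValInt.eq_zero_of_not_dvd]
  · simp
  · intro hd
    have hd' : (2 : ℤ) ∣ n := by exact_mod_cast hd
    exact (Int.not_even_iff_odd.mpr h) (even_iff_two_dvd.mpr hd')

theorem vv_two {n : ℤ} (h : n ≠ 0) : vv (2 * n) = vv n + 1 := by
  unfold vv
  have : Fact (Nat.Prime 2) := ⟨Nat.prime_two⟩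
  rw [padicValInt.mul (by norm_num) h]
  have : padicValInt 2 2 = 1 := by
    have := padicValInt.self (p := 2) (by norm_num)
    simpa using this
  rw [this]
  push_cast
  ring

theorem vv_one {n : ℤ} (h : n % 4 = 2) : vv n = 1 := by
  obtain ⟨m, rfl⟩ : ∃ m, n = 2 * m := ⟨n / 2, by omega⟩
  rw [vv_two (by omega), vv_odd (by rw [Int.odd_iff]; omega)]
  rfl

theorem vv_two' {n : ℤ} (h : n % 8 = 4) : vv n = 2 := by
  obtain ⟨m, rfl⟩ : ∃ m, n = 2 * m := ⟨n / 2, by omega⟩
  rw [vv_two (by omega), vv_one (by omega)]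
  rfl

/-- the value of the symbol, `z` being used when the argument vanishes -/
noncomputable def val (z : ZMod 3) (n : ℤ) : ZMod 3 := if n = 0 then z else vv n

theorem val_of_ne {z : ZMod 3} {n : ℤ} (h : n ≠ 0) : val z n = vv n := by simp only [val, h, ↓reduceIte]

theorem pat_val (z : Fin 5 → ZMod 3) {a b : ℤ} (ha : Even a) (hb : Odd b) :
    Pat (fun k : Fin 5 => val (z k) (a - 2 * (k : ℕ) * b)) 1 := by
  obtain ⟨s, rfl⟩ := ha
  obtain ⟨t, rfl⟩ := hb
  have e0 : s + s - 2 * ((0 : Fin 5) : ℕ) * (2 * t + 1) = 2 * s := by simp only [Fin.isValue, Fin.coe_ofNat_eq_mod, Nat.zero_mod, CharP.cast_eq_zero, mul_zero, zero_mul, sub_zero]; ring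
  have e1 : s + s - 2 * ((1 : Fin 5) : ℕ) * (2 * t + 1) = 2 * s - 2 - 4 * t := by simp only [Fin.isValue, Fin.coe_ofNat_eq_mod, Nat.one_mod, Nat.cast_one, mul_one]; ring
  have e2 : s + s - 2 * ((2 : Fin 5) : ℕ) * (2 * t + 1) = 2 * s - 4 - 8 * t := by simp only [Fin.isValue, Fin.coe_ofNat_eq_mod, Nat.reduceMod, Nat.cast_ofNat, Int.reduceMul]; ring
  have e3 : s + s - 2 * ((3 : Fin 5) : ℕ) * (2 * t + 1) = 2 * s - 6 - 12 * t := by simp only [Fin.isValue, Fin.coe_ofNat_eq_mod, Nat.reduceMod, Nat.cast_ofNat, Int.reduceMul]; ring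
  have e4 : s + s - 2 * ((4 : Fin 5) : ℕ) * (2 * t + 1) = 2 * s - 8 - 16 * t := by simp only [Fin.isValue, Fin.coe_ofNat_eq_mod, Nat.mod_succ, Nat.cast_ofNat, Int.reduceMul]; ring
  unfold Pat
  simp only [e0, e1, e2, e3, e4]
  rcases Int.emod_two_eq_zero_or_one s with hs | hs
  · right
    refine ⟨?_, ?_, ?_⟩
    · rw [val_of_ne (by omega), vv_one (by omega)]
    · rw [val_of_ne (by omega), vv_one (by omega)]
    · have h2 : (1 : ZMod 3) + 1 = 2 := rfl
      rw [h2]
      by_cases h4 : s % 4 = 2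
      · left
        constructor
        · rw [val_of_ne (by omega), vv_two' (by omega)]
        · rw [val_of_ne (by omega), vv_two' (by omega)]
      · right
        rw [val_of_ne (by omega), vv_two' (by (clear * - hs h4; omega))]
  · left
    refine ⟨?_, ?_, ?_, ?_⟩
    · rw [val_of_ne (by omega), vv_one (by omega)]
    · rw [val_of_ne (by omega), vv_one (by omega)]
    · rw [val_of_ne (by omega), vv_one (by (clear * - hs; omega))]
    · have h2 : (1 : ZMod 3) + 1 = 2 := rfl
      rw [h2]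
      by_cases h4 : (2 * s - 2 - 4 * t) % 8 = 4
      · left
        rw [val_of_ne (by omega), vv_two' (by omega)]
      · right
        rw [val_of_ne (by omega), vv_two' (by omega)]

theorem om_shift' {s : Fin 3 → Fin 5 → ZMod 3} (h : Om (fun X k => s X k - 1)) : Om s := by
  have h2 := om_shift (om_shift h)
  have : (fun X k => (fun X k => (fun X k => s X k - 1) X k - 1) X k - 1) = s := by
    funext X k
    show s X k - 1 - 1 - 1 = s X k
    generalize s X k = a
    revert a; decide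
  rwa [this] at h2

theorem om_val : ∀ N : ℕ, ∀ y : ℤ × ℤ, y.1.natAbs + y.2.natAbs ≤ N → y ≠ 0 →
    ∀ z : Fin 3 → Fin 5 → ZMod 3, Om (fun X k => val (z X k) (nX X k y)) := by
  intro N
  induction N with
  | zero =>
    intro y hy h0
    exfalso; apply h0
    ext
    · have : y.1 = 0 := by omega
      simpa only [Prod.fst_zero] using this
    · have : y.2 = 0 := by omega
      simpa only [Prod.snd_zero] using this
  | succ N ih =>
    intro y hy h0 z
    by_cases hev : y.1 % 2 = 0 ∧ y.2 % 2 = 0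
    · obtain ⟨y', rfl⟩ : ∃ y' : ℤ × ℤ, y = dbl y' := ⟨(y.1 / 2, y.2 / 2), by
        ext
        · simp only [dbl]; omega
        · simp only [dbl]; omega⟩
      have hne : y' ≠ 0 := by
        rintro rfl
        apply h0; rfl
      have hlt : y'.1.natAbs + y'.2.natAbs ≤ N := by
        have : ¬ (y'.1 = 0 ∧ y'.2 = 0) := by
          rintro ⟨ha, hb⟩
          apply hne
          ext
          · simpa only [Prod.fst_zero] using ha
          · simpa only [Prod.snd_zero] using hb
        simp only [dbl] at hy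
        omega
      apply om_shift'
      have := ih y' hlt hne (fun X k => z X k - 1)
      convert this using 4 with X k
      rw [nX_dbl]
      unfold val
      by_cases hz : nX X k y' = 0
      · simp [hz]
      · rw [if_neg (by (clear * - hz; omega)), if_neg hz, vv_two hz]
        ring
    · obtain ⟨X, hX⟩ : ∃ X : Fin 3, Even (aX X y) ∧ Odd (bX X y) := by
        rcases Int.emod_two_eq_zero_or_one y.1 with ha | ha <;>
          rcases Int.emod_two_eq_zero_or_one y.2 with hb | hb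
        · exact absurd ⟨ha, hb⟩ hev
        · exact ⟨1, by simp only [aX, Fin.isValue, one_ne_zero, ↓reduceIte, Int.even_iff, ha], by simp only [bX, Fin.isValue, one_ne_zero, ↓reduceIte, Int.odd_iff, hb]⟩
        · exact ⟨0, by simp only [aX, Fin.isValue, ↓reduceIte, Int.even_iff, hb], by simp [bX, Int.odd_iff, ha]⟩
        · exact ⟨2, by simp only [aX, Fin.isValue, Fin.reduceEq, ↓reduceIte, Int.even_iff, EuclideanDomain.mod_eq_zero]; (clear * - ha hb; omega), by simp only [bX, Fin.isValue, Fin.reduceEq, ↓reduceIte, Int.odd_iff, hb]⟩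
      have hpt : y = pt X (aX X y) (bX X y) := by
        unfold pt aX bX
        split_ifs
        · rfl
        · rfl
        · ext <;> simp
      refine ⟨0, X, fun X' hX' k => ?_, ?_⟩
      · have hodd : Odd (nX X' k y) := by
          rw [hpt]; exact odd_nX (odd_aX_pt hX' hX.1 hX.2) k
        show val _ _ = 0
        rw [val_of_ne, vv_odd hodd]
        intro h; rw [h] at hodd; exact absurd hodd (by decide)
      · have := pat_val (z X) hX.1 hX.2
        rw [zero_add]
        exact this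

/-- the solution given by 2-adic valuations -/
noncomputable def f₀ (X : Fin 3) (k : Fin 5) (n : ℤ) : ZMod 3 :=
  val (if X = 0 then (if k = 1 ∨ k = 3 then 2 else 1) else 0) n

theorem f₀_H1 : H1 f₀ := by
  intro X k n hn
  unfold f₀
  rw [val_of_ne, vv_odd hn]
  intro h; rw [h] at hn; exact absurd hn (by decide)

theorem f₀_H2 : H2 f₀ := by
  intro y
  by_cases hy : y = 0
  · subst hy
    have : ∀ X k, nX X k 0 = 0 := by intro X k; simp only [nX, aX, Fin.isValue, Prod.snd_zero, Prod.fst_zero, sub_self, ite_self, bX, mul_zero]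
    simp only [this]
    refine ⟨0, 0, fun X' hX' k => ?_, ?_⟩
    · simp [f₀, val, hX']
    · unfold Pat f₀ val
      simp only [↓reduceIte, Fin.isValue, zero_ne_one, Fin.reduceEq, or_self, zero_add, or_false, or_true, true_and, left_eq_add, one_ne_zero, and_self, and_false]
      rfl
  · exact om_val _ y le_rfl hy _

/-! ### The directional Boolean constraint satisfaction problem -/

/-- solutions of a directional Boolean CSP on `ℤ²` with a parity marker -/
def DSol {I : Type} (w : I → ℤ × ℤ) (Al : (I → Bool) → Bool → Prop)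
    (b : ℤ × ℤ → I → Bool) (m : ℤ × ℤ → Bool) : Prop :=
  (∀ x i, b (x + w i) i = b x i) ∧ (∀ x, m (x + (1, 0)) = !(m x)) ∧
    (∀ x, m (x + (0, 1)) = !(m x)) ∧ ∀ x, Al (b x) (m x)

def DPer {I : Type} (b : ℤ × ℤ → I → Bool) : Prop :=
  ∃ T : ℕ, 0 < T ∧ ∀ x, b (x + ((T : ℤ), 0)) = b x ∧ b (x + (0, (T : ℤ))) = b x

/-- index type of the Boolean functions -/
abbrev Ix : Type := (Fin 3 × Fin 5 × Bool) ⊕ Bool

/-- direction of the class `(X, k)` -/
def wX (X : Fin 3) (k : Fin 5) : ℤ × ℤ :=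
  if X = 0 then (1, 2 * (k : ℕ)) else if X = 1 then (2 * (k : ℕ), 1) else (1 + 2 * (k : ℕ), 1)

def wI : Ix → ℤ × ℤ
  | .inl (X, k, _) => wX X k
  | .inr false => (0, 1)
  | .inr true => (1, 0)

def dec (p q : Bool) : ZMod 3 := if p = true then 1 else if q = true then 2 else 0

def sym (b : Ix → Bool) (X : Fin 3) (k : Fin 5) : ZMod 3 :=
  dec (b (.inl (X, k, false))) (b (.inl (X, k, true)))

def par (b : Ix → Bool) (m : Bool) (X : Fin 3) : Bool :=
  if X = 0 then b (.inr true) else if X = 1 then b (.inr false) else m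

def AlI (b : Ix → Bool) (m : Bool) : Prop :=
  (xor (b (.inr false)) (b (.inr true)) = m) ∧
  (∀ X, par b m X = true → ∀ k, sym b X k = 0) ∧ Om (sym b)

theorem nX_add_wX (X : Fin 3) (k : Fin 5) (y : ℤ × ℤ) : nX X k (y + wX X k) = nX X k y := by
  fin_cases X <;> simp [nX, aX, bX, wX] <;> ring

/-- the Boolean solution -/
noncomputable def bSol (x : ℤ × ℤ) : Ix → Bool
  | .inl (X, k, false) => decide (f₀ X k (nX X k x) = 1)
  | .inl (X, k, true) => decide (f₀ X k (nX X k x) = 2)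
  | .inr false => decide (x.1 % 2 = 1)
  | .inr true => decide (x.2 % 2 = 1)

theorem sym_bSol (x : ℤ × ℤ) (X : Fin 3) (k : Fin 5) : sym (bSol x) X k = f₀ X k (nX X k x) := by
  simp only [sym, dec, bSol, decide_eq_true_eq]
  generalize f₀ X k (nX X k x) = a
  revert a; decide

theorem exists_dsol : ∃ b m, DSol wI AlI b m := by
  refine ⟨bSol, fun x => decide ((x.1 + x.2) % 2 = 1), ?_, ?_, ?_, ?_⟩
  · rintro x (⟨X, k, _ | _⟩ | _ | _)
    · simp only [bSol, wI, nX_add_wX]
    · simp only [wI, bSol, nX_add_wX]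
    · simp only [bSol, wI, Prod.fst_add, add_zero]
    · simp only [bSol, wI, Prod.snd_add, add_zero]
  · intro x
    simp only [Prod.fst_add, Prod.snd_add]
    rw [← decide_not, decide_eq_decide]
    omega
  · intro x
    simp only [Prod.fst_add, Prod.snd_add]
    rw [← decide_not, decide_eq_decide]
    omega
  · intro x
    refine ⟨?_, ?_, ?_⟩
    · simp only [bSol]
      rcases Int.emod_two_eq_zero_or_one x.1 with h1 | h1 <;>
        rcases Int.emod_two_eq_zero_or_one x.2 with h2 | h2 <;>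
        simp [h1, h2] <;> omega
    · intro X hX k
      rw [sym_bSol]
      apply f₀_H1
      apply odd_nX
      rw [Int.odd_iff]
      revert hX
      unfold par aX bSol
      split_ifs <;> simp <;> omega
    · have := f₀_H2 x
      have e : sym (bSol x) = fun X k => f₀ X k (nX X k x) := by
        funext X k; exact sym_bSol x X k
      rw [e]; exact this

theorem bool_flip {g : ℤ → Bool} (h : ∀ n, g (n + 1) = !(g n)) (n : ℤ) :
    g n = xor (g 0) (decide (n % 2 = 1)) := by
  induction n using Int.induction_on with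
  | zero => simp only [EuclideanDomain.zero_mod, zero_ne_one, decide_false, Bool.bne_false]
  | succ n ih =>
    rw [h, ih]
    rcases Int.emod_two_eq_zero_or_one (n : ℤ) with h' | h'
    · have : ((n : ℤ) + 1) % 2 = 1 := by (clear * - h'; omega)
      simp only [h', zero_ne_one, decide_false, Bool.bne_false, this, decide_true, Bool.bne_true]
    · have : ((n : ℤ) + 1) % 2 = 0 := by omega
      simp only [h', decide_true, Bool.bne_true, Bool.not_not, this, zero_ne_one, decide_false, Bool.bne_false]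
  | pred n ih =>
    have h2 := h (-(n : ℤ) - 1)
    rw [sub_add_cancel, ih] at h2
    have h3 : g (-(n : ℤ) - 1) = !(xor (g 0) (decide (-(n : ℤ) % 2 = 1))) := by rw [h2]; simp
    rw [h3]
    rcases Int.emod_two_eq_zero_or_one (-(n : ℤ)) with h' | h'
    · have : (-(n : ℤ) - 1) % 2 = 1 := by omega
      rw [this, h']; simp only [zero_ne_one, decide_false, Bool.bne_false, decide_true, Bool.bne_true]
    · have : (-(n : ℤ) - 1) % 2 = 0 := by omega
      rw [this, h']; simp only [decide_true, Bool.bne_true, Bool.not_not, zero_ne_one, decide_false, Bool.bne_false]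

theorem inv_zsmul {α : Type*} {F : ℤ × ℤ → α} {w : ℤ × ℤ} (h : ∀ x, F (x + w) = F x) (t : ℤ)
    (x : ℤ × ℤ) : F (x + t • w) = F x := by
  induction t using Int.induction_on with
  | zero => simp
  | succ n ih => rw [add_smul, one_smul, ← add_assoc, h, ih]
  | pred n ih =>
    rw [← ih, ← h (x + (-(n : ℤ) - 1) • w)]
    congr 1
    rw [sub_smul, one_smul, add_assoc, sub_add_cancel]

theorem no_per_dsol : ¬ ∃ b m, DSol wI AlI b m ∧ DPer b := by
  rintro ⟨b, m, ⟨hw, hm1, hm2, hA⟩, T, hT, hper⟩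
  -- the two parity functions
  have b1inv : ∀ x, b (x + (0, 1)) (.inr false) = b x (.inr false) := fun x => hw x (.inr false)
  have b2inv : ∀ x, b (x + (1, 0)) (.inr true) = b x (.inr true) := fun x => hw x (.inr true)
  have b1flip : ∀ x, b (x + (1, 0)) (.inr false) = !(b x (.inr false)) := by
    intro x
    have h1 := (hA x).1
    have h2 := (hA (x + (1, 0))).1
    rw [hm1, b2inv, ← h1] at h2
    revert h2
    cases b (x + (1, 0)) (.inr false) <;> cases b x (.inr false) <;> cases b x (.inr true) <;> simp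
  have b2flip : ∀ x, b (x + (0, 1)) (.inr true) = !(b x (.inr true)) := by
    intro x
    have h1 := (hA x).1
    have h2 := (hA (x + (0, 1))).1
    rw [hm2, b1inv, ← h1] at h2
    revert h2
    cases b (x + (0, 1)) (.inr true) <;> cases b x (.inr false) <;> cases b x (.inr true) <;> simp
  have b1val : ∀ x : ℤ × ℤ, b x (.inr false) = xor (b 0 (.inr false)) (decide (x.1 % 2 = 1)) := by
    intro x
    have e1 := inv_zsmul (F := fun x => b x (.inr false)) b1inv x.2 (x.1, 0)
    have e2 : ((x.1, 0) : ℤ × ℤ) + x.2 • ((0, 1) : ℤ × ℤ) = x := by ext <;> simp only [Prod.smul_mk, Int.zsmul_eq_mul, mul_zero, mul_one, Prod.mk_add_mk, add_zero, zero_add, Prod.mk.eta]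
    rw [e2] at e1
    rw [e1]
    exact bool_flip (g := fun n => b (n, 0) (.inr false)) (fun n => by
      have := b1flip (n, 0); simpa using this) x.1
  have b2val : ∀ x : ℤ × ℤ, b x (.inr true) = xor (b 0 (.inr true)) (decide (x.2 % 2 = 1)) := by
    intro x
    have e1 := inv_zsmul (F := fun x => b x (.inr true)) b2inv x.1 (0, x.2)
    have e2 : ((0, x.2) : ℤ × ℤ) + x.1 • ((1, 0) : ℤ × ℤ) = x := by ext <;> simp
    rw [e2] at e1
    rw [e1]
    exact bool_flip (g := fun n => b (0, n) (.inr true)) (fun n => by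
      have := b2flip (0, n); simpa only [Prod.mk_add_mk, add_zero] using this) x.2
  obtain ⟨c, hc1, hc2⟩ : ∃ c : ℤ × ℤ, b 0 (.inr false) = decide (c.1 % 2 = 1) ∧
      b 0 (.inr true) = decide (c.2 % 2 = 1) :=
    ⟨(if b 0 (.inr false) then 1 else 0, if b 0 (.inr true) then 1 else 0), by
      cases b 0 (.inr false) <;> simp, by cases b 0 (.inr true) <;> simp⟩
  have c1val : ∀ x : ℤ × ℤ, b (x - c) (.inr false) = decide (x.1 % 2 = 1) := by
    intro x
    rw [b1val, hc1, Prod.fst_sub]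
    rcases Int.emod_two_eq_zero_or_one x.1 with h1 | h1 <;>
      rcases Int.emod_two_eq_zero_or_one c.1 with h2 | h2 <;>
      simp [h1, h2] <;> omega
  have c2val : ∀ x : ℤ × ℤ, b (x - c) (.inr true) = decide (x.2 % 2 = 1) := by
    intro x
    rw [b2val, hc2, Prod.snd_sub]
    rcases Int.emod_two_eq_zero_or_one x.2 with h1 | h1 <;>
      rcases Int.emod_two_eq_zero_or_one c.2 with h2 | h2 <;>
      simp [h1, h2] <;> omega
  have parval : ∀ (x : ℤ × ℤ) (X : Fin 3), Odd (aX X x) → par (b (x - c)) (m (x - c)) X = true := by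
    intro x X hX
    rw [Int.odd_iff] at hX
    have hm := (hA (x - c)).1
    rw [c1val, c2val] at hm
    revert hX
    unfold par aX
    split_ifs
    · rw [c2val]; simp only [decide_eq_true_eq, imp_self]
    · rw [c1val]; simp only [decide_eq_true_eq, imp_self]
    · rw [← hm]
      intro hX
      rcases Int.emod_two_eq_zero_or_one x.1 with h1 | h1 <;>
        rcases Int.emod_two_eq_zero_or_one x.2 with h2 | h2 <;>
        simp [h1, h2] <;> omega
  -- invariance of the symbols
  have syminv : ∀ (X : Fin 3) (k : Fin 5) (x : ℤ × ℤ), sym (b (x + wX X k)) X k = sym (b x) X k := by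
    intro X k x
    unfold sym
    have h1 := hw x (.inl (X, k, false))
    have h2 := hw x (.inl (X, k, true))
    simp only [wI] at h1 h2
    rw [h1, h2]
  let f : Fin 3 → Fin 5 → ℤ → ZMod 3 := fun X k n => sym (b (pt X n 0 - c)) X k
  have hf : ∀ (y : ℤ × ℤ) (X : Fin 3) (k : Fin 5), sym (b (y - c)) X k = f X k (nX X k y) := by
    intro y X k
    have := inv_zsmul (F := fun x => sym (b x) X k) (syminv X k) (bX X y) (pt X (nX X k y) 0 - c)
    have e : pt X (nX X k y) 0 - c + bX X y • wX X k = y - c := by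
      have : pt X (nX X k y) 0 + bX X y • wX X k = y := by
        fin_cases X <;> ext <;> simp [pt, nX, aX, bX, wX] <;> ring
      rw [sub_add_eq_add_sub, this]
    simp only [e] at this
    exact this
  refine no_periodic T hT f ?_ ?_ ?_
  · intro X k n hn
    show sym (b (pt X n 0 - c)) X k = 0
    exact (hA _).2.1 X (parval _ X (by rw [aX_pt]; exact hn)) k
  · intro y
    have := (hA (y - c)).2.2
    have e : sym (b (y - c)) = fun X k => f X k (nX X k y) := by
      funext X k; exact hf y X k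
    rw [e] at this
    exact this
  · intro n
    show sym (b (pt 0 (n + T) 0 - c)) 0 0 = sym (b (pt 0 n 0 - c)) 0 0
    have e : pt 0 (n + T) 0 - c = (pt 0 n 0 - c) + (0, (T : ℤ)) := by
      ext <;> simp [pt]
      ring
    rw [e, (hper _).2]

end Vale.Agent.P043
end
end

section

attribute [-instance] ProperSMul.toContinuousSMul IsTopologicalTorsor.toContinuousSMul IdemSemiring.toCanonicallyOrderedAdd IdemSemiring.toMulLeftMono IdemSemiring.toMulRightMono AddQuantale.instAddLeftMono AddQuantale.instAddRightMono Quantale.instMulLeftMono Quantale.instMulRightMono FiniteDimensional.rclike_to_real IsScalarTower.complexToReal FiniteDimensional.complexToReal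

section

namespace Vale.Agent.P043

open Classical

variable {I : Type} (p : I → ℕ)

/-- moduli of the blocks: `4` for the marker and `p i` for the Boolean blocks -/
def nn : Option I → ℕ := fun κ => κ.elim 4 p

/-- parameter types -/
def QQ : Option I → Type := fun κ => κ.elim (ZMod 4 × Bool) (fun i => ZMod (p i))

/-- the family of blocks -/
noncomputable def BB (hp : ∀ i, 1 < p i) :
    ∀ κ : Option I, Blk (ZMod (nn p κ) × ZMod (nn p κ)) (QQ p κ)
  | none => markBlk
  | some i => boolBlk (p i) (hp i)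

/-- tile of a shifted relation -/
noncomputable def relTile {Z : Type} [AddCommGroup Z] {K : Type} {H Q : K → Type}
    [∀ κ, AddCommGroup (H κ)] (B : ∀ κ, Blk (H κ) (Q κ)) (κ : K) (S : Set (Q κ)) (h : Z)
    (τ : H κ) : (∀ κ, Q κ) → Z × (∀ κ, H κ) :=
  tri B κ (fun a => if a ∈ S then 0 else h) (fun a => (B κ).c a + if a ∈ S then 0 else τ) 0

theorem relTile_solves {Z : Type} [AddCommGroup Z] {K : Type} {H Q : K → Type}
    [∀ κ, AddCommGroup (H κ)] (B : ∀ κ, Blk (H κ) (Q κ))
    {A : Set (Z × ∀ κ, H κ)} {X : Z → ∀ κ, Set (H κ)} (hA : IsProd A X)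
    (hX : ∀ x κ h, ∃! q, h - (B κ).c q ∈ X x κ) (κ : K) (S : Set (Q κ)) (h : Z) (τ : H κ) :
    Solves A (relTile B κ S h τ) ↔ ∀ x u, (∃ a ∈ S, u - (B κ).c a ∈ X x κ) ↔
      (∃ a ∈ S, u - τ - (B κ).c a ∈ X (x - h) κ) := by
  unfold relTile
  rw [tri_solves B hA hX]
  apply forall_congr'
  intro x
  rw [← mix_iff (B κ).c (X x κ) (X (x - h) κ) (hX x κ) (hX (x - h) κ) S τ]
  apply forall_congr'
  intro u
  apply existsUnique_congr
  intro a
  by_cases ha : a ∈ S
  · simp only [if_pos ha, sub_zero]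
  · simp only [if_neg ha]

theorem S1_finite {Z : Type} [AddCommGroup Z] {K : Type} {H Q : K → Type}
    [∀ κ, AddCommGroup (H κ)] (B : ∀ κ, Blk (H κ) (Q κ)) [Finite K] [∀ κ, Finite (H κ)]
    [∀ κ, Finite (Q κ)] : (S1 (Z := Z) B).Finite := by
  apply (Set.finite_range (fun r : Σ κ₀, (Q κ₀ → H κ₀) × Q κ₀ × (∀ κ, H κ) =>
    tri (Z := Z) B r.1 0 r.2.1 (fun a => if a = r.2.2.1 then r.2.2.2 else 0))).subset
  rintro τ ⟨κ₀, c', q1, δ, _, rfl⟩
  exact ⟨⟨κ₀, c', q1, δ⟩, rfl⟩

theorem exists_nxt (K : Type) [Finite K] : ∃ nxt : K → K, ∀ κ κ', ∃ n, nxt^[n] κ = κ' := by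
  rcases isEmpty_or_nonempty K with h | h
  · exact ⟨id, fun κ => h.elim κ⟩
  · obtain ⟨n, ⟨e⟩⟩ := Finite.exists_equiv_fin K
    obtain ⟨m, rfl⟩ : ∃ m, n = m + 1 := by
      rcases n with _ | m
      · exact (h.elim fun κ => (e κ).elim0)
      · exact ⟨m, rfl⟩
    obtain ⟨e⟩ : Nonempty (K ≃ ZMod (m + 1)) := ⟨e.trans (ZMod.finEquiv (m + 1)).toEquiv⟩
    refine ⟨fun κ => e.symm (e κ + 1), fun κ κ' => ⟨(e κ' - e κ).val, ?_⟩⟩
    have hit : ∀ j : ℕ, (fun κ => e.symm (e κ + 1))^[j] κ = e.symm (e κ + (j : ZMod (m + 1))) := by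
      intro j
      induction j with
      | zero => simp only [Function.iterate_zero, id_eq, Nat.cast_zero, add_zero, Equiv.symm_apply_apply]
      | succ j ih =>
        rw [Function.iterate_succ_apply', ih]
        simp only [Equiv.apply_symm_apply]
        congr 1
        push_cast
        rw [add_assoc]
    rw [hit, ZMod.natCast_zmod_val]
    simp only [add_sub_cancel, Equiv.symm_apply_apply]

/-- types of the phases of the marker -/
def mt (k : ZMod 4) : Bool := decide (k = 0 ∨ k = 2)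

theorem mt_succ (k : ZMod 4) : mt (k + 1) = !(mt k) := by revert k; unfold mt; decide

theorem mJ_mt (k : ZMod 4) : ∃ a, ∀ u, mJ k u = mem2 (mt k) a u := by
  have h : ∀ k : ZMod 4, k = 0 ∨ k = 1 ∨ k = 2 ∨ k = 3 := by decide
  rcases h k with rfl | rfl | rfl | rfl
  · exact ⟨(0, 0), fun u => rfl⟩
  · exact ⟨(0, 2), fun u => rfl⟩
  · exact ⟨(0, 2), fun u => rfl⟩
  · exact ⟨(0, 0), fun u => rfl⟩

/-- parameter sets of the two marker relations -/
def SA : Set (ZMod 4 × Bool) := {q | q = (0, false) ∨ q = (2, false)}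

def SB : Set (ZMod 4 × Bool) := {q | q = (0, false) ∨ q = (0, true)}

/-- the whole system -/
noncomputable def bigSys (hp : ∀ i, 1 < p i) (w : I → ℤ × ℤ) (nxt : Option I → Option I)
    (Al : (I → Bool) → Bool → Prop) :
    Set ((∀ κ, QQ p κ) → (ℤ × ℤ) × (∀ κ, ZMod (nn p κ) × ZMod (nn p κ))) :=
  {T0 (BB p hp)} ∪ S1 (BB p hp) ∪
  Set.range (fun i => relTile (BB p hp) (some i) ({0} : Set (ZMod (p i))) (w i) 0) ∪
  {relTile (BB p hp) none SA (1, 0) ((1, 1) : ZMod 4 × ZMod 4),
   relTile (BB p hp) none SA (0, 1) ((1, 1) : ZMod 4 × ZMod 4),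
   relTile (BB p hp) none SB (1, 0) 0,
   relTile (BB p hp) none SB (0, 1) 0} ∪
  (cl (BB p hp) nxt '' {ω | ¬ Al (fun i => ω (some i)) (ω none)})

theorem exists_SA {X : Set (ZMod 4 × ZMod 4)} {u : ZMod 4 × ZMod 4} :
    (∃ a ∈ SA, u - mc a ∈ X) ↔ (u ∈ X ∨ u - (2, 0) ∈ X) := by
  constructor
  · rintro ⟨a, rfl | rfl, h⟩
    · left
      have e : u - mc (0, false) = u := by show u - 0 = u; rw [sub_zero]
      rwa [e] at h
    · right; exact h
  · rintro (h | h)
    · refine ⟨(0, false), Or.inl rfl, ?_⟩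
      have e : u - mc (0, false) = u := by show u - 0 = u; rw [sub_zero]
      rwa [e]
    · exact ⟨(2, false), Or.inr rfl, h⟩

theorem exists_SB {X : Set (ZMod 4 × ZMod 4)} {u : ZMod 4 × ZMod 4} :
    (∃ a ∈ SB, u - mc a ∈ X) ↔ (u ∈ X ∨ u - (0, 2) ∈ X) := by
  constructor
  · rintro ⟨a, rfl | rfl, h⟩
    · left
      have e : u - mc (0, false) = u := by show u - 0 = u; rw [sub_zero]
      rwa [e] at h
    · right; exact h
  · rintro (h | h)
    · refine ⟨(0, false), Or.inl rfl, ?_⟩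
      have e : u - mc (0, false) = u := by show u - 0 = u; rw [sub_zero]
      rwa [e]
    · exact ⟨(0, true), Or.inr rfl, h⟩

theorem mem2_iff {b : Bool} {v u : ZMod 4 × ZMod 4} : mem2 b v u = true ↔ (u = v ∨ u = v + mD b) := by
  unfold mem2; exact decide_eq_true_iff

theorem mark_flip {b b' : Bool} {X X' : Set (ZMod 4 × ZMod 4)} (hX : markBlk.V b X)
    (hX' : markBlk.V b' X')
    (r1 : ∀ u, (∃ a ∈ SA, u - mc a ∈ X) ↔ (∃ a ∈ SA, u - (1, 1) - mc a ∈ X'))
    (r2 : ∀ u, (∃ a ∈ SB, u - mc a ∈ X) ↔ (∃ a ∈ SB, u - 0 - mc a ∈ X')) : b = !b' := by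
  obtain ⟨a, rfl⟩ := hX
  obtain ⟨a', rfl⟩ := hX'
  have t1 : ∀ (b : Bool) (z v : ZMod 4 × ZMod 4), (z ∈ {h | h = v ∨ h = v + mD b}) ↔
      mem2 b (v - a) (z - a) = true := by
    intro b z v
    rw [mem2_iff]
    show (z = v ∨ z = v + mD b) ↔ _
    rw [sub_left_inj, sub_add_eq_add_sub, sub_left_inj]
  apply m_flip b b' (a' - a)
  · intro u
    have h := r1 (u + a)
    rw [exists_SA, exists_SA, t1, t1, t1, t1] at h
    have e1 : u + a - a = u := by abel
    have e2 : u + a - (2, 0) - a = u - (2, 0) := by abel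
    have e3 : u + a - (1, 1) - a = u - (1, 1) := by abel
    have e4 : u + a - (1, 1) - (2, 0) - a = u - (1, 1) - (2, 0) := by abel
    rw [e1, e2, e3, e4, sub_self] at h
    rw [Bool.eq_iff_iff, Bool.or_eq_true, Bool.or_eq_true]
    exact h
  · intro u
    have h := r2 (u + a)
    rw [exists_SB, exists_SB, t1, t1, t1, t1] at h
    have e1 : u + a - a = u := by abel
    have e2 : u + a - (0, 2) - a = u - (0, 2) := by abel
    have e3 : u + a - 0 - a = u := by abel
    have e4 : u + a - 0 - (0, 2) - a = u - (0, 2) := by abel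
    rw [e1, e2, e3, e4, sub_self] at h
    rw [Bool.eq_iff_iff, Bool.or_eq_true, Bool.or_eq_true]
    exact h

theorem sol_to_dsol {hp : ∀ i, 1 < p i} {w : I → ℤ × ℤ} {nxt : Option I → Option I}
    (hnxt : ∀ κ κ', ∃ n, nxt^[n] κ = κ') {Al : (I → Bool) → Bool → Prop}
    {A : Set ((ℤ × ℤ) × (∀ κ, ZMod (nn p κ) × ZMod (nn p κ)))}
    (hA : ∀ τ ∈ bigSys p hp w nxt Al, Solves A τ) :
    ∃ (X : ℤ × ℤ → ∀ κ, Set (ZMod (nn p κ) × ZMod (nn p κ))) (b : ℤ × ℤ → Option I → Bool),
      IsProd A X ∧ (∀ x κ, (BB p hp κ).V (b x κ) (X x κ)) ∧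
      DSol w Al (fun x i => b x (some i)) (fun x => b x none) := by
  obtain ⟨X, b, hprod, hV⟩ := structure_thm (BB p hp) (A := A)
    (hA _ (Or.inl (Or.inl (Or.inl (Or.inl rfl)))))
    (fun τ hτ => hA τ (Or.inl (Or.inl (Or.inl (Or.inr hτ)))))
  have hX : ∀ x κ h, ∃! q, h - (BB p hp κ).c q ∈ X x κ := fun x κ h =>
    (BB p hp κ).solv _ _ (hV x κ) h
  refine ⟨X, b, hprod, hV, ?_, ?_, ?_, ?_⟩
  · intro x i
    have h1 := (relTile_solves (BB p hp) hprod hX (some i) _ _ _).mp
      (hA _ (Or.inl (Or.inl (Or.inr ⟨i, rfl⟩))))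
    have h2 := h1 (x + w i)
    rw [add_sub_cancel_right] at h2
    have h3 : X (x + w i) (some i) = X x (some i) := by
      ext u
      have h4 := h2 u
      constructor
      · intro hu
        obtain ⟨a, ha, hb⟩ := h4.mp ⟨(0 : ZMod (p i)), rfl, by
          have e : u - (BB p hp (some i)).c (0 : ZMod (p i)) = u := sub_zero u
          rwa [e]⟩
        have ha' : a = (0 : ZMod (p i)) := ha
        subst ha'
        have e : u - 0 - (BB p hp (some i)).c (0 : ZMod (p i)) = u := by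
          rw [sub_zero]; exact sub_zero u
        rwa [e] at hb
      · intro hu
        obtain ⟨a, ha, hb⟩ := h4.mpr ⟨(0 : ZMod (p i)), rfl, by
          have e : u - 0 - (BB p hp (some i)).c (0 : ZMod (p i)) = u := by
            rw [sub_zero]; exact sub_zero u
          rwa [e]⟩
        have ha' : a = (0 : ZMod (p i)) := ha
        subst ha'
        have e : u - (BB p hp (some i)).c (0 : ZMod (p i)) = u := sub_zero u
        rwa [e] at hb
    have h4 := hV (x + w i) (some i)
    rw [h3] at h4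
    exact (BB p hp (some i)).excl h4 (hV x (some i))
  · intro x
    have h1 := (relTile_solves (BB p hp) hprod hX none SA (1, 0) ((1, 1) : ZMod 4 × ZMod 4)).mp
      (hA _ (Or.inl (Or.inr (Or.inl rfl))))
    have h2 := (relTile_solves (BB p hp) hprod hX none SB (1, 0) 0).mp
      (hA _ (Or.inl (Or.inr (Or.inr (Or.inr (Or.inl rfl))))))
    have h1' := h1 (x + (1, 0))
    have h2' := h2 (x + (1, 0))
    rw [add_sub_cancel_right] at h1' h2'
    exact mark_flip (hV (x + (1, 0)) none) (hV x none) h1' h2'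
  · intro x
    have h1 := (relTile_solves (BB p hp) hprod hX none SA (0, 1) ((1, 1) : ZMod 4 × ZMod 4)).mp
      (hA _ (Or.inl (Or.inr (Or.inr (Or.inl rfl)))))
    have h2 := (relTile_solves (BB p hp) hprod hX none SB (0, 1) 0).mp
      (hA _ (Or.inl (Or.inr (Or.inr (Or.inr (Or.inr rfl))))))
    have h1' := h1 (x + (0, 1))
    have h2' := h2 (x + (0, 1))
    rw [add_sub_cancel_right] at h1' h2'
    exact mark_flip (hV (x + (0, 1)) none) (hV x none) h1' h2'
  · intro x
    by_contra hcon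
    have h1 := hA _ (Or.inr ⟨b x, hcon, rfl⟩)
    rw [cl_solves (BB p hp) hprod hV nxt hnxt] at h1
    exact h1 x rfl

theorem dsol_to_sol {hp : ∀ i, 1 < p i} {w : I → ℤ × ℤ} {nxt : Option I → Option I}
    (hnxt : ∀ κ κ', ∃ n, nxt^[n] κ = κ') {Al : (I → Bool) → Bool → Prop}
    {b : ℤ × ℤ → I → Bool} {m : ℤ × ℤ → Bool} (hD : DSol w Al b m) :
    ∃ A : Set ((ℤ × ℤ) × (∀ κ, ZMod (nn p κ) × ZMod (nn p κ))),
      ∀ τ ∈ bigSys p hp w nxt Al, Solves A τ := by
  obtain ⟨hw, hm1, hm2, hAl⟩ := hD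
  let k : ℤ × ℤ → ZMod 4 := fun x => ((x.1 + x.2 + (if m 0 = true then 0 else 1) : ℤ) : ZMod 4)
  have k1 : ∀ x, k (x + (1, 0)) = k x + 1 := by
    intro x; simp only [k, Prod.fst_add, Prod.snd_add]; push_cast; ring
  have k2 : ∀ x, k (x + (0, 1)) = k x + 1 := by
    intro x; simp only [k, Prod.fst_add, Prod.snd_add]; push_cast; ring
  have hmk : ∀ x, m x = mt (k x) := by
    intro x
    have i1 : ∀ x, xor (m (x + (1, 0))) (mt (k (x + (1, 0)))) = xor (m x) (mt (k x)) := by
      intro x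
      rw [hm1, k1, mt_succ]
      cases m x <;> cases mt (k x) <;> rfl
    have i2 : ∀ x, xor (m (x + (0, 1))) (mt (k (x + (0, 1)))) = xor (m x) (mt (k x)) := by
      intro x
      rw [hm2, k2, mt_succ]
      cases m x <;> cases mt (k x) <;> rfl
    have j1 := inv_zsmul (F := fun x => xor (m x) (mt (k x))) i1 x.1 0
    have j2 := inv_zsmul (F := fun x => xor (m x) (mt (k x))) i2 x.2 (0 + x.1 • (1, 0))
    have e : (0 : ℤ × ℤ) + x.1 • (1, 0) + x.2 • (0, 1) = x := by ext <;> simp
    beta_reduce at j1 j2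
    rw [e, j1] at j2
    have j0 : xor (m 0) (mt (k 0)) = false := by
      simp only [k]
      cases m 0 <;> decide
    rw [j0] at j2
    revert j2
    cases m x <;> cases mt (k x) <;> simp
  let X : ℤ × ℤ → ∀ κ, Set (ZMod (nn p κ) × ZMod (nn p κ)) := fun x κ =>
    Option.rec (motive := fun κ => Set (ZMod (nn p κ) × ZMod (nn p κ)))
      ({u : ZMod 4 × ZMod 4 | mJ (k x) u = true})
      (fun i => ({h : ZMod (p i) × ZMod (p i) | (if b x i = true then h.2 else h.1) = 0})) κ
  let b' : ℤ × ℤ → Option I → Bool := fun x κ => κ.elim (m x) (b x)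
  let A : Set ((ℤ × ℤ) × (∀ κ, ZMod (nn p κ) × ZMod (nn p κ))) := {q | ∀ κ, q.2 κ ∈ X q.1 κ}
  have hprod : IsProd A X := fun x g => Iff.rfl
  have hV : ∀ x κ, (BB p hp κ).V (b' x κ) (X x κ) := by
    rintro x (_ | i)
    · show ∃ a, {u : ZMod 4 × ZMod 4 | mJ (k x) u = true} = {h | h = a ∨ h = a + mD (m x)}
      obtain ⟨a, ha⟩ := mJ_mt (k x)
      refine ⟨a, ?_⟩
      ext u
      show mJ (k x) u = true ↔ (u = a ∨ u = a + mD (m x))
      rw [ha, mem2_iff, hmk]
    · exact ⟨0, rfl⟩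
  have hX : ∀ x κ h, ∃! q, h - (BB p hp κ).c q ∈ X x κ := fun x κ h =>
    (BB p hp κ).solv _ _ (hV x κ) h
  refine ⟨A, ?_⟩
  rintro τ ((((h | h) | ⟨i, rfl⟩) | h) | ⟨ω, hω, rfl⟩)
  · have : τ = T0 (BB p hp) := h
    subst this
    exact T0_solves _ hprod hX
  · exact S1_solves _ hprod hV τ h
  · refine (relTile_solves (BB p hp) hprod hX (some i) _ _ _).mpr ?_
    intro x u
    have e : X x (some i) = X (x - w i) (some i) := by
      have := hw (x - w i) i
      rw [sub_add_cancel] at this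
      show {h : ZMod (p i) × ZMod (p i) | (if b x i = true then h.2 else h.1) = 0} =
        {h : ZMod (p i) × ZMod (p i) | (if b (x - w i) i = true then h.2 else h.1) = 0}
      rw [this]
    rw [e, sub_zero]
  · have rel1 : ∀ x y : ℤ × ℤ, k x = k y + 1 → ∀ u : ZMod 4 × ZMod 4,
        (∃ a ∈ SA, u - mc a ∈ {u : ZMod 4 × ZMod 4 | mJ (k x) u = true}) ↔
        (∃ a ∈ SA, u - (1, 1) - mc a ∈ {u : ZMod 4 × ZMod 4 | mJ (k y) u = true}) := by
      intro x y hxy u
      rw [exists_SA, exists_SA]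
      have := mJ_rel1 (k y) u
      rw [Bool.eq_iff_iff, Bool.or_eq_true, Bool.or_eq_true, ← hxy] at this
      exact this
    have rel2 : ∀ x y : ℤ × ℤ, k x = k y + 1 → ∀ u : ZMod 4 × ZMod 4,
        (∃ a ∈ SB, u - mc a ∈ {u : ZMod 4 × ZMod 4 | mJ (k x) u = true}) ↔
        (∃ a ∈ SB, u - 0 - mc a ∈ {u : ZMod 4 × ZMod 4 | mJ (k y) u = true}) := by
      intro x y hxy u
      rw [sub_zero, exists_SB, exists_SB]
      have := mJ_rel2 (k y) u
      rw [Bool.eq_iff_iff, Bool.or_eq_true, Bool.or_eq_true, ← hxy] at this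
      exact this
    have kk1 : ∀ x, k x = k (x - (1, 0)) + 1 := by
      intro x
      have := k1 (x - (1, 0))
      rwa [sub_add_cancel] at this
    have kk2 : ∀ x, k x = k (x - (0, 1)) + 1 := by
      intro x
      have := k2 (x - (0, 1))
      rwa [sub_add_cancel] at this
    rcases h with h | h | h | h
    · subst h
      exact (relTile_solves (BB p hp) hprod hX none SA (1, 0) ((1, 1) : ZMod 4 × ZMod 4)).mpr
        (fun x u => rel1 x (x - (1, 0)) (kk1 x) u)
    · subst h
      exact (relTile_solves (BB p hp) hprod hX none SA (0, 1) ((1, 1) : ZMod 4 × ZMod 4)).mpr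
        (fun x u => rel1 x (x - (0, 1)) (kk2 x) u)
    · subst h
      exact (relTile_solves (BB p hp) hprod hX none SB (1, 0) 0).mpr
        (fun x u => rel2 x (x - (1, 0)) (kk1 x) u)
    · have h : τ = relTile (BB p hp) none SB (0, 1) 0 := h
      subst h
      exact (relTile_solves (BB p hp) hprod hX none SB (0, 1) 0).mpr
        (fun x u => rel2 x (x - (0, 1)) (kk2 x) u)
  · rw [cl_solves (BB p hp) hprod hV nxt hnxt]
    rintro x rfl
    exact hω (hAl x)

theorem per_types {hp : ∀ i, 1 < p i}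
    {A : Set ((ℤ × ℤ) × (∀ κ, ZMod (nn p κ) × ZMod (nn p κ)))}
    {X : ℤ × ℤ → ∀ κ, Set (ZMod (nn p κ) × ZMod (nn p κ))} {b : ℤ × ℤ → Option I → Bool}
    (hprod : IsProd A X) (hV : ∀ x κ, (BB p hp κ).V (b x κ) (X x κ)) (hper : PerSet A) :
    DPer (fun x i => b x (some i)) := by
  obtain ⟨Λ, hΛ, hinv⟩ := hper
  have hne : ∀ x κ, (X x κ).Nonempty := fun x κ => (BB p hp κ).nonempty (hV x κ)
  have hsub : ∀ (x h : ℤ × ℤ), (h, (0 : ∀ κ, ZMod (nn p κ) × ZMod (nn p κ))) ∈ Λ → ∀ κ,
      X (x + h) κ ⊆ X x κ := by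
    intro x h hh κ u hu
    choose g hg using fun κ => hne (x + h) κ
    have h1 : (x + h, Function.update g κ u) ∈ A := by
      rw [hprod]
      intro κ'
      by_cases hκ : κ' = κ
      · subst hκ; rwa [Function.update_self]
      · rw [Function.update_of_ne hκ]; exact hg κ'
    have h2 := (hinv _ hh (x, Function.update g κ u)).mp (by
      rw [Prod.mk_add_mk, add_zero]; exact h1)
    rw [hprod] at h2
    have := h2 κ
    rwa [Function.update_self] at this
  have heq : ∀ (x h : ℤ × ℤ), (h, (0 : ∀ κ, ZMod (nn p κ) × ZMod (nn p κ))) ∈ Λ → ∀ κ,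
      X (x + h) κ = X x κ := by
    intro x h hh κ
    apply Set.Subset.antisymm (hsub x h hh κ)
    have hneg : (-h, (0 : ∀ κ, ZMod (nn p κ) × ZMod (nn p κ))) ∈ Λ := by
      have := Λ.neg_mem hh
      rwa [Prod.neg_mk, neg_zero] at this
    have := hsub (x + h) (-h) hneg κ
    rwa [add_neg_cancel_right] at this
  have hb : ∀ (x h : ℤ × ℤ), (h, (0 : ∀ κ, ZMod (nn p κ) × ZMod (nn p κ))) ∈ Λ → ∀ κ,
      b (x + h) κ = b x κ := by
    intro x h hh κ
    have h1 := hV (x + h) κ
    rw [heq x h hh κ] at h1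
    exact (BB p hp κ).excl h1 (hV x κ)
  have hmem : ∀ v : ℤ × ℤ, (Λ.index • v, (0 : ∀ κ, ZMod (nn p κ) × ZMod (nn p κ))) ∈ Λ := by
    intro v
    have := Λ.nsmul_index_mem (v, (0 : ∀ κ, ZMod (nn p κ) × ZMod (nn p κ)))
    rwa [Prod.smul_mk, smul_zero] at this
  refine ⟨Λ.index, Nat.pos_of_ne_zero hΛ.index_ne_zero, fun x => ⟨?_, ?_⟩⟩
  · funext i
    have h1 := hmem (1, 0)
    have e : Λ.index • ((1, 0) : ℤ × ℤ) = ((Λ.index : ℤ), 0) := by ext <;> simp only [Prod.smul_mk, Int.nsmul_eq_mul, mul_one, nsmul_zero]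
    rw [e] at h1
    exact hb x _ h1 (some i)
  · funext i
    have h1 := hmem (0, 1)
    have e : Λ.index • ((0, 1) : ℤ × ℤ) = (0, (Λ.index : ℤ)) := by ext <;> simp
    rw [e] at h1
    exact hb x _ h1 (some i)

theorem block_main [Finite I] (hp : ∀ i, 1 < p i) (w : I → ℤ × ℤ)
    (Al : (I → Bool) → Bool → Prop) (hex : ∃ b m, DSol w Al b m)
    (hnp : ¬ ∃ b m, DSol w Al b m ∧ DPer b) :
    ∃ (P : Type) (_ : Finite P)
      (S : Set (P → (ℤ × ℤ) × (∀ κ, ZMod (nn p κ) × ZMod (nn p κ)))),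
      S.Finite ∧ S.Nonempty ∧ AperSys S := by
  obtain ⟨nxt, hnxt⟩ := exists_nxt (Option I)
  have hne : ∀ κ, NeZero (nn p κ) := by
    rintro (_ | i)
    · exact ⟨by show (4 : ℕ) ≠ 0; norm_num⟩
    · exact ⟨by show p i ≠ 0; have := hp i; omega⟩
  have hfQ : ∀ κ, Finite (QQ p κ) := by
    rintro (_ | i)
    · show Finite (ZMod 4 × Bool); infer_instance
    · have : NeZero (p i) := hne (some i)
      show Finite (ZMod (p i)); infer_instance
  refine ⟨∀ κ, QQ p κ, inferInstance, bigSys p hp w nxt Al, ?_, ?_, ?_, ?_⟩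
  · refine (((((Set.finite_singleton _).union (S1_finite _)).union (Set.finite_range _)).union
      ?_).union ?_)
    · exact Set.toFinite _
    · exact Set.Finite.image _ (Set.toFinite _)
  · exact ⟨_, Or.inl (Or.inl (Or.inl (Or.inl rfl)))⟩
  · obtain ⟨b, m, hD⟩ := hex
    exact dsol_to_sol p hnxt hD
  · rintro ⟨A, hper, hA⟩
    obtain ⟨X, b, hprod, hV, hD⟩ := sol_to_dsol p hnxt hA
    exact hnp ⟨_, _, hD, per_types p hprod hV hper⟩

end Vale.Agent.P043
end
end

section

attribute [-instance] ProperSMul.toContinuousSMul IsTopologicalTorsor.toContinuousSMul IdemSemiring.toCanonicallyOrderedAdd IdemSemiring.toMulLeftMono IdemSemiring.toMulRightMono AddQuantale.instAddLeftMono AddQuantale.instAddRightMono Quantale.instMulLeftMono Quantale.instMulRightMono FiniteDimensional.rclike_to_real IsScalarTower.complexToReal FiniteDimensional.complexToReal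

section

/-!
# The embedding `KK → FF` and rows
-/

namespace Vale.Agent.P043.Z

open Vale.Agent.P043

variable {m : ℕ} {P : Bool → ℕ}

theorem emb1_natCast (n : ℕ) : emb1 m (n : ZMod (m ^ 2)) = ((m * n : ℕ) : ZMod (m ^ 3)) := by
  have h : emb1 m (((n : ℤ)) : ZMod (m ^ 2)) = (n : ℤ) • (m : ZMod (m ^ 3)) := by
    unfold emb1
    rw [ZMod.lift_coe]
    rfl
  rw [Int.cast_natCast] at h
  rw [h, zsmul_eq_mul]
  push_cast
  ring

theorem emb1_injective (hm : 1 ≤ m) : Function.Injective (emb1 m) := by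
  have hne : NeZero (m ^ 2) := ⟨by positivity⟩
  rw [injective_iff_map_eq_zero]
  intro a ha
  obtain ⟨n, rfl⟩ : ∃ n : ℕ, (n : ZMod (m ^ 2)) = a := ⟨a.val, ZMod.natCast_zmod_val a⟩
  rw [emb1_natCast, ZMod.natCast_eq_zero_iff] at ha
  rw [ZMod.natCast_eq_zero_iff]
  have h3 : m ^ 3 = m * m ^ 2 := by ring
  rw [h3] at ha
  exact Nat.dvd_of_mul_dvd_mul_left (by omega) ha

theorem rowOf_natCast (n : ℕ) : rowOf m (n : ZMod (m ^ 3)) = (n : ZMod m) := by
  unfold rowOf
  exact map_natCast _ n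

theorem rowOf_emb1 (e : ZMod (m ^ 2)) : rowOf m (emb1 m e) = 0 := by
  obtain ⟨n, rfl⟩ := ZMod.intCast_surjective e
  have h : emb1 m ((n : ℤ) : ZMod (m ^ 2)) = (n : ℤ) • (m : ZMod (m ^ 3)) := by
    unfold emb1
    rw [ZMod.lift_coe]
    rfl
  rw [h]
  unfold rowOf
  rw [map_zsmul, map_natCast, ZMod.natCast_self, smul_zero]

theorem rowOf_add (a b : ZMod (m ^ 3)) : rowOf m (a + b) = rowOf m a + rowOf m b := by
  unfold rowOf
  exact map_add _ a b

theorem rowOf_sub (a b : ZMod (m ^ 3)) : rowOf m (a - b) = rowOf m a - rowOf m b := by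
  unfold rowOf
  exact map_sub _ a b

theorem rowOf_one : rowOf m (1 : ZMod (m ^ 3)) = 1 := by
  unfold rowOf
  exact map_one _

theorem exists_emb1 (hm : 1 ≤ m) (a : ZMod (m ^ 3)) (ha : rowOf m a = 0) : ∃ e, emb1 m e = a := by
  have hne : NeZero (m ^ 3) := ⟨by positivity⟩
  obtain ⟨n, rfl⟩ : ∃ n : ℕ, (n : ZMod (m ^ 3)) = a := ⟨a.val, ZMod.natCast_zmod_val a⟩
  rw [rowOf_natCast, ZMod.natCast_eq_zero_iff] at ha
  obtain ⟨c, rfl⟩ := ha
  exact ⟨(c : ZMod (m ^ 2)), emb1_natCast c⟩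

theorem emb_sub (a b : KK m P) : emb m P (a - b) = emb m P a - emb m P b := by
  unfold emb
  rw [Prod.fst_sub, Prod.snd_sub, map_sub]
  rfl

theorem emb_injective (hm : 1 ≤ m) : Function.Injective (emb m P) := by
  intro a b h
  unfold emb at h
  rw [Prod.mk.injEq] at h
  exact Prod.ext (emb1_injective hm h.1) h.2

theorem exists_emb (hm : 1 ≤ m) (a : FF m P) (ha : rowOf m a.1 = 0) : ∃ k, emb m P k = a := by
  obtain ⟨e, he⟩ := exists_emb1 hm a.1 ha
  refine ⟨(e, a.2), ?_⟩
  unfold emb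
  simp only [he]

end Vale.Agent.P043.Z
end
end

section

attribute [-instance] ProperSMul.toContinuousSMul IsTopologicalTorsor.toContinuousSMul IdemSemiring.toCanonicallyOrderedAdd IdemSemiring.toMulLeftMono IdemSemiring.toMulRightMono AddQuantale.instAddLeftMono AddQuantale.instAddRightMono Quantale.instMulLeftMono Quantale.instMulRightMono FiniteDimensional.rclike_to_real IsScalarTower.complexToReal FiniteDimensional.complexToReal

section

/-!
# Counting functions of periodic sets: an inequality is an equality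
-/

namespace Vale.Agent.P043.Hy

open Vale.Agent.P043 Vale.Agent.P043.Eu MeasureTheory
open Classical

theorem eq_toR_zero {k : ℕ} (g : H k) : toR g 0 = g.2 := rfl

theorem eq_toR_succ {k : ℕ} (g : H k) (i : Fin k) : toR g i.succ = (g.1 i : ℝ) := by
  simp [toR, iv]

theorem eq_toR_add {k : ℕ} (g h : H k) : toR (g + h) = toR g + toR h := by
  funext i
  refine Fin.cases ?_ (fun j => ?_) i
  · simp [eq_toR_zero]
  · simp [eq_toR_succ]

/-- the integer horizontal part of a point -/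
noncomputable def eq_flo {k : ℕ} (x : Fin (k + 1) → ℝ) : H k := ((fun i => ⌊x i.succ⌋), x 0)

theorem eq_flo_sub {k : ℕ} (x : Fin (k + 1) → ℝ) (g : H k) :
    eq_flo (x - toR g) = eq_flo x - g := by
  refine Prod.ext ?_ ?_
  · funext i
    simp only [eq_flo, Pi.sub_apply, eq_toR_succ, Prod.fst_sub, Int.floor_sub_intCast]
  · simp only [eq_flo, Pi.sub_apply, eq_toR_zero, Prod.snd_sub]

theorem eq_mem_C {k : ℕ} (x : Fin (k + 1) → ℝ) (a : H k) :
    x - toR a ∈ C (k + 1) ↔ a.1 = (eq_flo x).1 ∧ a.2 ≤ (eq_flo x).2 ∧ (eq_flo x).2 < a.2 + 1 := by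
  constructor
  · intro h
    refine ⟨?_, ?_, ?_⟩
    · funext i
      have h1 := h i.succ
      simp only [Pi.sub_apply, eq_toR_succ] at h1
      symm
      simp only [eq_flo]
      rw [Int.floor_eq_iff]
      constructor <;> linarith only [h1]
    · have h1 := h 0
      simp only [Pi.sub_apply, eq_toR_zero] at h1
      simp only [eq_flo]
      linarith only [h1]
    · have h1 := h 0
      simp only [Pi.sub_apply, eq_toR_zero] at h1
      simp only [eq_flo]
      linarith only [h1]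
  · rintro ⟨h1, h2, h3⟩
    intro i
    refine Fin.cases ?_ (fun j => ?_) i
    · simp only [eq_flo] at h2 h3
      simp only [Pi.sub_apply, eq_toR_zero]
      constructor <;> linarith only [h2, h3]
    · have h4 := congrFun h1 j
      simp only [eq_flo] at h4
      simp only [Pi.sub_apply, eq_toR_succ, h4]
      constructor
      · linarith only [Int.floor_le (x j.succ)]
      · linarith only [Int.lt_floor_add_one (x j.succ)]

theorem eq_sep {k : ℕ} {A : Set (H k)} (hsep : SepV A) : Sep (toR '' A) := by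
  rintro _ ⟨a, ha, rfl⟩ _ ⟨b, hb, rfl⟩ hne
  have hab : a ≠ b := fun h => hne (by rw [h])
  by_cases h1 : a.1 = b.1
  · refine ⟨0, ?_⟩
    rw [eq_toR_zero, eq_toR_zero]
    by_contra hlt
    push Not at hlt
    rw [abs_lt] at hlt
    rcases le_total a.2 b.2 with h2 | h2
    · exact hab (hsep a ha b hb h1 h2 (by linarith [hlt.1]))
    · exact hab (hsep b hb a ha h1.symm h2 (by linarith only [hlt])).symm
  · obtain ⟨i, hi⟩ := Function.ne_iff.1 h1
    refine ⟨i.succ, ?_⟩
    rw [eq_toR_succ, eq_toR_succ]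
    have h2 : (1 : ℤ) ≤ |a.1 i - b.1 i| := Int.one_le_abs (sub_ne_zero.2 hi)
    exact_mod_cast h2

theorem eq_exists_iff {k : ℕ} (A : Set (H k)) (x : Fin (k + 1) → ℝ) :
    (∃ a ∈ toR '' A, x - a ∈ C (k + 1)) ↔ eq_flo x ∈ Iv A := by
  constructor
  · rintro ⟨_, ⟨a, ha, rfl⟩, h⟩
    exact ⟨a, ha, (eq_mem_C x a).1 h⟩
  · rintro ⟨a, ha, h⟩
    exact ⟨toR a, ⟨a, ha, rfl⟩, (eq_mem_C x a).2 h⟩

theorem eq_cnt {k : ℕ} {A : Set (H k)} (hsep : SepV A) (x : Fin (k + 1) → ℝ) :
    cnt (toR '' A) (C (k + 1)) x = if eq_flo x ∈ Iv A then 1 else 0 := by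
  split_ifs with h
  · obtain ⟨a, ha, hx⟩ := (eq_exists_iff A x).2 h
    exact le_antisymm (cnt_C_le (eq_sep hsep) x) (one_le_cnt ha hx)
  · by_contra hne
    exact h ((eq_exists_iff A x).1 (mem_of_cnt_ne_zero hne))

theorem eq_sum {k : ℕ} {P : Type} [Fintype P] {A : Set (H k)} (hsep : SepV A) (v : P → H k)
    (x : Fin (k + 1) → ℝ) :
    ∑ p, cnt (toR '' A) (C (k + 1)) (x - toR (v p)) =
      ((Finset.univ.filter (fun p : P => eq_flo x - v p ∈ Iv A)).card : ENNReal) := by
  rw [Finset.card_filter, Nat.cast_sum]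
  refine Finset.sum_congr rfl fun p _ => ?_
  rw [eq_cnt hsep, eq_flo_sub]
  split_ifs <;> simp

/-- right continuity of the indicator of `Iv A` -/
theorem eq_right {k : ℕ} {A : Set (H k)} (hsep : SepV A) (u : H k) :
    ∃ ε : ℝ, 0 < ε ∧ ∀ t : ℝ, 0 ≤ t → t < ε → (u + ((0 : Fin k → ℤ), t) ∈ Iv A ↔ u ∈ Iv A) := by
  by_cases hu : u ∈ Iv A
  · obtain ⟨a, ha, h1, h2, h3⟩ := hu
    refine ⟨a.2 + 1 - u.2, by linarith, fun t ht0 ht => ?_⟩
    refine iff_of_true ⟨a, ha, ?_, ?_, ?_⟩ ⟨a, ha, h1, h2, h3⟩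
    · simp [h1]
    · simp only [Prod.snd_add]; linarith only [h2, ht0]
    · simp only [Prod.snd_add]; linarith
  · by_cases hex : ∃ b ∈ A, b.1 = u.1 ∧ u.2 < b.2 ∧ b.2 < u.2 + 1
    · obtain ⟨b, hb, h1, h2, h3⟩ := hex
      refine ⟨b.2 - u.2, by linarith only [h2], fun t ht0 ht => ?_⟩
      refine iff_of_false ?_ hu
      rintro ⟨c, hc, g1, g2, g3⟩
      simp only [Prod.fst_add, Prod.snd_add, add_zero] at g1 g2 g3
      rcases lt_or_ge u.2 c.2 with h4 | h4
      · -- both `b` and `c` lie in `(u.2, u.2 + 1)`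
        have hcb : c.2 < b.2 := by linarith
        have := hsep c hc b hb (g1.trans h1.symm) hcb.le (by linarith)
        rw [this] at hcb
        exact lt_irrefl _ hcb
      · exact hu ⟨c, hc, g1, h4, by linarith only [ht0, g3]⟩
    · refine ⟨1, one_pos, fun t ht0 ht => ?_⟩
      refine iff_of_false ?_ hu
      rintro ⟨c, hc, g1, g2, g3⟩
      simp only [Prod.fst_add, Prod.snd_add, add_zero] at g1 g2 g3
      rcases lt_or_ge u.2 c.2 with h4 | h4
      · exact hex ⟨c, hc, g1, h4, by linarith⟩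
      · exact hu ⟨c, hc, g1, h4, by linarith only [ht0, g3]⟩

theorem eq_ae {k : ℕ} {P : Type} [Fintype P] (A : Set (H k)) (hsep : SepV A) (hper : PerH A)
    (v1 v2 : P → H k)
    (hle : ∀ u, (Finset.univ.filter (fun p : P => u - v1 p ∈ Iv A)).card ≤
      (Finset.univ.filter (fun p : P => u - v2 p ∈ Iv A)).card) :
    ∀ᵐ x : Fin (k + 1) → ℝ, (Finset.univ.filter (fun p : P => eq_flo x - v1 p ∈ Iv A)).card =
      (Finset.univ.filter (fun p : P => eq_flo x - v2 p ∈ Iv A)).card := by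
  obtain ⟨v, hv, hvA⟩ := hper
  have hrank : Fintype.card (Fin (k + 1)) = Module.finrank ℝ (Fin (k + 1) → ℝ) := by simp only [Fintype.card_fin, Module.finrank_fintype_fun_eq_card, Nat.add_left_cancel_iff]
  set b : Module.Basis (Fin (k + 1)) ℝ (Fin (k + 1) → ℝ) :=
    basisOfLinearIndependentOfCardEqFinrank hv hrank with hb
  have hbi : ∀ i, b i = toR (v i) := fun i => by
    rw [hb, coe_basisOfLinearIndependentOfCardEqFinrank]
  set At : Set (Fin (k + 1) → ℝ) := toR '' A with hAt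
  have hSep : Sep At := eq_sep hsep
  have hperA : ∀ i, ∀ a, b i + a ∈ At ↔ a ∈ At := by
    intro i a
    rw [hbi]
    constructor
    · rintro ⟨c, hc, hca⟩
      refine ⟨-v i + c, (hvA i _).1 (by simpa only [add_neg_cancel_left] using hc), ?_⟩
      have h1 : toR (v i) + toR (-v i + c) = toR (v i) + a := by
        rw [← eq_toR_add, ← hca]
        congr 1
        simp
      exact add_left_cancel h1
    · rintro ⟨c, hc, rfl⟩
      exact ⟨v i + c, (hvA i c).2 hc, eq_toR_add _ _⟩
  have hAc := hSep.countable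
  have hmeasC : Measurable (cnt At (C (k + 1))) := cnt_measurable hAc C_measurable
  have hinv : ∀ w ∈ Submodule.span ℤ (Set.range b), ∀ x,
      cnt At (C (k + 1)) (w + x) = cnt At (C (k + 1)) x :=
    fun w hw x => cnt_add (mem_add_iff hperA hw) x
  set D := ZSpan.fundamentalDomain b with hDdef
  have hD := ZSpan.isAddFundamentalDomain' b (volume : Measure (Fin (k + 1) → ℝ))
  have hc : Countable (Submodule.span ℤ (Set.range b)) := inferInstance
  have hc' : Countable (Submodule.span ℤ (Set.range b)).toAddSubgroup := hc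
  have hDfin : volume D ≠ ⊤ := (ZSpan.fundamentalDomain_isBounded b).measure_lt_top.ne
  -- the counting functions
  set X : (P → H k) → (Fin (k + 1) → ℝ) → ENNReal :=
    fun w x => ∑ p, cnt At (C (k + 1)) (x - toR (w p)) with hX
  have hXc : ∀ w x, X w x =
      ((Finset.univ.filter (fun p : P => eq_flo x - w p ∈ Iv A)).card : ENNReal) :=
    fun w x => eq_sum hsep w x
  have hXm : ∀ w, Measurable (X w) := fun w =>
    Finset.measurable_sum _ fun p _ => hmeasC.comp (measurable_id.sub_const _)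
  have hXinv : ∀ w, ∀ y ∈ Submodule.span ℤ (Set.range b), ∀ x, X w (y + x) = X w x := by
    intro w y hy x
    simp only [hX]
    refine Finset.sum_congr rfl fun p _ => ?_
    rw [add_sub_assoc, hinv y hy]
  have hXint : ∀ w, ∫⁻ x in D, X w x = ∑ _p : P, ∫⁻ x in D, cnt At (C (k + 1)) x := by
    intro w
    have hms : ∀ p, Measurable fun x => cnt At (C (k + 1)) (x - toR (w p)) := fun p =>
      hmeasC.comp (measurable_id.sub_const _)
    simp only [hX]
    rw [lintegral_finsetSum _ (fun p _ => hms p)]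
    exact Finset.sum_congr rfl fun p _ => integral_shift b _ hinv _
  have hCfin : ∫⁻ x in D, cnt At (C (k + 1)) x ≠ ⊤ := by
    have h1 : ∫⁻ x in D, cnt At (C (k + 1)) x ≤ ∫⁻ x in D, 1 :=
      lintegral_mono fun x => cnt_C_le hSep x
    rw [setLIntegral_one] at h1
    exact ne_top_of_le_ne_top hDfin h1
  have hXfin : ∀ w, ∫⁻ x in D, X w x ≠ ⊤ := by
    intro w
    rw [hXint]
    exact ENNReal.sum_ne_top.2 fun _ _ => hCfin
  have hXle : ∀ x, X v1 x ≤ X v2 x := by
    intro x
    rw [hXc, hXc]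
    exact_mod_cast hle (eq_flo x)
  have hae1 : ∀ᵐ x ∂(volume.restrict D), X v1 x = X v2 x := by
    have h2 : X v1 =ᵐ[volume.restrict D] X v2 := by
      refine ae_eq_of_ae_le_of_lintegral_le (Filter.Eventually.of_forall hXle) (hXfin v1)
        (hXm v2).aemeasurable ?_
      rw [hXint, hXint]
    exact h2
  have hae : ∀ᵐ x : Fin (k + 1) → ℝ, X v1 x = X v2 x := by
    have h2 : volume {x : Fin (k + 1) → ℝ | ¬ X v1 x = X v2 x} = 0 := by
      refine hD.measure_zero_of_invariant _ (fun w => ?_) ?_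
      · ext x
        rw [Set.mem_vadd_set]
        constructor
        · rintro ⟨y, hy, rfl⟩
          change ¬ X v1 ((w : Fin (k + 1) → ℝ) + y) = X v2 ((w : Fin (k + 1) → ℝ) + y)
          rw [hXinv _ _ w.2, hXinv _ _ w.2]
          exact hy
        · intro hx
          refine ⟨(-w : (Submodule.span ℤ (Set.range b)).toAddSubgroup) +ᵥ x, ?_, ?_⟩
          · change ¬ X v1 (((-w : (Submodule.span ℤ (Set.range b)).toAddSubgroup) :
              Fin (k + 1) → ℝ) + x) =
              X v2 (((-w : (Submodule.span ℤ (Set.range b)).toAddSubgroup) :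
              Fin (k + 1) → ℝ) + x)
            rw [hXinv _ _ (-w).2, hXinv _ _ (-w).2]
            exact hx
          · simp
      · have h3 := hae1
        rw [ae_iff, Measure.restrict_apply' (ZSpan.fundamentalDomain_measurableSet b)] at h3
        exact h3
    rw [ae_iff]
    exact h2
  filter_upwards [hae] with x hx
  rw [hXc, hXc] at hx
  exact_mod_cast hx

theorem xx_eq {k : ℕ} {P : Type} [Fintype P] (A : Set (H k)) (hsep : SepV A) (hper : PerH A)
    (v1 v2 : P → H k)
    (hle : ∀ u, (Finset.univ.filter (fun p : P => u - v1 p ∈ Iv A)).card ≤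
      (Finset.univ.filter (fun p : P => u - v2 p ∈ Iv A)).card) (u : H k) :
    (Finset.univ.filter (fun p : P => u - v1 p ∈ Iv A)).card =
      (Finset.univ.filter (fun p : P => u - v2 p ∈ Iv A)).card := by
  choose ε1 h1 h1' using fun p : P => eq_right hsep (u - v1 p)
  choose ε2 h2 h2' using fun p : P => eq_right hsep (u - v2 p)
  obtain ⟨δ, hδ, hδ1, hδ2⟩ : ∃ δ : ℝ, 0 < δ ∧ (∀ p, δ ≤ ε1 p) ∧ (∀ p, δ ≤ ε2 p) := by
    rcases isEmpty_or_nonempty P with hP | hP
    · exact ⟨1, one_pos, fun p => (hP.false p).elim, fun p => (hP.false p).elim⟩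
    · have hne : (Finset.univ : Finset P).Nonempty := Finset.univ_nonempty
      refine ⟨Finset.univ.inf' hne (fun p => min (ε1 p) (ε2 p)), ?_, ?_, ?_⟩
      · rw [Finset.lt_inf'_iff]
        exact fun p _ => lt_min (h1 p) (h2 p)
      · intro p
        exact (Finset.inf'_le _ (Finset.mem_univ p)).trans (min_le_left _ _)
      · intro p
        exact (Finset.inf'_le _ (Finset.mem_univ p)).trans (min_le_right _ _)
  obtain ⟨x, hx, hxe⟩ := exists_mem_box (eq_ae A hsep hper v1 v2 hle) (toR u)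
    (fun i => toR u i + min δ 1) (fun i => by
      have : (0 : ℝ) < min δ 1 := lt_min hδ one_pos
      linarith)
  -- the horizontal part of `x` is the one of `u`
  have hflo : eq_flo x = u + ((0 : Fin k → ℤ), x 0 - u.2) := by
    refine Prod.ext ?_ ?_
    · funext i
      have h3 := hx i.succ
      rw [eq_toR_succ] at h3
      simp only [eq_flo, Prod.fst_add, add_zero]
      rw [Int.floor_eq_iff]
      refine ⟨h3.1.le, h3.2.trans_le ?_⟩
      linarith only [min_le_right δ (1 : ℝ)]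
    · simp [eq_flo]
  have h0 := hx 0
  rw [eq_toR_zero] at h0
  have ht0 : 0 ≤ x 0 - u.2 := by linarith only [h0]
  have htδ : x 0 - u.2 < δ := by linarith only [h0, min_le_left δ (1 : ℝ)]
  have e1 : Finset.univ.filter (fun p : P => eq_flo x - v1 p ∈ Iv A) =
      Finset.univ.filter (fun p : P => u - v1 p ∈ Iv A) := by
    refine Finset.filter_congr fun p _ => ?_
    rw [hflo, add_sub_right_comm]
    exact h1' p _ ht0 (htδ.trans_le (hδ1 p))
  have e2 : Finset.univ.filter (fun p : P => eq_flo x - v2 p ∈ Iv A) =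
      Finset.univ.filter (fun p : P => u - v2 p ∈ Iv A) := by
    refine Finset.filter_congr fun p _ => ?_
    rw [hflo, add_sub_right_comm]
    exact h2' p _ ht0 (htδ.trans_le (hδ2 p))
  rw [e1, e2] at hxe
  exact hxe

end Vale.Agent.P043.Hy
end
end

section

section

/-!
# From almost everywhere to everywhere (half-open boxes are locally constant to the right)
-/

namespace Vale.Agent.P043.Hy

open Vale.Agent.P043 Vale.Agent.P043.Eu MeasureTheory Filter
open scoped Topology

/-- half-open box -/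
def every_Bx {n : ℕ} (lo hi : Fin n → ℝ) : Set (Fin n → ℝ) := {x | ∀ i, lo i ≤ x i ∧ x i < hi i}

theorem every_coord (lo hi y : ℝ) : ∀ᶠ ε in 𝓝[>] (0 : ℝ), ∀ t, 0 ≤ t → t < ε →
    ((lo ≤ y + t ∧ y + t < hi) ↔ (lo ≤ y ∧ y < hi)) := by
  rcases lt_or_ge y lo with h1 | h1
  · have h2 : Set.Ioo (0 : ℝ) (lo - y) ∈ 𝓝[>] (0 : ℝ) := Ioo_mem_nhdsGT (by linarith only [h1])
    filter_upwards [h2] with ε hε t ht0 ht
    constructor
    · rintro ⟨h3, -⟩
      have := hε.2
      linarith only [ht, h3, this]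
    · rintro ⟨h3, -⟩
      linarith only [h1, h3]
  · rcases lt_or_ge y hi with h2 | h2
    · have h3 : Set.Ioo (0 : ℝ) (hi - y) ∈ 𝓝[>] (0 : ℝ) := Ioo_mem_nhdsGT (by linarith only [h2])
      filter_upwards [h3] with ε hε t ht0 ht
      have := hε.2
      constructor
      · intro _
        exact ⟨h1, h2⟩
      · intro _
        constructor <;> linarith only [h1, ht0, ht, this]
    · refine Filter.Eventually.of_forall fun ε t ht0 _ => ?_
      constructor
      · rintro ⟨-, h3⟩
        linarith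
      · rintro ⟨-, h3⟩
        linarith only [h2, h3]

theorem every_box {n : ℕ} (lo hi x c : Fin n → ℝ) : ∀ᶠ ε in 𝓝[>] (0 : ℝ), ∀ y : Fin n → ℝ,
    (∀ i, x i ≤ y i ∧ y i < x i + ε) → (y - c ∈ every_Bx lo hi ↔ x - c ∈ every_Bx lo hi) := by
  have h : ∀ᶠ ε in 𝓝[>] (0 : ℝ), ∀ i, ∀ t, 0 ≤ t → t < ε →
      ((lo i ≤ (x i - c i) + t ∧ (x i - c i) + t < hi i) ↔
        (lo i ≤ x i - c i ∧ x i - c i < hi i)) :=
    Filter.eventually_all.2 fun i => every_coord (lo i) (hi i) (x i - c i)
  filter_upwards [h] with ε hε y hy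
  have key : ∀ i, (lo i ≤ y i - c i ∧ y i - c i < hi i) ↔
      (lo i ≤ x i - c i ∧ x i - c i < hi i) := by
    intro i
    have h1 := hε i (y i - x i) (by linarith [(hy i).1]) (by linarith only [(hy i).2])
    have e : (x i - c i) + (y i - x i) = y i - c i := by ring
    rw [e] at h1
    exact h1
  exact forall_congr' key

theorem every_QC {k : ℕ} (j : Fin k) : QC j =
    every_Bx (Fin.cons 0 (cor j)) (Fin.cons 1 (fun i => cor j i + 1 / 8)) := by
  ext x
  unfold QC every_Bx Q
  simp only [Set.mem_ofPred_eq]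
  rw [Fin.forall_fin_succ]
  rfl

/-- the points of a separated set near a point are finitely many -/
theorem every_near {n : ℕ} (B : Set (Fin n → ℝ)) (hsep : Sep B) (x : Fin n → ℝ) :
    {a | a ∈ B ∧ ∀ i, |x i - a i| < 3}.Finite := by
  refine Set.Finite.of_finite_image (f := fun a : Fin n → ℝ => fun i => ⌊a i⌋) ?_ ?_
  · refine (Set.finite_Icc (fun i => ⌊x i⌋ - 4) (fun i => ⌊x i⌋ + 4)).subset ?_
    rintro _ ⟨a, ⟨-, ha⟩, rfl⟩
    have h1 : ∀ i, ⌊x i⌋ - 4 ≤ ⌊a i⌋ ∧ ⌊a i⌋ ≤ ⌊x i⌋ + 4 := by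
      intro i
      have h2 := abs_lt.1 (ha i)
      have h3 := Int.floor_le (x i)
      have h4 := Int.lt_floor_add_one (x i)
      constructor
      · rw [Int.le_floor]
        push_cast
        linarith [h2.2]
      · have h5 := Int.floor_le (a i)
        have h6 : (⌊a i⌋ : ℝ) < ((⌊x i⌋ + 4 : ℤ) : ℝ) := by
          push_cast
          linarith only [h2, h4, h5]
        exact_mod_cast h6.le
    exact ⟨fun i => (h1 i).1, fun i => (h1 i).2⟩
  · rintro a ⟨ha, -⟩ b ⟨hb, -⟩ hab
    by_contra hne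
    obtain ⟨i, hi⟩ := hsep a ha b hb hne
    have h1 : ⌊a i⌋ = ⌊b i⌋ := congrFun hab i
    have h2 := Int.abs_sub_lt_one_of_floor_eq_floor h1
    linarith only [hi, h2]

theorem every_ev {k : ℕ} (j : Fin k) (i : Fin (k + 1)) :
    0 ≤ ev j.succ i ∧ ev j.succ i ≤ 1 := by
  unfold ev
  by_cases h : i = j.succ
  · subst h
    simp only [Pi.single_eq_same, zero_le_one, Std.le_refl, and_self]
  · rw [Pi.single_eq_of_ne h]
    norm_num

theorem every_QC_sub {k : ℕ} {j : Fin k} {x : Fin (k + 1) → ℝ} (hx : x ∈ QC j)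
    (i : Fin (k + 1)) : 0 ≤ x i ∧ x i < 1 := by
  obtain ⟨h0, h1⟩ := hx
  have h2 := Q_subset_C j h1
  refine Fin.cases h0 (fun l => ?_) i
  exact h2 l

theorem everyH {k : ℕ} (B : Set (Fin (k + 1) → ℝ)) (hsep : Sep B)
    (h : ∀ᵐ x : Fin (k + 1) → ℝ, (∃ a ∈ B, x - a ∈ C (k + 1)) ∧
      ((∃ a ∈ B, ∃ j : Fin k, x - a - ev j.succ ∈ QC j) → ∃ a ∈ B, ∃ j : Fin k, x - a ∈ QC j)) :
    ∀ x : Fin (k + 1) → ℝ, (∃ a ∈ B, x - a ∈ C (k + 1)) ∧
      ((∃ a ∈ B, ∃ j : Fin k, x - a - ev j.succ ∈ QC j) → ∃ a ∈ B, ∃ j : Fin k, x - a ∈ QC j) := by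
  intro x
  have hN := every_near B hsep x
  have h1 : ∀ᶠ ε in 𝓝[>] (0 : ℝ), ∀ a ∈ {a | a ∈ B ∧ ∀ i, |x i - a i| < 3},
      ∀ y : Fin (k + 1) → ℝ, (∀ i, x i ≤ y i ∧ y i < x i + ε) →
        (y - a ∈ C (k + 1) ↔ x - a ∈ C (k + 1)) := by
    rw [Filter.eventually_all_finite hN]
    intro a _
    exact every_box _ _ x a
  have h2 : ∀ᶠ ε in 𝓝[>] (0 : ℝ), ∀ a ∈ {a | a ∈ B ∧ ∀ i, |x i - a i| < 3}, ∀ j : Fin k,
      ∀ y : Fin (k + 1) → ℝ, (∀ i, x i ≤ y i ∧ y i < x i + ε) →
        (y - a ∈ QC j ↔ x - a ∈ QC j) := by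
    rw [Filter.eventually_all_finite hN]
    intro a _
    rw [Filter.eventually_all]
    intro j
    rw [every_QC]
    exact every_box _ _ x a
  have h3 : ∀ᶠ ε in 𝓝[>] (0 : ℝ), ∀ a ∈ {a | a ∈ B ∧ ∀ i, |x i - a i| < 3}, ∀ j : Fin k,
      ∀ y : Fin (k + 1) → ℝ, (∀ i, x i ≤ y i ∧ y i < x i + ε) →
        (y - a - ev j.succ ∈ QC j ↔ x - a - ev j.succ ∈ QC j) := by
    rw [Filter.eventually_all_finite hN]
    intro a _
    rw [Filter.eventually_all]
    intro j
    rw [every_QC]
    have := every_box (Fin.cons 0 (cor j)) (Fin.cons 1 (fun i => cor j i + 1 / 8)) x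
      (a + ev j.succ)
    simp only [← sub_sub] at this
    exact this
  have h4 : ∀ᶠ ε in 𝓝[>] (0 : ℝ), ε ∈ Set.Ioo (0 : ℝ) 1 := Ioo_mem_nhdsGT one_pos
  obtain ⟨ε, ⟨⟨h1, h2⟩, h3⟩, hε⟩ := (((h1.and h2).and h3).and h4).exists
  obtain ⟨y, hy, ⟨⟨a, ha, hya⟩, hy2⟩⟩ := exists_mem_box h x (fun i => x i + ε)
    (fun i => by linarith only [hε.1])
  have hyx : ∀ i, x i ≤ y i ∧ y i < x i + ε := fun i => ⟨(hy i).1.le, (hy i).2⟩
  constructor
  · refine ⟨a, ha, (h1 a ⟨ha, fun i => ?_⟩ y hyx).1 hya⟩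
    have e1 := hya i
    rw [Pi.sub_apply] at e1
    rw [abs_lt]
    constructor <;> linarith only [e1, (hyx i).1, (hyx i).2, hε.2]
  · rintro ⟨b, hb, j, hbj⟩
    have hbN : ∀ i, |x i - b i| < 3 := by
      intro i
      have e1 := every_QC_sub hbj i
      have e2 := every_ev j i
      rw [Pi.sub_apply, Pi.sub_apply] at e1
      rw [abs_lt]
      constructor <;> linarith only [e1, e2]
    obtain ⟨c, hc, l, hcl⟩ := hy2 ⟨b, hb, j, (h3 b ⟨hb, hbN⟩ j y hyx).2 hbj⟩
    refine ⟨c, hc, l, (h2 c ⟨hc, fun i => ?_⟩ l y hyx).1 hcl⟩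
    have e1 := every_QC_sub hcl i
    rw [Pi.sub_apply] at e1
    rw [abs_lt]
    constructor <;> linarith only [e1, (hyx i).1, (hyx i).2, hε.2]

end Vale.Agent.P043.Hy
end
end

section

section

/-!
# Horizontal slices lie in one coset of the integer lattice
-/

namespace Vale.Agent.P043.Hy

open Vale.Agent.P043 Vale.Agent.P043.Eu MeasureTheory

/-- a separated set closed under adding unit vectors lies in a coset of `ℤ^d` -/
theorem sl_coset {d : ℕ} (A : Set (Fin d → ℝ)) (hsep : Sep A) (h : ∀ a ∈ A, ∀ j, a + ev j ∈ A) :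
    ∀ a ∈ A, ∀ b ∈ A, ∃ n : Fin d → ℤ, b = a + iv n := by
  intro a ha b hb
  refine ⟨fun i => ⌊b i - a i⌋, ?_⟩
  have h1 := coset_nat A h ha (fun i => ⌊b i - a i⌋.toNat)
  have h2 := coset_nat A h hb (fun i => (-⌊b i - a i⌋).toNat)
  have hcast : ∀ i, (((⌊b i - a i⌋.toNat : ℕ) : ℤ) : ℝ) - ((((-⌊b i - a i⌋).toNat : ℕ) : ℤ) : ℝ) =
      (⌊b i - a i⌋ : ℝ) := by
    intro i
    rw [← Int.cast_sub]
    congr 1
    omega
  by_cases heq : b + iv (fun i => (((-⌊b i - a i⌋).toNat : ℕ) : ℤ)) =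
      a + iv (fun i => ((⌊b i - a i⌋.toNat : ℕ) : ℤ))
  · funext i
    have := congrFun heq i
    have h3 := hcast i
    simp only [Pi.add_apply, iv] at this ⊢
    linarith
  · exfalso
    obtain ⟨i, hi⟩ := hsep _ h2 _ h1 heq
    have h3 := hcast i
    simp only [Pi.add_apply, iv] at hi
    have h4 := Int.floor_le (b i - a i)
    have h5 := Int.lt_floor_add_one (b i - a i)
    rw [le_abs] at hi
    rcases hi with hi | hi <;> linarith

theorem slice_coset {k : ℕ} (B : Set (Fin (k + 1) → ℝ)) (hsep : Sep B)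
    (h : ∀ x : Fin (k + 1) → ℝ, (∃ a ∈ B, ∃ j : Fin k, x - a - ev j.succ ∈ QC j) →
      ∃ a ∈ B, ∃ j : Fin k, x - a ∈ QC j) (z : ℝ) :
    ∀ a ∈ B, ∀ b ∈ B, (a 0 ≤ z ∧ z < a 0 + 1) → (b 0 ≤ z ∧ z < b 0 + 1) →
      ∃ n : Fin k → ℤ, Fin.tail b = Fin.tail a + iv n := by
  intro a ha b hb haz hbz
  set A : Set (Fin k → ℝ) := {y | ∃ b ∈ B, Fin.tail b = y ∧ b 0 ≤ z ∧ z < b 0 + 1} with hA
  have hAsep : Sep A := by
    rintro y ⟨c, hc, rfl, hc1, hc2⟩ y' ⟨c', hc', rfl, hc1', hc2'⟩ hne
    have hcc : c ≠ c' := by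
      rintro rfl
      exact hne rfl
    obtain ⟨i, hi⟩ := hsep c hc c' hc' hcc
    induction i using Fin.cases with
    | zero =>
      exfalso
      rw [le_abs] at hi
      rcases hi with hi | hi <;> linarith only [hc1, hc2', hi, hc2, hc1']
    | succ j => exact ⟨j, hi⟩
  have hshift : ∀ y ∈ A, ∀ j, y + ev j ∈ A := by
    refine corner A hAsep (Filter.Eventually.of_forall fun y hy => ?_)
    obtain ⟨_, ⟨c, hc, rfl, hc1, hc2⟩, j, hj⟩ := hy
    have hx : ∃ a ∈ B, ∃ j : Fin k, (Fin.cons z y : Fin (k + 1) → ℝ) - a - ev j.succ ∈ QC j := by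
      refine ⟨c, hc, j, ⟨?_, ?_⟩, ?_⟩
      · simp only [Pi.sub_apply, Fin.cons_zero, ev]
        rw [Pi.single_eq_of_ne (Fin.succ_ne_zero j).symm]
        linarith only [hc1]
      · simp only [Pi.sub_apply, Fin.cons_zero, ev]
        rw [Pi.single_eq_of_ne (Fin.succ_ne_zero j).symm]
        linarith only [hc2]
      · have he : Fin.tail ((Fin.cons z y : Fin (k + 1) → ℝ) - c - ev j.succ) =
            y - Fin.tail c - ev j := by
          funext i
          simp only [Fin.tail, Pi.sub_apply, Fin.cons_succ, ev]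
          congr 1
          by_cases hij : i = j
          · subst hij
            simp
          · rw [Pi.single_eq_of_ne hij, Pi.single_eq_of_ne
              (fun h => hij (Fin.succ_injective _ h))]
        rw [he]
        exact hj
    obtain ⟨c', hc', j', hj'⟩ := h _ hx
    obtain ⟨⟨h1, h2⟩, h3⟩ := hj'
    simp only [Pi.sub_apply, Fin.cons_zero] at h1 h2
    exact ⟨Fin.tail c', ⟨c', hc', rfl, by linarith only [h1], by linarith only [h2]⟩, j', h3⟩
  exact sl_coset A hAsep hshift _ ⟨a, ha, rfl, haz⟩ _ ⟨b, hb, rfl, hbz⟩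

/-- a point lies in at most one cube -/
theorem sl_unique {k : ℕ} {B : Set (Fin (k + 1) → ℝ)} (hsep : Sep B) {x a b : Fin (k + 1) → ℝ}
    (ha : a ∈ B) (hb : b ∈ B) (h1 : x - a ∈ C (k + 1)) (h2 : x - b ∈ C (k + 1)) : a = b := by
  by_contra hne
  obtain ⟨i, hi⟩ := hsep a ha b hb hne
  have e1 := h1 i
  have e2 := h2 i
  simp only [Pi.sub_apply] at e1 e2
  rw [le_abs] at hi
  rcases hi with hi | hi <;> linarith only [e1, e2, hi]

/-- no cube crosses the height `z` -/
def sl_NS {k : ℕ} (B : Set (Fin (k + 1) → ℝ)) (z : ℝ) : Prop :=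
  ∀ b ∈ B, ¬ (b 0 < z ∧ z < b 0 + 1)

theorem sl_up {k : ℕ} {B : Set (Fin (k + 1) → ℝ)} (hsep : Sep B)
    (hcov : ∀ x, ∃ a ∈ B, x - a ∈ C (k + 1)) {z : ℝ} (hz : sl_NS B z) {c : Fin (k + 1) → ℝ}
    (hc : c ∈ B) (h1 : z ≤ c 0) (h2 : c 0 < z + 1) : c 0 = z := by
  obtain ⟨b, hb, hx⟩ := hcov (Fin.cons z (Fin.tail c))
  have e0 := hx 0
  simp only [Pi.sub_apply, Fin.cons_zero] at e0
  have hbz : b 0 = z := by
    by_contra hne
    exact hz b hb ⟨lt_of_le_of_ne (by linarith only [e0]) hne, by linarith only [e0]⟩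
  have hcb : c = b := by
    refine sl_unique hsep hc hb (x := c) ?_ ?_
    · intro i
      simp only [Pi.sub_apply, sub_self, Std.le_refl, zero_lt_one, and_self]
    · intro i
      induction i using Fin.cases with
      | zero =>
        simp only [Pi.sub_apply]
        rw [hbz]
        constructor <;> linarith only [h1, h2]
      | succ j =>
        have := hx j.succ
        simpa only [Pi.sub_apply, sub_nonneg, Fin.cons_succ, Fin.tail] using this
  rw [hcb, hbz]

theorem sl_succ {k : ℕ} {B : Set (Fin (k + 1) → ℝ)} (hsep : Sep B)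
    (hcov : ∀ x, ∃ a ∈ B, x - a ∈ C (k + 1)) {z : ℝ} (hz : sl_NS B z) : sl_NS B (z + 1) := by
  intro b hb h
  have := sl_up hsep hcov hz hb (by linarith [h.2]) h.1
  linarith only [h, this]

theorem sl_pred {k : ℕ} {B : Set (Fin (k + 1) → ℝ)} (hsep : Sep B)
    (hcov : ∀ x, ∃ a ∈ B, x - a ∈ C (k + 1)) {z : ℝ} (hz : sl_NS B z) : sl_NS B (z - 1) := by
  rintro b hb ⟨h1, h2⟩
  obtain ⟨c, hc, hx⟩ := hcov (Fin.cons (b 0 + 1) (Fin.tail b))
  have e0 := hx 0
  simp only [Pi.sub_apply, Fin.cons_zero] at e0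
  have hcz : c 0 + 1 ≤ z := by
    by_contra hne
    exact hz c hc ⟨by linarith only [h1, e0], by linarith only [hne]⟩
  have hcb : b = c := by
    refine sl_unique hsep hb hc (x := Fin.cons (z - 1) (Fin.tail b)) ?_ ?_
    · intro i
      induction i using Fin.cases with
      | zero =>
        simp only [Pi.sub_apply, Fin.cons_zero]
        constructor <;> linarith only [h1, h2]
      | succ j => simp only [Pi.sub_apply, Fin.cons_succ, Fin.tail, sub_self, Std.le_refl, zero_lt_one, and_self]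
    · intro i
      induction i using Fin.cases with
      | zero =>
        simp only [Pi.sub_apply, Fin.cons_zero]
        constructor <;> linarith only [h2, e0, hcz]
      | succ j =>
        have := hx j.succ
        simpa only [Pi.sub_apply, Fin.cons_succ, Fin.tail, sub_nonneg] using this
  rw [← hcb] at e0
  linarith only [e0]

theorem sl_int {k : ℕ} {B : Set (Fin (k + 1) → ℝ)} (hsep : Sep B)
    (hcov : ∀ x, ∃ a ∈ B, x - a ∈ C (k + 1)) {z : ℝ} (hz : sl_NS B z) (m : ℤ) :
    sl_NS B (z + m) := by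
  induction m using Int.induction_on with
  | zero => simpa using hz
  | succ i ih =>
    have := sl_succ hsep hcov ih
    push_cast at this ⊢
    rwa [← add_assoc]
  | pred i ih =>
    have := sl_pred hsep hcov ih
    push_cast at this ⊢
    rw [← add_sub_assoc]
    exact this

theorem one_class {k : ℕ} (B : Set (Fin (k + 1) → ℝ)) (hsep : Sep B)
    (hcov : ∀ x, ∃ a ∈ B, x - a ∈ C (k + 1))
    (hsl : ∀ z : ℝ, ∀ a ∈ B, ∀ b ∈ B, (a 0 ≤ z ∧ z < a 0 + 1) → (b 0 ≤ z ∧ z < b 0 + 1) →
      ∃ n : Fin k → ℤ, Fin.tail b = Fin.tail a + iv n)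
    (hni : ∃ a ∈ B, ∃ b ∈ B, ∀ m : ℤ, a 0 - b 0 ≠ m) :
    ∀ a ∈ B, ∀ b ∈ B, ∃ n : Fin k → ℤ, Fin.tail b = Fin.tail a + iv n := by
  -- every height is crossed
  have hstr : ∀ z : ℝ, ∃ b ∈ B, b 0 < z ∧ z < b 0 + 1 := by
    intro z
    by_contra hcon
    have hz : sl_NS B z := fun b hb h => hcon ⟨b, hb, h⟩
    have hall : ∀ c ∈ B, c 0 = z + (⌊c 0 - z⌋ : ℤ) := by
      intro c hc
      refine sl_up hsep hcov (sl_int hsep hcov hz _) hc ?_ ?_
      · linarith [Int.floor_le (c 0 - z)]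
      · linarith only [Int.lt_floor_add_one (c 0 - z)]
    obtain ⟨a, ha, b, hb, hm⟩ := hni
    refine hm (⌊a 0 - z⌋ - ⌊b 0 - z⌋) ?_
    have h1 := hall a ha
    have h2 := hall b hb
    push_cast
    linarith only [h1, h2]
  intro a ha b hb
  set U : Set ℝ := {z | ∃ c ∈ B, (c 0 < z ∧ z < c 0 + 1) ∧
    ∃ n : Fin k → ℤ, Fin.tail c = Fin.tail a + iv n} with hU
  have hopen : IsOpen U := by
    rw [isOpen_iff_mem_nhds]
    rintro z ⟨c, hc, hcz, hn⟩
    refine Filter.mem_of_superset (Ioo_mem_nhds hcz.1 hcz.2) ?_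
    intro w hw
    exact ⟨c, hc, hw, hn⟩
  have hcomp : IsOpen Uᶜ := by
    rw [isOpen_iff_mem_nhds]
    intro z hz
    obtain ⟨c, hc, hcz⟩ := hstr z
    refine Filter.mem_of_superset (Ioo_mem_nhds hcz.1 hcz.2) ?_
    rintro w hw ⟨c', hc', hcw, n, hn⟩
    obtain ⟨n', hn'⟩ := hsl w c' hc' c hc ⟨hcw.1.le, hcw.2⟩ ⟨hw.1.le, hw.2⟩
    refine hz ⟨c, hc, hcz, n + n', ?_⟩
    rw [hn', hn]
    funext i
    simp only [Pi.add_apply, iv, add_assoc, Int.cast_add]
  have huniv : U = Set.univ := by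
    refine IsClopen.eq_univ ⟨⟨hcomp⟩, hopen⟩ ⟨a 0 + 1 / 2, a, ha, ⟨by linarith only [], by linarith only []⟩, 0, ?_⟩
    funext i
    simp [iv]
  have hbU : b 0 + 1 / 2 ∈ U := by
    rw [huniv]
    trivial
  obtain ⟨c, hc, hcw, n, hn⟩ := hbU
  obtain ⟨n', hn'⟩ := hsl (b 0 + 1 / 2) c hc b hb ⟨hcw.1.le, hcw.2⟩ ⟨by linarith only [], by linarith only []⟩
  refine ⟨n + n', ?_⟩
  rw [hn', hn]
  funext i
  simp only [Pi.add_apply, iv, add_assoc, Int.cast_add]

end Vale.Agent.P043.Hy
end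
end

section

section

/-!
# Lifted row tiles
-/

namespace Vale.Agent.P043.Z

open Vale.Agent.P043

variable {m : ℕ} {P : Bool → ℕ}

theorem rowLift_mem0 (W : ℤ → KK m P) (σ : ZMod (m ^ 2) → ℤ × ZMod (m ^ 2)) (g : ℤ × KK m P)
    (k : KK m P) : g - lift0 m P σ k ∈ Gr W ↔
      ((g.1, g.2.1) - σ k.1 ∈ (Gr fun x => (W x).1)) ∧
        k.2 = g.2.2 - (W (g.1 - (σ k.1).1)).2 := by
  simp only [Gr, Prod.ext_iff, lift0, Set.mem_ofPred_eq, Prod.snd_sub, Prod.fst_sub]
  refine and_congr_right fun _ => ?_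
  constructor
  · intro h
    rw [← h]
    abel
  · intro h
    rw [h]
    abel

theorem gr_lift0 {X : Type*} [NeZero m] (W : ℤ → KK m P) (σ : ZMod (m ^ 2) → ℤ × ZMod (m ^ 2)) :
    Solves (Gr W) (lift0 m P σ) ↔ Solves (Gr fun x => (W x).1) σ := by
  constructor
  · intro H g
    obtain ⟨k, hk, hu⟩ := H (g.1, (g.2, 0))
    refine ⟨k.1, ((rowLift_mem0 W σ _ k).1 hk).1, fun k1 hk1 => ?_⟩
    have h1 := hu (k1, 0 - (W (g.1 - (σ k1).1)).2) ((rowLift_mem0 W σ _ _).2 ⟨hk1, rfl⟩)
    rw [← h1]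
  · intro H g
    obtain ⟨k1, hk, hu⟩ := H (g.1, g.2.1)
    refine ⟨(k1, g.2.2 - (W (g.1 - (σ k1).1)).2), (rowLift_mem0 W σ _ _).2 ⟨hk, rfl⟩, ?_⟩
    intro k hk'
    obtain ⟨h1, h2⟩ := (rowLift_mem0 W σ _ _).1 hk'
    have h3 := hu k.1 h1
    refine Prod.ext h3 ?_
    rw [h2, h3]

theorem rowLift_mem1 (W : ℤ → KK m P) (i : Bool)
    (σ : ZMod (m ^ 2) × ZMod (P i) → ℤ × (ZMod (m ^ 2) × ZMod (P i))) (g : ℤ × KK m P)
    (k : KK m P) : g - lift1 m P i σ k ∈ Gr W ↔
      ((g.1, (g.2.1, g.2.2 i)) - σ (k.1, k.2 i) ∈ (Gr fun x => ((W x).1, (W x).2 i))) ∧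
        ∀ j, j ≠ i → k.2 j = g.2.2 j - (W (g.1 - (σ (k.1, k.2 i)).1)).2 j := by
  simp only [Gr, lift1, Set.mem_ofPred_eq, Prod.ext_iff, Prod.fst_sub, Prod.snd_sub, and_assoc]
  refine and_congr_right fun _ => ?_
  constructor
  · intro h
    refine ⟨?_, fun j hj => ?_⟩
    · have := congrFun h i
      simpa only [Pi.sub_apply, Function.update_self] using this
    · have := congrFun h j
      rw [Pi.sub_apply, Function.update_of_ne hj] at this
      rw [← this]
      abel
  · rintro ⟨h1, h2⟩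
    funext j
    by_cases hj : j = i
    · subst hj
      simpa only [Pi.sub_apply, Function.update_self] using h1
    · rw [Pi.sub_apply, Function.update_of_ne hj, h2 j hj]
      abel

theorem gr_lift1 [NeZero m] (W : ℤ → KK m P) (i : Bool)
    (σ : ZMod (m ^ 2) × ZMod (P i) → ℤ × (ZMod (m ^ 2) × ZMod (P i))) :
    Solves (Gr W) (lift1 m P i σ) ↔ Solves (Gr fun x => ((W x).1, (W x).2 i)) σ := by
  constructor
  · intro H g
    obtain ⟨k, hk, hu⟩ := H (g.1, (g.2.1, Function.update 0 i g.2.2))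
    have hg : ((g.1, (g.2.1, Function.update (0 : (i : Bool) → ZMod (P i)) i g.2.2)) :
        ℤ × KK m P).2.2 i = g.2.2 := by simp
    have key : ∀ k : KK m P, (((g.1, (g.2.1, Function.update (0 : (i : Bool) → ZMod (P i)) i
        g.2.2)) : ℤ × KK m P) - lift1 m P i σ k ∈ Gr W) ↔
        (g - σ (k.1, k.2 i) ∈ (Gr fun x => ((W x).1, (W x).2 i))) ∧ ∀ j, j ≠ i → k.2 j =
          (Function.update (0 : (i : Bool) → ZMod (P i)) i g.2.2) j -
            (W (g.1 - (σ (k.1, k.2 i)).1)).2 j := by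
      intro k
      rw [rowLift_mem1, hg]
    refine ⟨(k.1, k.2 i), ((key k).1 hk).1, fun k1 hk1 => ?_⟩
    have h1 := hu (k1.1, Function.update (fun j => (Function.update
      (0 : (i : Bool) → ZMod (P i)) i g.2.2) j - (W (g.1 - (σ k1).1)).2 j) i k1.2)
      ((key _).2 ⟨?_, fun j hj => ?_⟩)
    · rw [← h1]
      simp only [Function.update_self, Prod.mk.eta]
    · simpa only [Function.update_self, Prod.mk.eta] using hk1
    · simp only [Function.update_of_ne hj, Pi.zero_apply, zero_sub, Function.update_self, Prod.mk.eta]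
  · intro H g
    obtain ⟨k1, hk, hu⟩ := H (g.1, (g.2.1, g.2.2 i))
    refine ⟨(k1.1, Function.update (fun j => g.2.2 j - (W (g.1 - (σ k1).1)).2 j) i k1.2),
      (rowLift_mem1 W i σ _ _).2 ⟨?_, fun j hj => ?_⟩, ?_⟩
    · simpa only [Function.update_self, Prod.mk.eta] using hk
    · simp only [Function.update_of_ne hj, Function.update_self, Prod.mk.eta]
    · intro k hk'
      obtain ⟨h1, h2⟩ := (rowLift_mem1 W i σ _ _).1 hk'
      have h3 : (k.1, k.2 i) = k1 := hu _ h1
      have h4 : k.1 = k1.1 := congrArg Prod.fst h3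
      have h5 : k.2 i = k1.2 := congrArg Prod.snd h3
      refine Prod.ext h4 ?_
      funext j
      by_cases hj : j = i
      · subst hj
        simpa only [Function.update_self] using h5
      · rw [h2 j hj, h3]
        simp [Function.update_of_ne hj]

end Vale.Agent.P043.Z
end
end

section

section

/-!
# Row functions have class data
-/

namespace Vale.Agent.P043.Z

open Vale.Agent.P043

variable {m : ℕ} {P : Bool → ℕ}

/-- reduction modulo `m` -/
def rcd_pi (m : ℕ) : ZMod (m ^ 2) →+* ZMod m :=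
  ZMod.castHom (dvd_pow_self m (by norm_num : (2 : ℕ) ≠ 0)) (ZMod m)

theorem rcd_pi_val [NeZero m] (j : ZMod (m ^ 2)) : rcd_pi m j = ((j.val : ℕ) : ZMod m) := by
  conv_lhs => rw [← ZMod.natCast_zmod_val j]
  rw [map_natCast]

theorem rcd_dvd [NeZero m] (j : ZMod (m ^ 2)) : m ∣ j.val ↔ rcd_pi m j = 0 := by
  rw [rcd_pi_val, ZMod.natCast_eq_zero_iff]

/-- constant increments -/
theorem rcd_prog {G : Type*} [AddCommGroup G] (z : ℤ → G) (n : ℤ)
    (hz : ∀ x, z (x + n) - z x = z x - z (x - n)) (x t : ℤ) :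
    z (x + n * t) = z x + t • (z (x + n) - z x) := by
  have h1 : ∀ t : ℤ, z (x + n * t + n) - z (x + n * t) = z (x + n) - z x := by
    intro t
    induction t using Int.induction_on with
    | zero => simp only [mul_zero, add_zero]
    | succ k ih =>
      rw [← ih]
      have := hz (x + n * ((k : ℤ) + 1))
      rw [this]
      congr 2 <;> ring
    | pred k ih =>
      rw [← ih]
      have := hz (x + n * (-(k : ℤ)))
      rw [this]
      congr 2 <;> ring
  induction t using Int.induction_on with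
  | zero => simp
  | succ k ih =>
    have h2 := h1 k
    rw [ih] at h2
    rw [show x + n * ((k : ℤ) + 1) = x + n * k + n by ring, sub_eq_iff_eq_add.1 h2, add_smul,
      one_smul]
    abel
  | pred k ih =>
    have h2 := h1 (-(k : ℤ) - 1)
    rw [show x + n * (-(k : ℤ) - 1) + n = x + n * (-(k : ℤ)) by ring, ih] at h2
    rw [← sub_eq_iff_eq_add'.2 (sub_eq_iff_eq_add.1 h2), sub_smul, one_smul]
    abel

theorem rcd_L [NeZero m] (e : ℤ → ZMod (m ^ 2)) (h : Solves (Gr e) (tL m)) (x : ℤ) :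
    rcd_pi m (e x) = rcd_pi m (e (x - m)) + 1 := by
  obtain ⟨j, hj, -⟩ := h (x, e x)
  by_cases hd : m ∣ j.val
  · simp only [tL, if_pos hd] at hj
    have hj' : e x - (j + 1) = e (x - m) := hj
    rw [rcd_dvd] at hd
    rw [← hj', map_sub, map_add, hd, map_one]
    ring
  · simp only [tL, if_neg hd] at hj
    have hj' : e x - j = e (x - 0) := hj
    rw [sub_zero, sub_eq_self] at hj'
    rw [hj'] at hd
    exact absurd (by simp only [ZMod.val_zero, dvd_zero]) hd

theorem rcd_P [NeZero m] (e : ℤ → ZMod (m ^ 2)) (h : Solves (Gr e) (tP m)) (x : ℤ) :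
    e (x - (m : ℤ) ^ 2) = e x := by
  obtain ⟨j, hj, -⟩ := h (x, e x)
  by_cases hd : j = 0
  · simp only [tP, if_pos hd] at hj
    have hj' : e x - 0 = e (x - (m : ℤ) ^ 2) := hj
    rw [← hj', sub_zero]
  · simp only [tP, if_neg hd] at hj
    have hj' : e x - j = e (x - 0) := hj
    rw [sub_zero, sub_eq_self] at hj'
    exact absurd hj' hd

theorem rcd_H [NeZero m] {p : ℕ} (hs : ((m ^ 2 : ℕ) : ZMod p) ≠ 0) (e : ℤ → ZMod (m ^ 2))
    (z : ℤ → ZMod p) (h : Solves (Gr fun x => (e x, z x)) (tH m p)) (x : ℤ) :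
    (z (x - (m : ℤ) ^ 2) = z x ∧ z (x + (m : ℤ) ^ 2) = z x) ∨
    (z (x - (m : ℤ) ^ 2) = z x - ((m ^ 2 : ℕ) : ZMod p) ∧
      z (x + (m : ℤ) ^ 2) = z x + ((m ^ 2 : ℕ) : ZMod p)) := by
  set s : ZMod p := ((m ^ 2 : ℕ) : ZMod p) with hsdef
  have key : ∀ y : ZMod p, (y = z x ∨ y = z x + s) →
      (y - s = z (x - (m : ℤ) ^ 2) ∨ y = z (x + (m : ℤ) ^ 2)) := by
    intro y hy
    obtain ⟨j, hj, -⟩ := h (x, (e x, y))
    by_cases h1 : j = (0, s)
    · left
      simp only [tH, ← hsdef, if_pos h1] at hj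
      have hj' : ((e x, y) : ZMod (m ^ 2) × ZMod p) - (0, s) =
        (e (x - (m : ℤ) ^ 2), z (x - (m : ℤ) ^ 2)) := hj
      exact congrArg Prod.snd hj'
    · by_cases h2 : j = (0, 0)
      · right
        simp only [tH, ← hsdef, if_pos h2, if_neg h1] at hj
        have hj' : ((e x, y) : ZMod (m ^ 2) × ZMod p) - (0, 0) =
          (e (x - -(m : ℤ) ^ 2), z (x - -(m : ℤ) ^ 2)) := hj
        have := congrArg Prod.snd hj'
        simp only [Prod.snd_sub, sub_zero, sub_neg_eq_add] at this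
        exact this
      · exfalso
        simp only [tH, ← hsdef, if_neg h1, if_neg h2] at hj
        have hj' : ((e x, y) : ZMod (m ^ 2) × ZMod p) - j = (e (x - 0), z (x - 0)) := hj
        rw [sub_zero] at hj'
        have a1 := congrArg Prod.fst hj'
        have a2 := congrArg Prod.snd hj'
        simp only [Prod.fst_sub, Prod.snd_sub, sub_eq_self] at a1 a2
        rcases hy with hy | hy
        · rw [hy, sub_eq_self] at a2
          exact h2 (Prod.ext a1 a2)
        · rw [hy, add_sub_assoc, add_eq_left, sub_eq_zero] at a2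
          exact h1 (Prod.ext a1 a2.symm)
  have k1 := key (z x) (Or.inl rfl)
  have k2 := key (z x + s) (Or.inr rfl)
  rw [add_sub_cancel_right] at k2
  rcases k1 with k1 | k1
  · rcases k2 with k2 | k2
    · rw [← k2, sub_eq_self] at k1
      exact absurd k1 hs
    · exact Or.inr ⟨k1.symm, k2.symm⟩
  · rcases k2 with k2 | k2
    · exact Or.inl ⟨k2.symm, k1.symm⟩
    · rw [← k1, add_eq_left] at k2
      exact absurd k2 hs

/-- Tiles `tL`, `tP`, `tH` force the shape `CD.W`. -/
theorem exists_cd (hm : 2 ≤ m) (hP : ∀ i, 1 < P i) (hc : ∀ i, Nat.Coprime m (P i))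
    (W : ℤ → KK m P) (hL : Solves (Gr W) (lift0 m P (tL m)))
    (hp : Solves (Gr W) (lift0 m P (tP m)))
    (hH : ∀ i, Solves (Gr W) (lift1 m P i (tH m (P i)))) : ∃ D : CD m P, W = D.W := by
  have : NeZero m := ⟨by omega⟩
  classical
  have hL' : Solves (Gr fun x => (W x).1) (tL m) := (gr_lift0 (X := Unit) W _).1 hL
  have hp' : Solves (Gr fun x => (W x).1) (tP m) := (gr_lift0 (X := Unit) W _).1 hp
  have hH' : ∀ i, Solves (Gr fun x => ((W x).1, (W x).2 i)) (tH m (P i)) :=
    fun i => (gr_lift1 W i _).1 (hH i)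
  have hs : ∀ i, ((m ^ 2 : ℕ) : ZMod (P i)) ≠ 0 := by
    intro i h
    rw [ZMod.natCast_eq_zero_iff] at h
    have h1 : Nat.Coprime (m ^ 2) (P i) := Nat.Coprime.pow_left 2 (hc i)
    have h2 := Nat.Coprime.eq_one_of_dvd h1.symm h
    have := hP i
    omega
  have hlow : ∀ x t : ℤ, rcd_pi m (W (x + m * t)).1 = rcd_pi m (W x).1 + (t : ZMod m) := by
    intro x t
    have hL2 := rcd_L _ hL'
    have h1 : ∀ x : ℤ, rcd_pi m (W (x + m)).1 = rcd_pi m (W x).1 + 1 := by
      intro x
      have := hL2 (x + m)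
      rw [add_sub_cancel_right] at this
      exact this
    rw [rcd_prog (fun x => rcd_pi m (W x).1) (m : ℤ) (fun x => by
      rw [h1 x, hL2 x]
      ring) x t]
    rw [h1 x]
    simp only [add_sub_cancel_left, zsmul_eq_mul, mul_one]
  have hper : ∀ x t : ℤ, (W (x + (m : ℤ) ^ 2 * t)).1 = (W x).1 := by
    intro x t
    have hP2 := rcd_P _ hp'
    have h1 : ∀ x : ℤ, (W (x + (m : ℤ) ^ 2)).1 = (W x).1 := by
      intro x
      have := hP2 (x + (m : ℤ) ^ 2)
      rw [add_sub_cancel_right] at this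
      exact this.symm
    rw [rcd_prog (fun x => (W x).1) ((m : ℤ) ^ 2) (fun x => by
      rw [h1 x, hP2 x]) x t]
    rw [h1 x]
    simp
  have hz : ∀ (i : Bool) (x t : ℤ), (W (x + (m : ℤ) ^ 2 * t)).2 i = (W x).2 i +
      t • ((W (x + (m : ℤ) ^ 2)).2 i - (W x).2 i) := by
    intro i x t
    have hH2 := rcd_H (hs i) (fun x => (W x).1) (fun x => (W x).2 i) (hH' i)
    refine rcd_prog (fun x => (W x).2 i) ((m : ℤ) ^ 2) (fun x => ?_) x t
    rcases hH2 x with ⟨h1, h2⟩ | ⟨h1, h2⟩
    · rw [h1, h2]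
    · rw [h1, h2]
      ring
  have hzc : ∀ (i : Bool) (x : ℤ), (W (x + (m : ℤ) ^ 2)).2 i = (W x).2 i ∨
      (W (x + (m : ℤ) ^ 2)).2 i = (W x).2 i + ((m ^ 2 : ℕ) : ZMod (P i)) := by
    intro i x
    rcases rcd_H (hs i) (fun x => (W x).1) (fun x => (W x).2 i) (hH' i) x with ⟨-, h2⟩ | ⟨-, h2⟩
    · exact Or.inl h2
    · exact Or.inr h2
  set κ : ZMod m → ZMod m := fun α => rcd_pi m (W (α.val : ℤ)).1 with hκ
  set pt : ZMod m → ZMod m → ℤ := fun k α => (α.val : ℤ) + m * ((k - κ α).val : ℤ) with hpt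
  set H : Bool → ZMod m → ZMod m → Bool := fun i k α =>
    decide ((W (pt k α + (m : ℤ) ^ 2)).2 i = (W (pt k α)).2 i + ((m ^ 2 : ℕ) : ZMod (P i))) with hHd
  refine ⟨⟨κ, fun k α => ((((W (pt k α)).1).val / m : ℕ) : ZMod m),
    fun i k α => (W (pt k α)).2 i - (if H i k α then ((pt k α : ℤ) : ZMod (P i)) else 0), H⟩, ?_⟩
  funext ξ
  have hval : (((ξ : ZMod m).val : ℕ) : ℤ) = ξ % m := ZMod.val_intCast ξ
  have hval2 : ((((ξ / m : ℤ) : ZMod m).val : ℕ) : ℤ) = (ξ / m) % m := ZMod.val_intCast _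
  have hlab : lab κ ξ - κ (ξ : ZMod m) = ((ξ / m : ℤ) : ZMod m) := by
    unfold lab
    ring
  have hξ : ξ = pt (lab κ ξ) (ξ : ZMod m) + (m : ℤ) ^ 2 * (ξ / m / m) := by
    rw [hpt]
    simp only
    rw [hlab, hval, hval2]
    have e1 := Int.emod_add_mul_ediv ξ m
    have e2 := Int.emod_add_mul_ediv (ξ / m) m
    calc ξ = ξ % m + m * (ξ / m) := e1.symm
      _ = ξ % m + m * ((ξ / m) % m + m * (ξ / m / m)) := by rw [e2]
      _ = _ := by ring
  set q := pt (lab κ ξ) (ξ : ZMod m) with hq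
  set t := ξ / m / m with ht
  have hWq : rcd_pi m (W q).1 = lab κ ξ := by
    have h1 : q = ((ξ : ZMod m).val : ℤ) + m * ((lab κ ξ - κ (ξ : ZMod m)).val : ℤ) := rfl
    rw [h1, hlow]
    rw [Int.cast_natCast, ZMod.natCast_zmod_val]
    rw [hκ]
    ring
  refine Prod.ext ?_ ?_
  · change (W ξ).1 = rowE κ _ ξ
    unfold rowE
    simp only
    rw [← hq]
    have h2 : (W ξ).1 = (W q).1 := by
      conv_lhs => rw [hξ]
      exact hper q t
    rw [h2]
    rw [← hWq, rcd_pi_val, ZMod.val_natCast, ZMod.val_natCast]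
    have hlt : (W q).1.val < m ^ 2 := ZMod.val_lt _
    have hlt2 : (W q).1.val / m < m := by
      rw [Nat.div_lt_iff_lt_mul (by omega)]
      nlinarith only [hlt]
    rw [Nat.mod_eq_of_lt hlt2, Nat.mod_add_div, ZMod.natCast_zmod_val]
  · funext i
    change (W ξ).2 i = rowZ κ _ _ ξ
    unfold rowZ
    simp only
    rw [← hq]
    have h2 : (W ξ).2 i = (W q).2 i + t • ((W (q + (m : ℤ) ^ 2)).2 i - (W q).2 i) := by
      conv_lhs => rw [hξ]
      exact hz i q t
    have h3 : H i (lab κ ξ) (ξ : ZMod m) = decide ((W (q + (m : ℤ) ^ 2)).2 i =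
      (W q).2 i + ((m ^ 2 : ℕ) : ZMod (P i))) := rfl
    rw [h2]
    by_cases hh : (W (q + (m : ℤ) ^ 2)).2 i = (W q).2 i + ((m ^ 2 : ℕ) : ZMod (P i))
    · have h3' : H i (lab κ ξ) (ξ : ZMod m) = true := by
        rw [h3]
        exact decide_eq_true hh
      simp only [h3', if_true]
      rw [hh]
      have h4 : ((ξ : ℤ) : ZMod (P i)) = (q : ZMod (P i)) + ((m ^ 2 : ℕ) : ZMod (P i)) * t := by
        conv_lhs => rw [hξ]
        push_cast
        ring
      rw [h4, zsmul_eq_mul]
      ring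
    · rcases hzc i q with h5 | h5
      · have h3' : H i (lab κ ξ) (ξ : ZMod m) = false := by
          rw [h3]
          exact decide_eq_false hh
        rw [h5]
        simp only [sub_self, smul_zero, add_zero, h3', Bool.false_eq_true, ↓reduceIte, sub_zero]
      · exact absurd h5 hh

end Vale.Agent.P043.Z
end
end

section

section

/-!
# The bijectivity tile
-/

namespace Vale.Agent.P043.Z

open Vale.Agent.P043

variable {m : ℕ} {P : Bool → ℕ}

/-- The row function has period `m ^ 2`. -/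
theorem rowG_rowE_congr (hm : 2 ≤ m) (κ : ZMod m → ZMod m) (b : ZMod m → ZMod m → ZMod m)
    {ξ ξ' : ℤ} (h : (ξ : ZMod (m ^ 2)) = (ξ' : ZMod (m ^ 2))) : rowE κ b ξ = rowE κ b ξ' := by
  obtain ⟨t, ht⟩ : ∃ t : ℤ, ξ' = ξ + (m : ℤ) * ((m : ℤ) * t) := by
    have h1 := (ZMod.intCast_eq_intCast_iff_dvd_sub ξ ξ' (m ^ 2)).mp h
    obtain ⟨t, ht⟩ := h1
    refine ⟨t, ?_⟩
    push_cast at ht
    linarith only [ht]
  have hm0 : (m : ℤ) ≠ 0 := by exact_mod_cast (by omega : m ≠ 0)
  have e1 : (ξ' : ZMod m) = (ξ : ZMod m) := by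
    rw [ht]; push_cast; simp only [CharP.cast_eq_zero, zero_mul, mul_zero, add_zero]
  have e2 : ((ξ' / (m : ℤ) : ℤ) : ZMod m) = ((ξ / (m : ℤ) : ℤ) : ZMod m) := by
    rw [ht, Int.add_mul_ediv_left _ _ hm0]
    push_cast; simp only [CharP.cast_eq_zero, zero_mul, add_zero]
  have e3 : lab κ ξ' = lab κ ξ := by
    unfold lab
    rw [e1, e2]
  unfold rowE
  rw [e3, e1]

/-- `tG` means that `j ↦ j + e(j)` is bijective modulo `m^2`. -/
theorem solves_tG_iff (hm : 2 ≤ m) (D : CD m P) : Solves (Gr D.W) (lift0 m P (tG m)) ↔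
    ∀ y : ZMod (m ^ 2), ∃! j : ZMod (m ^ 2), j + rowE D.κ D.b (j.val : ℤ) = y := by
  have : NeZero m := ⟨by omega⟩
  have : NeZero (m ^ 2) := ⟨by positivity⟩
  rw [gr_lift0 (X := Unit)]
  have key : ∀ (x : ℤ) (k j : ZMod (m ^ 2)),
      ((x, k) : ℤ × ZMod (m ^ 2)) - tG m j ∈ Gr (fun x => (D.W x).1) ↔
        (j + (x : ZMod (m ^ 2))) +
          rowE D.κ D.b (((j + (x : ZMod (m ^ 2))).val : ℕ) : ℤ) = k + (x : ZMod (m ^ 2)) := by
    intro x k j
    have h1 : rowE D.κ D.b (((j + (x : ZMod (m ^ 2))).val : ℕ) : ℤ) =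
        rowE D.κ D.b (x + (j.val : ℤ)) := by
      apply rowG_rowE_congr hm
      push_cast
      rw [ZMod.natCast_zmod_val, ZMod.natCast_zmod_val, add_comm]
    rw [h1]
    change k - j = rowE D.κ D.b (x - -(j.val : ℤ)) ↔ _
    rw [sub_neg_eq_add]
    constructor
    · intro h
      rw [← h]; ring
    · intro h
      linear_combination -h
  constructor
  · intro h y
    obtain ⟨j, hj, hu⟩ := h (0, y)
    have k0 : ∀ j, ((0, y) : ℤ × ZMod (m ^ 2)) - tG m j ∈ Gr (fun x => (D.W x).1) ↔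
        j + rowE D.κ D.b (j.val : ℤ) = y := by
      intro j
      have := key 0 y j
      simpa only [ZMod.natCast_val, Int.cast_zero, add_zero] using this
    exact ⟨j, (k0 j).mp hj, fun j' hj' => hu j' ((k0 j').mpr hj')⟩
  · rintro h ⟨x, k⟩
    obtain ⟨j, hj, hu⟩ := h (k + (x : ZMod (m ^ 2)))
    refine ⟨j - (x : ZMod (m ^ 2)), ?_, ?_⟩
    · change ((x, k) : ℤ × ZMod (m ^ 2)) - tG m _ ∈ Gr (fun x => (D.W x).1)
      rw [key, sub_add_cancel]
      exact hj
    · intro j' hj'
      have h1 := (key x k j').mp hj'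
      exact eq_sub_of_add_eq (hu _ h1)

end Vale.Agent.P043.Z
end
end

section

section

/-!
# The sum rule
-/

namespace Vale.Agent.P043.Z

open Vale.Agent.P043

variable {m : ℕ} {P : Bool → ℕ}

theorem srule_carry [NeZero m] (s α : ZMod m) :
    α.val + (s - α).val = s.val + m * (if s.val < α.val then 1 else 0) := by
  have h0 : α + (s - α) = s := by ring
  by_cases h : α.val + (s - α).val < m
  · have h1 := ZMod.val_add_of_lt h
    rw [h0] at h1
    rw [if_neg (by omega)]
    omega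
  · have h1 := ZMod.val_add_val_of_le (not_lt.mp h)
    rw [h0] at h1
    have h2 := ZMod.val_lt (s - α)
    rw [if_pos (by omega)]
    omega

/-- the sum of the carries -/
theorem srule_carry_sum [NeZero m] (s : ZMod m) :
    m * (s.val + ∑ α : ZMod m, (if s.val < α.val then 1 else 0)) =
      2 * ∑ α : ZMod m, α.val := by
  have h1 : ∑ α : ZMod m, (α.val + (s - α).val) =
      ∑ α : ZMod m, (s.val + m * (if s.val < α.val then 1 else 0)) :=
    Finset.sum_congr rfl fun α _ => srule_carry s α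
  rw [Finset.sum_add_distrib, Finset.sum_add_distrib, Finset.sum_const, ← Finset.mul_sum,
    Finset.card_univ, ZMod.card, smul_eq_mul] at h1
  have h2 : ∑ α : ZMod m, (s - α).val = ∑ α : ZMod m, α.val :=
    Equiv.sum_comp (Equiv.subLeft s) (fun α : ZMod m => α.val)
  rw [h2] at h1
  rw [mul_add, ← h1]
  ring

/-- position of the point of residue `α` and offset `t` -/
theorem srule_lab [NeZero m] (κ : ZMod m → ZMod m) (α t : ZMod m) :
    lab κ ((α.val + m * t.val : ℕ) : ℤ) = κ α + t ∧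
      ((((α.val + m * t.val : ℕ) : ℤ)) : ZMod m) = α := by
  have hm : 0 < m := NeZero.pos m
  have h1 : ((((α.val + m * t.val : ℕ) : ℤ)) : ZMod m) = α := by
    push_cast
    rw [ZMod.natCast_self, zero_mul, add_zero, ZMod.natCast_val, ZMod.cast_id]
  have h2 : (((α.val + m * t.val : ℕ) : ℤ)) / (m : ℤ) = ((t.val : ℕ) : ℤ) := by
    rw [← Int.natCast_ediv, Nat.add_mul_div_left _ _ hm, Nat.div_eq_of_lt (ZMod.val_lt α), zero_add]
  refine ⟨?_, h1⟩
  unfold lab
  rw [h1, h2, Int.cast_natCast, ZMod.natCast_val, ZMod.cast_id]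

theorem srule_val_lt [NeZero m] (α t : ZMod m) : α.val + m * t.val < m ^ 2 := by
  have h1 := ZMod.val_lt α
  have h2 : t.val + 1 ≤ m := ZMod.val_lt t
  calc α.val + m * t.val < m + m * t.val := by omega
    _ = m * (t.val + 1) := by ring
    _ ≤ m * m := Nat.mul_le_mul_left m h2
    _ = m ^ 2 := by ring

theorem srule_cast {A B : ℕ} (h : (A : ZMod m) = (B : ZMod m)) :
    ((m * A : ℕ) : ZMod (m ^ 2)) = ((m * B : ℕ) : ZMod (m ^ 2)) := by
  rw [ZMod.natCast_eq_natCast_iff] at h ⊢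
  rw [pow_two]
  exact h.mul_left' m

/-- the digit function -/
def sruleG (κ : ZMod m → ZMod m) (b : ZMod m → ZMod m → ZMod m) (s α : ZMod m) : ZMod m :=
  (if s.val < α.val then 1 else 0) + (s - α - κ α) + b (s - α) α

theorem srule_inj [NeZero m] (hm : 2 ≤ m) (κ : ZMod m → ZMod m) (b : ZMod m → ZMod m → ZMod m)
    (hG : ∀ y : ZMod (m ^ 2), ∃! j : ZMod (m ^ 2), j + rowE κ b (j.val : ℤ) = y) (s : ZMod m) :
    Function.Injective (sruleG κ b s) := by
  have : NeZero (m ^ 2) := ⟨pow_ne_zero 2 (NeZero.ne m)⟩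
  have key : ∀ α : ZMod m,
      ((α.val + m * (s - α - κ α).val : ℕ) : ZMod (m ^ 2)) +
        rowE κ b ((((α.val + m * (s - α - κ α).val : ℕ) : ZMod (m ^ 2)).val : ℕ) : ℤ) =
      ((s.val : ℕ) : ZMod (m ^ 2)) + ((m * (sruleG κ b s α).val : ℕ) : ZMod (m ^ 2)) := by
    intro α
    rw [ZMod.val_natCast_of_lt (srule_val_lt α _)]
    obtain ⟨h1, h2⟩ := srule_lab κ α (s - α - κ α)
    have h3 : κ α + (s - α - κ α) = s - α := by ring
    unfold rowE
    rw [h1, h2, h3]
    have h4 : ((m * (sruleG κ b s α).val : ℕ) : ZMod (m ^ 2)) =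
        ((m * ((if s.val < α.val then 1 else 0) + (s - α - κ α).val + (b (s - α) α).val) : ℕ) :
          ZMod (m ^ 2)) := by
      apply srule_cast
      rw [ZMod.natCast_val, ZMod.cast_id]
      push_cast
      simp only [ZMod.natCast_val, ZMod.cast_id', id_eq]
      rfl
    rw [h4, ← Nat.cast_add, ← Nat.cast_add]
    congr 1
    have h5 := srule_carry s α
    calc α.val + m * (s - α - κ α).val + ((s - α).val + m * (b (s - α) α).val)
        = (α.val + (s - α).val) + m * (s - α - κ α).val + m * (b (s - α) α).val := by ring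
      _ = _ := by rw [h5]; ring
  intro α α' h
  have e1 := key α
  have e2 := key α'
  rw [h, ← e2] at e1
  have e3 := (hG _).unique e1 rfl
  have e4 := congrArg ZMod.val e3
  rw [ZMod.val_natCast_of_lt (srule_val_lt α _), ZMod.val_natCast_of_lt (srule_val_lt α' _)] at e4
  have e5 := congrArg (fun n : ℕ => (((n : ℕ) : ℤ) : ZMod m)) e4
  exact ((srule_lab κ α _).2.symm.trans e5).trans (srule_lab κ α' _).2

/-- The sum rule. -/
theorem sum_rule [NeZero m] (hm : 2 ≤ m) (κ : ZMod m → ZMod m) (b : ZMod m → ZMod m → ZMod m)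
    (hG : ∀ y : ZMod (m ^ 2), ∃! j : ZMod (m ^ 2), j + rowE κ b (j.val : ℤ) = y) (s : ZMod m) :
    US b (s + 1) = US b s + 1 := by
  have hsum : ∀ t : ZMod m, ∑ α, sruleG κ b t α = ∑ α : ZMod m, α := by
    intro t
    have hb : Function.Bijective (sruleG κ b t) :=
      Finite.injective_iff_bijective.mp (srule_inj hm κ b hG t)
    exact Equiv.sum_comp (Equiv.ofBijective _ hb) (fun α : ZMod m => α)
  have hexp : ∀ t : ZMod m, ∑ α, sruleG κ b t α =
      ((∑ α : ZMod m, (if t.val < α.val then 1 else 0) : ℕ) : ZMod m) -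
        ∑ α : ZMod m, α - ∑ α, κ α + US b t := by
    intro t
    unfold sruleG US
    rw [Finset.sum_add_distrib, Finset.sum_add_distrib, Finset.sum_sub_distrib,
      Finset.sum_sub_distrib, Finset.sum_const, Finset.card_univ, ZMod.card, nsmul_eq_mul,
      ZMod.natCast_self, zero_mul]
    push_cast
    ring
  have hc : ∀ t : ZMod m,
      t + ((∑ α : ZMod m, (if t.val < α.val then 1 else 0) : ℕ) : ZMod m) =
      s + ((∑ α : ZMod m, (if s.val < α.val then 1 else 0) : ℕ) : ZMod m) := by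
    intro t
    have h1 := (srule_carry_sum t).trans (srule_carry_sum s).symm
    have h2 := Nat.eq_of_mul_eq_mul_left (NeZero.pos m) h1
    have h3 := congrArg (fun n : ℕ => (n : ZMod m)) h2
    simp only [Nat.cast_add, ZMod.natCast_val, ZMod.cast_id', id_eq] at h3
    exact h3
  have a1 := hsum (s + 1)
  have a2 := hsum s
  rw [hexp] at a1 a2
  have a3 := hc (s + 1)
  linear_combination a1 - a2 - a3
end Vale.Agent.P043.Z
end
end

section

section

/-!
# Acceptance of two-frame tiles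
-/

namespace Vale.Agent.P043.Z

open Vale.Agent.P043

variable {m : ℕ} {P : Bool → ℕ}

/-- unique existence along a map with injective fibres -/
theorem tiff_existsUnique {J A : Type*} {S : J → Prop} {Q : A → Prop} (r : J → A)
    (h : ∀ a, Q a ↔ ∃ j, S j ∧ r j = a) (hinj : ∀ j j', S j → S j' → r j = r j' → j = j') :
    (∃! j, S j) ↔ ∃! a, Q a := by
  constructor
  · rintro ⟨j, hj, hu⟩
    refine ⟨r j, (h _).2 ⟨j, hj, rfl⟩, fun a ha => ?_⟩
    obtain ⟨j', hj', rfl⟩ := (h a).1 ha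
    rw [hu j' hj']
  · rintro ⟨a, ha, hu⟩
    obtain ⟨j, hj, hja⟩ := (h a).1 ha
    refine ⟨j, hj, fun j' hj' => hinj j' j hj' hj ?_⟩
    rw [hja]
    exact hu _ ((h _).2 ⟨j', hj', rfl⟩)

theorem tiff_lt [NeZero m] (k b : ZMod m) : k.val + m * b.val < m ^ 2 := by
  have h1 := k.val_lt
  have h2 := b.val_lt
  have h3 : m * b.val ≤ m * (m - 1) := Nat.mul_le_mul_left _ (by omega)
  have h4 : m * (m - 1) + m = m ^ 2 := by
    obtain ⟨c, rfl⟩ : ∃ c, m = c + 1 := ⟨m - 1, by have := NeZero.pos m; omega⟩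
    simp only [Nat.add_sub_cancel]
    ring
  omega

theorem tiff_inj [NeZero m] {k b k' b' : ZMod m}
    (h : ((k.val + m * b.val : ℕ) : ZMod (m ^ 2)) = ((k'.val + m * b'.val : ℕ) : ZMod (m ^ 2))) :
    k = k' ∧ b = b' := by
  have hm : 0 < m := NeZero.pos m
  have h1 := tiff_lt k b
  have h2 := tiff_lt k' b'
  have h3 : k.val + m * b.val = k'.val + m * b'.val := by
    have h4 := (ZMod.natCast_eq_natCast_iff' _ _ _).1 h
    rwa [Nat.mod_eq_of_lt h1, Nat.mod_eq_of_lt h2] at h4
  have hk : k.val = k'.val := by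
    have h4 := congrArg (· % m) h3
    simp only [Nat.add_mul_mod_self_left] at h4
    rwa [Nat.mod_eq_of_lt k.val_lt, Nat.mod_eq_of_lt k'.val_lt] at h4
  have hb : b.val = b'.val := by
    rw [hk] at h3
    exact Nat.eq_of_mul_eq_mul_left hm (Nat.add_left_cancel h3)
  exact ⟨ZMod.val_injective m hk, ZMod.val_injective m hb⟩

theorem tiff_digits [NeZero m] (e : ZMod (m ^ 2)) :
    ∃ k b : ZMod m, e = ((k.val + m * b.val : ℕ) : ZMod (m ^ 2)) := by
  have hm : 0 < m := NeZero.pos m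
  have : NeZero (m ^ 2) := ⟨by positivity⟩
  have he := e.val_lt
  refine ⟨(e.val : ZMod m), ((e.val / m : ℕ) : ZMod m), ?_⟩
  rw [ZMod.val_natCast, ZMod.val_natCast, Nat.mod_eq_of_lt (a := e.val / m)]
  · rw [Nat.mod_add_div, ZMod.natCast_zmod_val]
  · rw [Nat.div_lt_iff_lt_mul hm, ← pow_two]
    exact he

theorem tiff_sub [NeZero m] (k b β : ZMod m) :
    ((k.val + m * b.val : ℕ) : ZMod (m ^ 2)) - ((m * β.val : ℕ) : ZMod (m ^ 2)) =
      ((k.val + m * (b - β).val : ℕ) : ZMod (m ^ 2)) := by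
  rw [sub_eq_iff_eq_add, ← Nat.cast_add, ZMod.natCast_eq_natCast_iff]
  have h1 : b.val ≡ (b - β).val + β.val [MOD m] := by
    have h2 := ZMod.val_add (b - β) β
    rw [sub_add_cancel] at h2
    rw [h2]
    exact Nat.mod_modEq _ _
  have h2 : m * b.val ≡ m * ((b - β).val + β.val) [MOD m ^ 2] := by
    rw [pow_two]
    exact Nat.ModEq.mul_left' m h1
  calc k.val + m * b.val ≡ k.val + m * ((b - β).val + β.val) [MOD m ^ 2] := h2.add_left _
    _ = _ := by ring

/-- positions with given residue and label -/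
theorem tiff_class [NeZero m] (κ : ZMod m → ZMod m) (x0 : ℤ) (a k : ZMod m) :
    ∃ i : ℤ, (i : ZMod m) = a ∧ ∀ Ξ : ℤ, (Ξ : ZMod m) = a →
      (lab κ (x0 - Ξ) = k ↔ (Ξ : ZMod (m ^ 2)) = (i : ZMod (m ^ 2))) := by
  have hm : 0 < m := NeZero.pos m
  have hmz : (m : ℤ) ≠ 0 := by exact_mod_cast hm.ne'
  set q0 : ℤ := (x0 - a.val) / m with hq0
  set t0 : ZMod m := κ ((x0 : ZMod m) - a) + (q0 : ZMod m) - k with ht0
  refine ⟨a.val + m * t0.val, ?_, fun Ξ hΞ => ?_⟩
  · push_cast
    simp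
  · obtain ⟨s, hs⟩ : (m : ℤ) ∣ Ξ - a.val := by
      rw [← ZMod.intCast_zmod_eq_zero_iff_dvd]
      push_cast
      rw [hΞ, ZMod.natCast_zmod_val, sub_self]
    have hΞ' : Ξ = a.val + m * s := by linarith only [hs]
    have h1 : ((x0 - Ξ) / m : ℤ) = q0 - s := by
      have : x0 - Ξ = (x0 - a.val) + m * (-s) := by rw [hΞ']; ring
      rw [this, Int.add_mul_ediv_left _ _ hmz, ← hq0]
      ring
    have h2 : ((x0 - Ξ : ℤ) : ZMod m) = (x0 : ZMod m) - a := by
      push_cast
      rw [hΞ]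
    have h3 : lab κ (x0 - Ξ) = k ↔ (s : ZMod m) = t0 := by
      unfold lab
      rw [h1, h2, ht0]
      push_cast
      constructor
      · intro h
        rw [← h]
        ring
      · intro h
        rw [h]
        ring
    rw [h3, hΞ']
    have h4 : (s : ZMod m) = t0 ↔ (m : ℤ) ∣ s - t0.val := by
      rw [← ZMod.intCast_zmod_eq_zero_iff_dvd]
      push_cast
      rw [ZMod.natCast_zmod_val, sub_eq_zero]
    have h5 : (((a.val : ℤ) + m * s : ℤ) : ZMod (m ^ 2)) =
        (((a.val : ℤ) + m * t0.val : ℤ) : ZMod (m ^ 2)) ↔ ((m ^ 2 : ℕ) : ℤ) ∣ m * (s - t0.val) := by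
      rw [← sub_eq_zero, ← Int.cast_sub, ZMod.intCast_zmod_eq_zero_iff_dvd]
      have : (a.val : ℤ) + m * s - (a.val + m * t0.val) = m * (s - t0.val) := by ring
      rw [this]
    rw [h4, h5]
    push_cast
    rw [pow_two]
    exact (mul_dvd_mul_iff_left hmz).symm

/-- acceptance of the two-frame tile -/
theorem solves_T_iff [NeZero m] (hm : 2 ≤ m) (i : Bool) (hp : 1 < P i)
    (hc : Nat.Coprime m (P i)) (J : JData m (P i))
    (τ : ZMod (m ^ 2) × ZMod (P i) → ℤ × (ZMod (m ^ 2) × ZMod (P i))) (hτ : IsT J τ)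
    (D : CD m P) : Solves (Gr D.W) (lift1 m P i τ) ↔ Acc J D.b (D.ζ i) (D.h i) := by
  rw [gr_lift1]
  obtain ⟨β, j0, j1, hτ2, hτ1, hJ0, hJ1, hinj⟩ := hτ
  have hcast : ∀ z w : ℤ, (z : ZMod (m ^ 2)) = (w : ZMod (m ^ 2)) → (z : ZMod m) = (w : ZMod m) := by
    intro z w h
    have h1 := congrArg (ZMod.castHom (dvd_pow_self m (by norm_num : (2 : ℕ) ≠ 0)) (ZMod m)) h
    simpa only [map_intCast] using h1
  have key : ∀ (x0 : ℤ) (k b0 : ZMod m) (z0 : ZMod (P i)),
      (∃! j, ((x0, (((k.val + m * b0.val : ℕ) : ZMod (m ^ 2)), z0)) :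
          ℤ × (ZMod (m ^ 2) × ZMod (P i))) - τ j ∈ Gr fun x => ((D.W x).1, (D.W x).2 i)) ↔
      ∃! a : ZMod m,
        z0 - D.ζ i k ((x0 : ZMod m) - a) -
          (if D.h i k ((x0 : ZMod m) - a) then (x0 : ZMod (P i)) else 0) ∈
          J.J (D.h i k ((x0 : ZMod m) - a)) a (b0 - D.b k ((x0 : ZMod m) - a)) := by
    intro x0 k b0 z0
    have hS : ∀ j, ((x0, (((k.val + m * b0.val : ℕ) : ZMod (m ^ 2)), z0)) :
          ℤ × (ZMod (m ^ 2) × ZMod (P i))) - τ j ∈ (Gr fun x => ((D.W x).1, (D.W x).2 i)) ↔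
        lab D.κ (x0 - (τ j).1) = k ∧
        β j = b0 - D.b k ((x0 : ZMod m) - (((τ j).1 : ℤ) : ZMod m)) ∧
        (if D.h i k ((x0 : ZMod m) - (((τ j).1 : ℤ) : ZMod m)) then j1 j else j0 j) =
          z0 - D.ζ i k ((x0 : ZMod m) - (((τ j).1 : ℤ) : ZMod m)) -
          (if D.h i k ((x0 : ZMod m) - (((τ j).1 : ℤ) : ZMod m)) then (x0 : ZMod (P i)) else 0) := by
      intro j
      have hx : ((x0 - (τ j).1 : ℤ) : ZMod m) = (x0 : ZMod m) - (((τ j).1 : ℤ) : ZMod m) := by
        push_cast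
        rfl
      have h1 : ((x0, (((k.val + m * b0.val : ℕ) : ZMod (m ^ 2)), z0)) :
          ℤ × (ZMod (m ^ 2) × ZMod (P i))) - τ j ∈ (Gr fun x => ((D.W x).1, (D.W x).2 i)) ↔
          (((k.val + m * (b0 - β j).val : ℕ) : ZMod (m ^ 2)) = rowE D.κ D.b (x0 - (τ j).1) ∧
            z0 - j0 j = rowZ D.κ (D.ζ i) (D.h i) (x0 - (τ j).1)) := by
        rw [← tiff_sub]
        show (_ : ZMod (m ^ 2) × ZMod (P i)) = _ ↔ _
        rw [Prod.ext_iff]
        simp only [Prod.snd_sub, Prod.fst_sub, hτ2]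
        rfl
      rw [h1]
      unfold rowE rowZ
      rw [hx]
      constructor
      · rintro ⟨h2, h3⟩
        obtain ⟨h4, h5⟩ := tiff_inj h2
        refine ⟨h4.symm, ?_, ?_⟩
        · rw [h4, ← h5]
          ring
        · rw [← h4] at h3
          by_cases hh : D.h i k ((x0 : ZMod m) - (((τ j).1 : ℤ) : ZMod m)) = true
          · simp only [hh, if_true] at h3 ⊢
            push_cast at h3
            rw [hτ1] at h3
            linear_combination -h3
          · simp only [hh] at h3 ⊢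
            simp only [Bool.false_eq_true, if_false] at h3 ⊢
            linear_combination -h3
      · rintro ⟨h2, h3, h4⟩
        rw [h2]
        refine ⟨?_, ?_⟩
        · rw [h3]
          congr 4
          ring
        · by_cases hh : D.h i k ((x0 : ZMod m) - (((τ j).1 : ℤ) : ZMod m)) = true
          · simp only [hh, if_true] at h4 ⊢
            push_cast
            rw [hτ1]
            linear_combination -h4
          · simp only [hh] at h4 ⊢
            simp only [Bool.false_eq_true, if_false] at h4 ⊢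
            linear_combination -h4
    refine tiff_existsUnique (fun j => (((τ j).1 : ℤ) : ZMod m)) (fun a => ?_) ?_
    · obtain ⟨ia, hia, hcl⟩ := tiff_class D.κ x0 a k
      have hJ : ∀ (h : Bool) (b : ZMod m) (x : ZMod (P i)), x ∈ J.J h a b ↔
          ∃ j, (((τ j).1 : ℤ) : ZMod (m ^ 2)) = (ia : ZMod (m ^ 2)) ∧ β j = b ∧
            (if h then j1 j else j0 j) = x := by
        intro h b x
        cases h
        · have := hJ0 ia b x
          rw [hia] at this
          simpa only [Bool.false_eq_true, ↓reduceIte, Prod.exists] using this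
        · have := hJ1 ia b x
          rw [hia] at this
          simpa only [↓reduceIte, Prod.exists] using this
      rw [hJ]
      constructor
      · rintro ⟨j, h1, h2, h3⟩
        have hja : (((τ j).1 : ℤ) : ZMod m) = a := (hcast _ _ h1).trans hia
        refine ⟨j, (hS j).2 ?_, hja⟩
        rw [hja]
        exact ⟨(hcl _ hja).2 h1, h2, h3⟩
      · rintro ⟨j, h1, hja⟩
        have h2 := (hS j).1 h1
        rw [hja] at h2
        exact ⟨j, (hcl _ hja).1 h2.1, h2.2.1, h2.2.2⟩
    · intro j j' hj hj' hjj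
      obtain ⟨h1, h2, h3⟩ := (hS j).1 hj
      obtain ⟨h1', h2', h3'⟩ := (hS j').1 hj'
      obtain ⟨ia, hia, hcl⟩ := tiff_class D.κ x0 (((τ j).1 : ℤ) : ZMod m) k
      have e1 := (hcl _ rfl).1 h1
      have e2 := (hcl _ hjj.symm).1 h1'
      refine hinj j j' (e1.trans e2.symm) ?_ ?_
      · rw [h2, h2', hjj]
      · rw [hjj] at h3
        have h4 := h3.trans h3'.symm
        by_cases hh : D.h i k ((x0 : ZMod m) - (((τ j').1 : ℤ) : ZMod m)) = true
        · simp only [hh, if_true] at h4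
          exact Or.inr h4
        · simp only [hh] at h4
          simp only [Bool.false_eq_true, if_false] at h4
          exact Or.inl h4
  constructor
  · intro h x0 k b0 z0
    exact (key x0 k b0 z0).1 (h _)
  · rintro h ⟨x0, e0, z0⟩
    obtain ⟨k, b0, rfl⟩ := tiff_digits e0
    exact (key x0 k b0 z0).2 (h x0 k b0 z0)

end Vale.Agent.P043.Z
end
end

section

section

/-!
# Powers of two form a Sidon set
-/

namespace Vale.Agent.P043.Z

open Vale.Agent.P043

theorem sidon_nat {a b c d : ℕ} (hab : a ≠ b) (h : 2 ^ a + 2 ^ d = 2 ^ b + 2 ^ c) :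
    a = c ∧ b = d := by
  have inj : ∀ x y : ℕ, (2 : ℕ) ^ x = 2 ^ y → x = y :=
    fun x y h => Nat.pow_right_injective le_rfl h
  have pos : ∀ x : ℕ, 0 < 2 ^ x := fun x => by positivity
  have mono : ∀ x y : ℕ, x < y → 2 ^ x * 2 ≤ 2 ^ y := by
    intro x y hxy
    rw [← pow_succ]
    exact Nat.pow_le_pow_right (by norm_num) hxy
  have pa := pos a
  have pb := pos b
  have pc := pos c
  have pd := pos d
  rcases lt_trichotomy a c with h1 | h1 | h1
  · exfalso
    have m1 := mono _ _ h1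
    rcases lt_trichotomy d c with h2 | h2 | h2
    · have m2 := mono _ _ h2
      omega
    · subst h2
      exact hab (inj _ _ (by omega))
    · have m2 := mono _ _ h2
      rcases lt_trichotomy b d with h3 | h3 | h3
      · have m3 := mono _ _ h3
        omega
      · subst h3
        have := inj a c (by omega)
        omega
      · have m3 := mono _ _ h3
        omega
  · subst h1
    exact ⟨rfl, (inj _ _ (by omega)).symm⟩
  · exfalso
    have m1 := mono _ _ h1
    rcases lt_trichotomy b a with h2 | h2 | h2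
    · have m2 := mono _ _ h2
      omega
    · exact hab h2.symm
    · have m2 := mono _ _ h2
      rcases lt_trichotomy d b with h3 | h3 | h3
      · have m3 := mono _ _ h3
        omega
      · subst h3
        have := inj a c (by omega)
        omega
      · have m3 := mono _ _ h3
        omega

theorem sidon_lt {L a : ℕ} (ha : a < L) : 2 ^ a * 2 ≤ 2 ^ L := by
  rw [← pow_succ]
  exact Nat.pow_le_pow_right (by norm_num) ha

/-- Sidon property of powers of two -/
theorem φ_sidon {p L : ℕ} (hp : 2 ^ (L + 1) < p) {a b c d : ℕ} (ha : a < L) (hb : b < L)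
    (hc : c < L) (hd : d < L) (hab : a ≠ b) (h : φ p a - φ p b = φ p c - φ p d) :
    a = c ∧ b = d := by
  apply sidon_nat hab
  have h1 : ((2 ^ a + 2 ^ d : ℕ) : ZMod p) = ((2 ^ b + 2 ^ c : ℕ) : ZMod p) := by
    unfold φ at h
    rw [Nat.cast_add, Nat.cast_add]
    linear_combination h
  have ka := sidon_lt ha
  have kb := sidon_lt hb
  have kc := sidon_lt hc
  have kd := sidon_lt hd
  have hp' : 2 ^ L < p := by
    rw [pow_succ] at hp
    omega
  have h2 := (ZMod.natCast_eq_natCast_iff _ _ _).1 h1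
  exact Nat.ModEq.eq_of_lt_of_lt h2 (by omega) (by omega)

theorem φ_inj {p L : ℕ} (hp : 2 ^ (L + 1) < p) {a b : ℕ} (ha : a < L) (hb : b < L)
    (h : φ p a = φ p b) : a = b := by
  have ka := sidon_lt ha
  have kb := sidon_lt hb
  have hp' : 2 ^ L < p := by
    rw [pow_succ] at hp
    omega
  unfold φ at h
  have h2 := (ZMod.natCast_eq_natCast_iff _ _ _).1 h
  have pa : 0 < 2 ^ a := by positivity
  have pb : 0 < 2 ^ b := by positivity
  have h3 : 2 ^ a = 2 ^ b := Nat.ModEq.eq_of_lt_of_lt h2 (by omega) (by omega)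
  exact Nat.pow_right_injective le_rfl h3

end Vale.Agent.P043.Z
end
end

section

section

/-!
# Forcing by star tiles
-/

namespace Vale.Agent.P043.Z

open Vale.Agent.P043

variable {m : ℕ}

/-- forcing -/
theorem star_force [NeZero m] (hm : 2 ≤ m) {p : ℕ} [NeZero p] (S : Star m)
    (hp : 2 ^ (S.L + 1) < p) (hmp : m < p) (hc : Nat.Coprime m p) (J : JData m p)
    (hJ : J.J = S.Jf p) (b : ZMod m → ZMod m → ZMod m) (ζ : ZMod m → ZMod m → ZMod p)
    (h : ZMod m → ZMod m → Bool) (hA : Acc J b ζ h) (k : ZMod m) :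
    ∃ (hk : Bool) (ζk : ZMod p), (∀ α, h k α = hk) ∧ (∀ α, ζ k α = ζk) ∧ S.Ok hk (b k) := by
  classical
  have _ := hm
  have _ := hmp
  -- the Chinese remainder theorem
  have hcrt : ∀ (x : ZMod m) (y : ZMod p), ∃ x0 : ℤ, (x0 : ZMod m) = x ∧ (x0 : ZMod p) = y := by
    intro x y
    obtain ⟨k0, h1, h2⟩ := Nat.chineseRemainder hc x.val y.val
    refine ⟨(k0 : ℤ), ?_, ?_⟩
    · rw [Int.cast_natCast, (ZMod.natCast_eq_natCast_iff _ _ _).2 h1, ZMod.natCast_zmod_val]
    · rw [Int.cast_natCast, (ZMod.natCast_eq_natCast_iff _ _ _).2 h2, ZMod.natCast_zmod_val]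
  -- the holonomy is constant
  have hconst : ∀ α₁ α₂, h k α₁ = false → h k α₂ = true → False := by
    intro α₁ α₂ e1 e2
    obtain ⟨y1, hy1⟩ := J.nonempty false (0 - α₁) (0 - b k α₁)
    obtain ⟨y2, hy2⟩ := J.nonempty true (0 - α₂) (0 - b k α₂)
    obtain ⟨x0, hx0, hx0'⟩ := hcrt 0 (ζ k α₁ + y1 - ζ k α₂ - y2)
    have h3 := (hA x0 k 0 (ζ k α₁ + y1)).unique
      (y₁ := 0 - α₁) (y₂ := 0 - α₂) (by
        rw [hx0]
        have e3 : (0 : ZMod m) - (0 - α₁) = α₁ := by ring
        rw [e3, e1]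
        simp only [Bool.false_eq_true, if_false, sub_zero, add_sub_cancel_left]
        exact hy1) (by
        rw [hx0]
        have e3 : (0 : ZMod m) - (0 - α₂) = α₂ := by ring
        rw [e3, e2]
        simp only [if_true]
        rw [hx0']
        have e4 : ζ k α₁ + y1 - ζ k α₂ - (ζ k α₁ + y1 - ζ k α₂ - y2) = y2 := by ring
        rw [e4]
        exact hy2)
    have h4 : α₁ = α₂ := by
      have h5 : (0 : ZMod m) - (0 - α₁) = 0 - (0 - α₂) := by rw [h3]
      simpa only [zero_sub, sub_neg_eq_add, zero_add] using h5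
    rw [h4, e2] at e1
    exact Bool.noConfusion e1
  have hk : ∀ α, h k α = h k 0 := by
    intro α
    rcases e1 : h k α with _ | _ <;> rcases e2 : h k 0 with _ | _
    · rfl
    · exact (hconst _ _ e1 e2).elim
    · exact (hconst _ _ e2 e1).elim
    · rfl
  set g := h k 0 with hg
  -- the reduced condition
  have hred : ∀ (x b0 : ZMod m) (z : ZMod p), ∃! a : ZMod m,
      z - ζ k (x - a) ∈ S.Jf p g a (b0 - b k (x - a)) := by
    intro x b0 z
    obtain ⟨x0, hx0, -⟩ := hcrt x 0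
    have h1 := hA x0 k b0 (z + (if g then (x0 : ZMod p) else 0))
    simp only [hx0, hk, hJ] at h1
    have h2 : ∀ a : ZMod m, z + (if g then (x0 : ZMod p) else 0) - ζ k (x - a) -
        (if g then (x0 : ZMod p) else 0) = z - ζ k (x - a) := by
      intro a
      ring
    simpa only [h2] using h1
  have hstar : ∀ x β a : ZMod m, a ≠ 0 → ∃ a', a' ≠ 0 ∧
      ζ k (x - a) + φ p (S.τ g a (β + b k x - b k (x - a))) = ζ k x + φ p (S.dl g β a') := by
    intro x β a ha
    have h1 := hred x (β + b k x) (ζ k (x - a) + φ p (S.τ g a (β + b k x - b k (x - a))))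
    by_contra hcon
    push Not at hcon
    apply ha
    apply h1.unique
    · change _ ∈ (if a = 0 then _ else _)
      rw [if_neg ha, Finset.mem_singleton]
      ring
    · change _ ∈ (if (0 : ZMod m) = 0 then _ else _)
      rw [if_pos rfl, Finset.mem_sdiff]
      refine ⟨Finset.mem_univ _, ?_⟩
      rw [Finset.mem_image]
      rintro ⟨a', ha', he⟩
      rw [Finset.mem_erase] at ha'
      apply hcon a' ha'.1
      rw [sub_zero, add_sub_cancel_right] at he
      rw [he]
      ring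
  -- the phase is constant
  have hζ : ∀ x a : ZMod m, a ≠ 0 → ζ k (x - a) = ζ k x := by
    intro x a ha
    by_contra hne
    obtain ⟨b1, b2, hb⟩ := S.nc g a ha
    obtain ⟨a1, ha1, h1⟩ := hstar x (b1 - b k x + b k (x - a)) a ha
    obtain ⟨a2, ha2, h2⟩ := hstar x (b2 - b k x + b k (x - a)) a ha
    have e1 : b1 - b k x + b k (x - a) + b k x - b k (x - a) = b1 := by ring
    have e2 : b2 - b k x + b k (x - a) + b k x - b k (x - a) = b2 := by ring
    rw [e1] at h1
    rw [e2] at h2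
    have h3 : φ p (S.dl g (b1 - b k x + b k (x - a)) a1) - φ p (S.τ g a b1) =
        φ p (S.dl g (b2 - b k x + b k (x - a)) a2) - φ p (S.τ g a b2) := by
      linear_combination h2 - h1
    have h4 := φ_sidon hp (S.dl_lt _ _ _) (S.τ_lt _ _ _) (S.dl_lt _ _ _) (S.τ_lt _ _ _)
      (fun h5 => hne (by
        rw [h5] at h1
        linear_combination h1)) h3
    exact hb h4.2
  have hζ' : ∀ α, ζ k α = ζ k 0 := by
    intro α
    by_cases h0 : α = 0
    · rw [h0]
    · have h1 := hζ α α h0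
      rw [sub_self] at h1
      exact h1.symm
  refine ⟨g, ζ k 0, hk, hζ', ?_⟩
  intro x β a ha
  obtain ⟨a', ha', h1⟩ := hstar x β a ha
  refine ⟨a', ha', ?_⟩
  rw [hζ' (x - a), hζ' x] at h1
  exact φ_inj hp (S.τ_lt _ _ _) (S.dl_lt _ _ _) (add_left_cancel h1)

end Vale.Agent.P043.Z
end
end

section

section

/-!
# Forcing in the bit block
-/

namespace Vale.Agent.P043.Z

open Vale.Agent.P043

/-- If all digit functions are affine with the same slope, the sum rule fails. -/
theorem bitNo_slope {m : ℕ} [NeZero m] (hm : 3 ≤ m) (b : ZMod m → ZMod m → ZMod m)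
    (hs : ∀ s, US b (s + 1) = US b s + 1) (c : ZMod m) (hc : ∀ k α, b k α = b k 0 + c * α) :
    False := by
  have h1 : ∀ s, US b s = (∑ β, b β 0) + c * ∑ α : ZMod m, α := by
    intro s
    rw [US, Finset.mul_sum]
    have h2 : (∑ α, b (s - α) α) = ∑ α, (b (s - α) 0 + c * α) :=
      Finset.sum_congr rfl fun α _ => hc _ _
    rw [h2, Finset.sum_add_distrib]
    congr 1
    exact Fintype.sum_equiv (Equiv.subLeft s) _ _ fun α => rfl
  have h3 := hs 0
  rw [h1, h1] at h3
  have h4 : (1 : ZMod m) = 0 := by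
    have h5 := h3
    exact (add_eq_left.mp h5.symm)
  have : Fact (1 < m) := ⟨by omega⟩
  exact one_ne_zero h4

/-- Labels of the rows over a position. -/
theorem bitNo_lab {m : ℕ} (hm : 3 ≤ m) {P : Bool → ℕ} {θ : ℤ}
    (hN : Num m P θ 1 (2 * m * m)) (κ : ZMod m → ZMod m) (ξ : ℤ) (c : ℕ) :
    lab κ (ξ - c * θ) = lab κ ξ - c := by
  have hm0 : (m : ℤ) ≠ 0 := by exact_mod_cast (by omega : m ≠ 0)
  have h1 : ((θ - m : ℤ) : ZMod (m ^ 2)) = 0 := by
    rw [Int.cast_sub, hN.θm]
    push_cast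
    ring
  obtain ⟨t, ht⟩ := (ZMod.intCast_zmod_eq_zero_iff_dvd _ _).1 h1
  have h2 : ξ - c * θ = ξ + (m : ℤ) * (-(c : ℤ) - m * (c * t)) := by
    have h3 : θ = m + (m : ℤ) ^ 2 * t := by
      push_cast at ht
      linarith only [ht]
    rw [h3]
    ring
  unfold lab
  rw [h2, Int.add_mul_ediv_left _ _ hm0]
  push_cast
  rw [ZMod.natCast_self]
  ring_nf

/-- Forcing in the bit block: one of the two prime coordinates is neutral on at most one residue
class. -/
theorem bit_no {m : ℕ} [NeZero m] (hm : 3 ≤ m) {P : Bool → ℕ} {θ : ℤ}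
    (S : Bool → Star m) (hN : Num m P θ 1 (2 * m * m)) [∀ i, NeZero (P i)]
    (hL : ∀ i, (S i).L = 2 * m * m)
    (h1 : ∀ i a b, (S i).τ true a b = pairLab m b (b + sg m i * a))
    (h2 : ∀ i b a, (S i).dl true b a = pairLab m b (b + a))
    (h3 : ∀ i a b, (S i).τ false a b = ordLab m (sg m i * a) (b - sg m i * a))
    (h4 : ∀ i b a, (S i).dl false b a = ordLab m a b)
    (J : (i : Bool) → JData m (P i)) (hJ : ∀ i, (J i).J = (S i).Jf (P i))
    (τ : (i : Bool) → ZMod (m ^ 2) × ZMod (P i) → ℤ × (ZMod (m ^ 2) × ZMod (P i)))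
    (hτ : ∀ i, IsT (J i) (τ i))
    (W : ℤ → KK m P) (hW : ∀ t ∈ rowTiles m P τ, Solves (Gr W) t) :
    ∃ (st : Bool) (g : ZMod (P st)), ∀ ξ : ℤ, Neu θ W st ξ → (ξ : ZMod (P st)) = g := by
  have hm2 : 2 ≤ m := by omega
  have hP : ∀ i, 1 < P i := fun i => lt_of_le_of_lt Nat.one_le_two_pow (hN.big i)
  have htH : ∀ i, Solves (Gr W) (lift1 m P i (tH m (P i))) := by
    intro i
    cases i
    · exact hW _ (by simp only [rowTiles, Set.mem_insert_iff, Set.mem_singleton_iff, true_or, or_true])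
    · exact hW _ (by simp only [rowTiles, Set.mem_insert_iff, Set.mem_singleton_iff, true_or, or_true])
  have htT : ∀ i, Solves (Gr W) (lift1 m P i (τ i)) := by
    intro i
    cases i
    · exact hW _ (by simp only [rowTiles, Set.mem_insert_iff, Set.mem_singleton_iff, true_or, or_true])
    · exact hW _ (by simp only [rowTiles, Set.mem_insert_iff, Set.mem_singleton_iff, or_true])
  obtain ⟨D, hD⟩ := exists_cd hm2 hP hN.co W (hW _ (by simp only [rowTiles, Set.mem_insert_iff, Set.mem_singleton_iff, true_or]))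
    (hW _ (by simp only [rowTiles, Set.mem_insert_iff, Set.mem_singleton_iff, true_or, or_true])) htH
  have hG := (solves_tG_iff hm2 D).1 (by
    rw [← hD]
    exact hW _ (by simp only [rowTiles, Set.mem_insert_iff, Set.mem_singleton_iff, true_or, or_true]))
  have hsum := sum_rule hm2 D.κ D.b hG
  have hAcc : ∀ i, Acc (J i) D.b (D.ζ i) (D.h i) := fun i =>
    (solves_T_iff hm2 i (hP i) (hN.co i) (J i) (τ i) (hτ i) D).1 (by
      rw [← hD]
      exact htT i)
  have hF : ∀ i k, (∀ α, D.h i k α = D.h i k 0) ∧ (∀ α, D.ζ i k α = D.ζ i k 0) ∧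
      (S i).Ok (D.h i k 0) (D.b k) := by
    intro i k
    obtain ⟨hk, ζk, e1, e2, e3⟩ := star_force hm2 (S i) (by rw [hL i]; exact hN.big i)
      (hN.big' i) (hN.co i) (J i) (hJ i) D.b (D.ζ i) (D.h i) (hAcc i) k
    refine ⟨fun α => by rw [e1, e1], fun α => by rw [e2, e2], ?_⟩
    rw [e1]
    exact e3
  have hB : ∀ i k, _ := fun i k =>
    bit_ok hm i (S i) (h1 i) (h2 i) (h3 i) (h4 i) (D.h i k 0) (D.b k) (hF i k).2.2
  have h2ne : (2 : ZMod m) ≠ 0 := by
    intro h
    have h' : ((2 : ℕ) : ZMod m) = 0 := by exact_mod_cast h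
    have := Nat.le_of_dvd (by norm_num) ((ZMod.natCast_eq_zero_iff _ _).1 h')
    omega
  -- one of the two holonomies is not constant
  have hst : ∃ st : Bool, ∃ k1 k2, D.h st k1 0 = false ∧ D.h st k2 0 = true := by
    by_contra hcon
    push Not at hcon
    have hconst : ∀ i, ∀ k, D.h i k 0 = D.h i 0 0 := by
      intro i k
      cases e1 : D.h i k 0 <;> cases e2 : D.h i 0 0
      · rfl
      · exact absurd e2 (hcon i k 0 e1)
      · exact absurd e1 (hcon i 0 k e2)
      · rfl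
    have hsl : ∃ c : ZMod m, ∀ k α, D.b k α = D.b k 0 + c * α := by
      cases e1 : D.h false 0 0 <;> cases e2 : D.h true 0 0
      · exfalso
        have f1 := (hB false 0).2 e1 1
        have f2 := (hB true 0).2 e2 1
        rw [f1] at f2
        apply h2ne
        simp only [sg, if_true, Bool.false_eq_true, if_false, mul_one] at f2
        have f3 := add_left_cancel f2
        linear_combination f3
      · refine ⟨1, fun k α => ?_⟩
        have f1 := (hB false k).2 (by rw [hconst, e1]) α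
        rw [f1]
        simp [sg]
      · refine ⟨-1, fun k α => ?_⟩
        have f1 := (hB true k).2 (by rw [hconst, e2]) α
        rw [f1]
        simp only [sg, ↓reduceIte, neg_mul, one_mul]
      · refine ⟨0, fun k α => ?_⟩
        rw [zero_mul, add_zero]
        rcases (hB false k).1 (by rw [hconst, e1]) with f1 | f1
        · exact f1 α
        · rcases (hB true k).1 (by rw [hconst, e2]) with f2 | f2
          · exact f2 α
          · exfalso
            have g1 := f1 1
            have g2 := f2 1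
            rw [g1] at g2
            apply h2ne
            simp only [sg, if_true, Bool.false_eq_true, if_false, mul_one] at g2
            linear_combination -g2
    obtain ⟨c, hc⟩ := hsl
    exact bitNo_slope hm D.b hsum c hc
  obtain ⟨st, k1, k2, hk1, hk2⟩ := hst
  refine ⟨st, D.ζ st k1 0 - D.ζ st k2 0, fun ξ hξ => ?_⟩
  have hWv : ∀ c : ℕ, (W (ξ - c * θ)).2 st = D.ζ st (lab D.κ ξ - c) 0 +
      (if D.h st (lab D.κ ξ - c) 0 then (ξ : ZMod (P st)) else 0) := by
    intro c
    rw [hD]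
    change rowZ D.κ (D.ζ st) (D.h st) (ξ - c * θ) = _
    rw [rowZ, bitNo_lab hm hN, (hF st _).1, (hF st _).2.1]
    have e1 : ((ξ - c * θ : ℤ) : ZMod (P st)) = (ξ : ZMod (P st)) := by
      rw [Int.cast_sub, Int.cast_mul, hN.θP st, mul_zero, sub_zero]
    rw [e1]
  have hv : ∀ k : ZMod m, lab D.κ ξ - (((lab D.κ ξ - k).val : ℕ) : ZMod m) = k := by
    intro k
    rw [ZMod.natCast_zmod_val]
    ring
  have e1 := hWv (lab D.κ ξ - k1).val
  have e2 := hWv (lab D.κ ξ - k2).val
  rw [hξ, hv, hk1] at e1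
  rw [hξ, hv, hk2] at e2
  rw [e1] at e2
  simp only [Bool.false_eq_true, if_false, add_zero, if_true] at e2
  rw [e2]
  ring

end Vale.Agent.P043.Z
end
end

section

section

/-!
# Row functions of class data solve the basic tiles
-/

namespace Vale.Agent.P043.Z

open Vale.Agent.P043

variable {m : ℕ} {P : Bool → ℕ}

/-- low digit -/
def rsLow (m : ℕ) : ZMod (m ^ 2) →+* ZMod m := ZMod.castHom (dvd_pow_self m two_ne_zero) (ZMod m)

theorem rs_dvd_iff [NeZero m] (j : ZMod (m ^ 2)) : m ∣ j.val ↔ rsLow m j = 0 := by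
  haveI : NeZero (m ^ 2) := ⟨pow_ne_zero 2 (NeZero.ne m)⟩
  rw [← ZMod.natCast_eq_zero_iff]
  have h : ((j.val : ℕ) : ZMod m) = rsLow m j := by
    rw [ZMod.natCast_val]; rfl
  rw [h]

theorem rs_low_rowE [NeZero m] (κ : ZMod m → ZMod m) (b : ZMod m → ZMod m → ZMod m) (x : ℤ) :
    rsLow m (rowE κ b x) = lab κ x := by
  unfold rowE
  rw [map_natCast]
  push_cast
  rw [ZMod.natCast_self, zero_mul, add_zero, ZMod.natCast_zmod_val]

theorem rs_lab_add [NeZero m] (κ : ZMod m → ZMod m) (x c : ℤ) :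
    lab κ (x + m * c) = lab κ x + (c : ZMod m) := by
  have hm : (m : ℤ) ≠ 0 := by exact_mod_cast NeZero.ne m
  unfold lab
  rw [Int.add_mul_ediv_left _ _ hm]
  push_cast
  rw [ZMod.natCast_self]
  ring_nf

theorem rs_cast_add [NeZero m] (x c : ℤ) : ((x + m * c : ℤ) : ZMod m) = (x : ZMod m) := by
  push_cast
  rw [ZMod.natCast_self]
  ring

theorem rs_lab_sq [NeZero m] (κ : ZMod m → ZMod m) (x c : ℤ) :
    lab κ (x + (m : ℤ) ^ 2 * c) = lab κ x := by
  have h : x + (m : ℤ) ^ 2 * c = x + m * (m * c) := by ring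
  rw [h, rs_lab_add]
  push_cast
  rw [ZMod.natCast_self]
  ring

theorem rs_cast_sq [NeZero m] (x c : ℤ) : ((x + (m : ℤ) ^ 2 * c : ℤ) : ZMod m) = (x : ZMod m) := by
  have h : x + (m : ℤ) ^ 2 * c = x + m * (m * c) := by ring
  rw [h, rs_cast_add]

theorem rs_rowE_sq [NeZero m] (κ : ZMod m → ZMod m) (b : ZMod m → ZMod m → ZMod m) (x c : ℤ) :
    rowE κ b (x + (m : ℤ) ^ 2 * c) = rowE κ b x := by
  unfold rowE
  rw [rs_lab_sq, rs_cast_sq]

theorem rs_rowZ_sq [NeZero m] {p : ℕ} (κ : ZMod m → ZMod m) (ζ : ZMod m → ZMod m → ZMod p)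
    (h : ZMod m → ZMod m → Bool) (x c : ℤ) :
    rowZ κ ζ h (x + (m : ℤ) ^ 2 * c) = rowZ κ ζ h x +
      (if h (lab κ x) (x : ZMod m) then ((m ^ 2 : ℕ) : ZMod p) * (c : ZMod p) else 0) := by
  unfold rowZ
  rw [rs_lab_sq, rs_cast_sq]
  split_ifs
  · push_cast; ring
  · ring

theorem solves_tL (hm : 2 ≤ m) (D : CD m P) : Solves (Gr D.W) (lift0 m P (tL m)) := by
  haveI : NeZero m := ⟨by omega⟩
  rw [gr_lift0 (X := ℕ)]
  rintro ⟨x, k⟩
  set e : ℤ → ZMod (m ^ 2) := rowE D.κ D.b with he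
  have mem : ∀ j : ZMod (m ^ 2), ((x, k) : ℤ × ZMod (m ^ 2)) - tL m j ∈
      Gr (fun x => (D.W x).1) ↔
      (if m ∣ j.val then j = k - 1 - e (x - m) else j = k - e x) := by
    intro j
    unfold tL
    split_ifs with h
    · change k - (j + 1) = e (x - m) ↔ _
      constructor
      · intro h1; rw [← h1]; ring
      · intro h1; rw [h1]; ring
    · change k - j = e (x - 0) ↔ _
      rw [sub_zero]
      constructor
      · intro h1; rw [← h1]; ring
      · intro h1; rw [h1]; ring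
  have l1 : rsLow m (k - e x) = rsLow m k - lab D.κ x := by
    rw [map_sub, he, rs_low_rowE]
  have l2 : rsLow m (k - 1 - e (x - m)) = rsLow m k - lab D.κ x := by
    have h := rs_lab_add D.κ x (-1)
    have h' : x + (m : ℤ) * (-1) = x - m := by ring
    rw [h'] at h
    rw [map_sub, map_sub, he, rs_low_rowE, h, map_one]
    push_cast
    ring
  by_cases h0 : rsLow m k - lab D.κ x = 0
  · have hd : m ∣ (k - 1 - e (x - m)).val := (rs_dvd_iff _).2 (l2.trans h0)
    refine ⟨k - 1 - e (x - m), ?_, ?_⟩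
    · refine (mem _).2 ?_
      rw [if_pos hd]
    · intro j hj
      replace hj := (mem j).1 hj
      by_cases hd' : m ∣ j.val
      · rwa [if_pos hd'] at hj
      · rw [if_neg hd'] at hj
        exact absurd ((rs_dvd_iff j).2 (by rw [hj, l1, h0])) hd'
  · have hd : ¬ m ∣ (k - e x).val := fun h => h0 (l1.symm.trans ((rs_dvd_iff _).1 h))
    refine ⟨k - e x, ?_, ?_⟩
    · refine (mem _).2 ?_
      rw [if_neg hd]
    · intro j hj
      replace hj := (mem j).1 hj
      by_cases hd' : m ∣ j.val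
      · rw [if_pos hd'] at hj
        have := (rs_dvd_iff j).1 hd'
        rw [hj, l2] at this
        exact absurd this h0
      · rwa [if_neg hd'] at hj

theorem solves_tP (hm : 2 ≤ m) (D : CD m P) : Solves (Gr D.W) (lift0 m P (tP m)) := by
  haveI : NeZero m := ⟨by omega⟩
  rw [gr_lift0 (X := ℕ)]
  rintro ⟨x, k⟩
  set e : ℤ → ZMod (m ^ 2) := rowE D.κ D.b with he
  have hper : e (x - (m : ℤ) ^ 2) = e x := by
    have h' : x - (m : ℤ) ^ 2 = x + (m : ℤ) ^ 2 * (-1) := by ring
    rw [h', he, rs_rowE_sq]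
  have mem : ∀ j : ZMod (m ^ 2), ((x, k) : ℤ × ZMod (m ^ 2)) - tP m j ∈
      Gr (fun x => (D.W x).1) ↔ j = k - e x := by
    intro j
    unfold tP
    split_ifs with h
    · change k - 0 = e (x - (m : ℤ) ^ 2) ↔ _
      rw [hper, h]
      constructor
      · intro h1; rw [← h1]; ring
      · intro h1
        have := sub_eq_zero.1 h1.symm
        rw [this, sub_zero]
    · change k - j = e (x - 0) ↔ _
      rw [sub_zero]
      constructor
      · intro h1; rw [← h1]; ring
      · intro h1; rw [h1]; ring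
  exact ⟨k - e x, (mem _).2 rfl, fun j hj => (mem j).1 hj⟩

theorem solves_tH (hm : 2 ≤ m) (hP : ∀ i, 1 < P i) (hc : ∀ i, Nat.Coprime m (P i)) (D : CD m P)
    (i : Bool) : Solves (Gr D.W) (lift1 m P i (tH m (P i))) := by
  haveI : NeZero m := ⟨by omega⟩
  haveI : Fact (1 < P i) := ⟨hP i⟩
  rw [gr_lift1]
  rintro ⟨x, k, z⟩
  set e : ℤ → ZMod (m ^ 2) := rowE D.κ D.b with he
  set Z : ℤ → ZMod (P i) := rowZ D.κ (D.ζ i) (D.h i) with hZ
  set s : ZMod (P i) := ((m ^ 2 : ℕ) : ZMod (P i)) with hs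
  have hs0 : s ≠ 0 := by
    rw [hs, Ne, ZMod.natCast_eq_zero_iff]
    intro hdvd
    have h1 : Nat.Coprime (m ^ 2) (P i) := Nat.Coprime.pow_left 2 (hc i)
    have h2 := Nat.Coprime.eq_one_of_dvd h1.symm hdvd
    have := hP i
    omega
  have e1 : e (x - (m : ℤ) ^ 2) = e x := by
    have h' : x - (m : ℤ) ^ 2 = x + (m : ℤ) ^ 2 * (-1) := by ring
    rw [h', he, rs_rowE_sq]
  have e2 : e (x + (m : ℤ) ^ 2) = e x := by
    have h' : x + (m : ℤ) ^ 2 = x + (m : ℤ) ^ 2 * 1 := by ring
    rw [h', he, rs_rowE_sq]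
  have z1 : Z (x - (m : ℤ) ^ 2) = Z x - (if D.h i (lab D.κ x) (x : ZMod m) then s else 0) := by
    have h' : x - (m : ℤ) ^ 2 = x + (m : ℤ) ^ 2 * (-1) := by ring
    rw [h', hZ, rs_rowZ_sq, ← hs]
    split_ifs
    · push_cast; ring
    · ring
  have z2 : Z (x + (m : ℤ) ^ 2) = Z x + (if D.h i (lab D.κ x) (x : ZMod m) then s else 0) := by
    have h' : x + (m : ℤ) ^ 2 = x + (m : ℤ) ^ 2 * 1 := by ring
    rw [h', hZ, rs_rowZ_sq, ← hs]
    split_ifs
    · push_cast; ring
    · ring
  have mem : ∀ j : ZMod (m ^ 2) × ZMod (P i), ((x, k, z) : ℤ × (ZMod (m ^ 2) × ZMod (P i))) -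
      tH m (P i) j ∈ Gr (fun x => ((D.W x).1, (D.W x).2 i)) ↔
      (if j = (0, s) then (k = e (x - (m : ℤ) ^ 2) ∧ z - s = Z (x - (m : ℤ) ^ 2))
        else if j = (0, 0) then (k = e (x + (m : ℤ) ^ 2) ∧ z = Z (x + (m : ℤ) ^ 2))
        else j = (k - e x, z - Z x)) := by
    intro j
    unfold tH
    rw [← hs]
    split_ifs with h h'
    · change (k - 0, z - s) = (e (x - (m : ℤ) ^ 2), Z (x - (m : ℤ) ^ 2)) ↔ _
      rw [Prod.mk.injEq, sub_zero]
    · change (k - 0, z - 0) = (e (x - -(m : ℤ) ^ 2), Z (x - -(m : ℤ) ^ 2)) ↔ _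
      rw [Prod.mk.injEq, sub_zero, sub_zero, sub_neg_eq_add]
    · change (k - j.1, z - j.2) = (e (x - 0), Z (x - 0)) ↔ _
      rw [sub_zero, Prod.mk.injEq, Prod.ext_iff]
      constructor
      · rintro ⟨h1, h2⟩
        exact ⟨by rw [← h1]; ring, by rw [← h2]; ring⟩
      · rintro ⟨h1, h2⟩
        exact ⟨by rw [h1]; ring, by rw [h2]; ring⟩
  rw [e1, e2, z1, z2] at mem
  have hne : ((0 : ZMod (m ^ 2)), (0 : ZMod (P i))) ≠ (0, s) := by
    intro h
    exact hs0 (Prod.mk.inj h).2.symm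
  by_cases hk : k = e x
  · by_cases hz0 : z = Z x
    · by_cases hh : D.h i (lab D.κ x) (x : ZMod m) = true
      · refine ⟨(0, s), ?_, ?_⟩
        · refine (mem _).2 ?_
          rw [if_pos rfl, if_pos hh, hz0]
          exact ⟨hk, rfl⟩
        · intro j hj
          replace hj := (mem j).1 hj
          by_cases h1 : j = (0, s)
          · exact h1
          · rw [if_neg h1] at hj
            by_cases h2 : j = (0, 0)
            · rw [if_pos h2, if_pos hh] at hj
              exact absurd (by linear_combination (hz0 - hj.2)) hs0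
            · rw [if_neg h2, hk, hz0, sub_self, sub_self] at hj
              exact absurd hj h2
      · refine ⟨(0, 0), ?_, ?_⟩
        · refine (mem _).2 ?_
          rw [if_neg hne, if_pos rfl, if_neg hh, hz0]
          exact ⟨hk, by ring⟩
        · intro j hj
          replace hj := (mem j).1 hj
          by_cases h1 : j = (0, s)
          · rw [if_pos h1, if_neg hh] at hj
            exact absurd (by linear_combination (hz0 - hj.2)) hs0
          · rw [if_neg h1] at hj
            by_cases h2 : j = (0, 0)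
            · exact h2
            · rw [if_neg h2, hk, hz0, sub_self, sub_self] at hj
              exact absurd hj h2
    · by_cases hz1 : z = Z x + s
      · by_cases hh : D.h i (lab D.κ x) (x : ZMod m) = true
        · refine ⟨(0, 0), ?_, ?_⟩
          · refine (mem _).2 ?_
            rw [if_neg hne, if_pos rfl, if_pos hh]
            exact ⟨hk, hz1⟩
          · intro j hj
            replace hj := (mem j).1 hj
            by_cases h1 : j = (0, s)
            · rw [if_pos h1, if_pos hh] at hj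
              exact absurd (by linear_combination (hj.2 - hz1)) hs0
            · rw [if_neg h1] at hj
              by_cases h2 : j = (0, 0)
              · exact h2
              · rw [if_neg h2, hk, hz1] at hj
                exact absurd (hj.trans (by rw [sub_self, add_sub_cancel_left])) h1
        · refine ⟨(0, s), ?_, ?_⟩
          · refine (mem _).2 ?_
            rw [if_pos rfl, if_neg hh, hz1]
            exact ⟨hk, by ring⟩
          · intro j hj
            replace hj := (mem j).1 hj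
            by_cases h1 : j = (0, s)
            · exact h1
            · rw [if_neg h1] at hj
              by_cases h2 : j = (0, 0)
              · rw [if_pos h2, if_neg hh] at hj
                exact absurd (by linear_combination (hj.2 - hz1)) hs0
              · rw [if_neg h2, hk, hz1] at hj
                exact absurd (hj.trans (by rw [sub_self, add_sub_cancel_left])) h1
      · have a1 : ((k - e x, z - Z x) : ZMod (m ^ 2) × ZMod (P i)) ≠ (0, s) := by
          intro h
          exact hz1 (by linear_combination (Prod.mk.inj h).2)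
        have a2 : ((k - e x, z - Z x) : ZMod (m ^ 2) × ZMod (P i)) ≠ (0, 0) := by
          intro h
          exact hz0 (by linear_combination (Prod.mk.inj h).2)
        refine ⟨(k - e x, z - Z x), ?_, ?_⟩
        · refine (mem _).2 ?_
          rw [if_neg a1, if_neg a2]
        · intro j hj
          replace hj := (mem j).1 hj
          by_cases h1 : j = (0, s)
          · rw [if_pos h1] at hj
            by_cases hh : D.h i (lab D.κ x) (x : ZMod m) = true
            · rw [if_pos hh] at hj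
              exact absurd (by linear_combination hj.2) hz0
            · rw [if_neg hh] at hj
              exact absurd (by linear_combination hj.2) hz1
          · rw [if_neg h1] at hj
            by_cases h2 : j = (0, 0)
            · rw [if_pos h2] at hj
              by_cases hh : D.h i (lab D.κ x) (x : ZMod m) = true
              · rw [if_pos hh] at hj
                exact absurd hj.2 hz1
              · rw [if_neg hh] at hj
                exact absurd (by linear_combination hj.2) hz0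
            · rwa [if_neg h2] at hj
  · have a1 : ((k - e x, z - Z x) : ZMod (m ^ 2) × ZMod (P i)) ≠ (0, s) := by
      intro h
      exact hk (by linear_combination (Prod.mk.inj h).1)
    have a2 : ((k - e x, z - Z x) : ZMod (m ^ 2) × ZMod (P i)) ≠ (0, 0) := by
      intro h
      exact hk (by linear_combination (Prod.mk.inj h).1)
    refine ⟨(k - e x, z - Z x), ?_, ?_⟩
    · refine (mem _).2 ?_
      rw [if_neg a1, if_neg a2]
    · intro j hj
      replace hj := (mem j).1 hj
      by_cases h1 : j = (0, s)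
      · rw [if_pos h1] at hj
        exact absurd hj.1 hk
      · rw [if_neg h1] at hj
        by_cases h2 : j = (0, 0)
        · rw [if_pos h2] at hj
          exact absurd hj.1 hk
        · rwa [if_neg h2] at hj

end Vale.Agent.P043.Z
end
end

section

section

/-!
# Acceptance by star tiles
-/

namespace Vale.Agent.P043.Z

open Vale.Agent.P043

variable {m : ℕ}

theorem sa_mem_zero [NeZero m] (S : Star m) {p : ℕ} [NeZero p] (H : Bool) (β : ZMod m)
    (y : ZMod p) : y ∈ S.Jf p H 0 β ↔ ∀ a', a' ≠ 0 → φ p (S.dl H β a') ≠ y := by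
  rw [Star.Jf, if_pos rfl, Finset.mem_sdiff]
  constructor
  · intro h a' ha' hy
    exact h.2 (Finset.mem_image.2 ⟨a', Finset.mem_erase.2 ⟨ha', Finset.mem_univ _⟩, hy⟩)
  · intro h
    refine ⟨Finset.mem_univ _, fun h' => ?_⟩
    obtain ⟨a', ha', hy⟩ := Finset.mem_image.1 h'
    exact h a' (Finset.mem_erase.1 ha').1 hy

theorem sa_mem_ne [NeZero m] (S : Star m) {p : ℕ} [NeZero p] (H : Bool) {a : ZMod m}
    (ha : a ≠ 0) (β : ZMod m) (y : ZMod p) :
    y ∈ S.Jf p H a β ↔ y = φ p (S.τ H a β) := by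
  rw [Star.Jf, if_neg ha, Finset.mem_singleton]

/-- acceptance -/
theorem star_acc [NeZero m] (hm : 2 ≤ m) {p : ℕ} [NeZero p] (S : Star m)
    (hp : 2 ^ (S.L + 1) < p) (hmp : m < p) (J : JData m p)
    (hJ : J.J = S.Jf p) (b : ZMod m → ZMod m → ZMod m) (ζ : ZMod m → ZMod m → ZMod p)
    (h : ZMod m → ZMod m → Bool)
    (hk : ∀ k, ∃ (hk : Bool) (ζk : ZMod p), (∀ α, h k α = hk) ∧ (∀ α, ζ k α = ζk) ∧
      S.Ok hk (b k) ∧ S.Inj hk (b k)) : Acc J b ζ h := by
  classical
  intro x0 k b0 z0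
  obtain ⟨H, ζk, h1, h2, hOk, hInj⟩ := hk k
  have key : ∀ (y : ZMod p) (x : ZMod m),
      ∃! a : ZMod m, y ∈ S.Jf p H a (b0 - b k (x - a)) := by
    intro y x
    obtain ⟨β, hβ⟩ : ∃ β, β = b0 - b k x := ⟨_, rfl⟩
    have hβa : ∀ a, b0 - b k (x - a) = β + b k x - b k (x - a) := fun a => by
      rw [hβ]; ring
    have hβ0 : b0 - b k (x - 0) = β := by rw [hβ, sub_zero]
    have hT : ∀ a : {a : ZMod m // a ≠ 0}, ∃ a' : {a : ZMod m // a ≠ 0},
        S.τ H a.1 (β + b k x - b k (x - a.1)) = S.dl H β a'.1 := fun a => by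
      obtain ⟨a', h3, h4⟩ := hOk x β a.1 a.2
      exact ⟨⟨a', h3⟩, h4⟩
    choose T hT using hT
    have hTi : Function.Injective T := by
      intro a a' haa
      apply Subtype.ext
      refine hInj x β a.1 a'.1 a.2 a'.2 ?_
      rw [hT a, hT a', haa]
    have hTs : Function.Surjective T := Finite.surjective_of_injective hTi
    by_cases hy : ∃ a' : {a : ZMod m // a ≠ 0}, φ p (S.dl H β a'.1) = y
    · obtain ⟨a', ha'⟩ := hy
      obtain ⟨a, ha⟩ := hTs a'
      have h5 : y = φ p (S.τ H a.1 (β + b k x - b k (x - a.1))) := by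
        rw [hT a, ha, ha']
      refine ⟨a.1, ?_, ?_⟩
      · beta_reduce
        rw [sa_mem_ne S H a.2, hβa, ← h5]
      · intro c hc
        by_cases hc0 : c = 0
        · subst hc0
          rw [hβ0, sa_mem_zero] at hc
          exact absurd ha' (hc a'.1 a'.2)
        · rw [sa_mem_ne S H hc0, hβa] at hc
          refine hInj x β c a.1 hc0 a.2 ?_
          refine φ_inj hp (S.τ_lt _ _ _) (S.τ_lt _ _ _) ?_
          rw [← hc, ← h5]
    · refine ⟨0, ?_, ?_⟩
      · beta_reduce
        rw [hβ0, sa_mem_zero]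
        exact fun a' ha' hy' => hy ⟨⟨a', ha'⟩, hy'⟩
      · intro c hc
        by_contra hc0
        rw [sa_mem_ne S H hc0, hβa, hT ⟨c, hc0⟩] at hc
        exact hy ⟨T ⟨c, hc0⟩, hc.symm⟩
  have h6 := key (z0 - ζk - (if H then (x0 : ZMod p) else 0)) (x0 : ZMod m)
  simp only [h1, hJ, h2]
  exact h6

end Vale.Agent.P043.Z
end
end

section

section

/-!
# Solutions of the bit block
-/

namespace Vale.Agent.P043.Z

open Vale.Agent.P043

theorem bitYes_cast (m : ℕ) [NeZero m] (t : ℤ) :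
    ((m * (t : ZMod m).val : ℕ) : ZMod (m ^ 2)) = ((m * t : ℤ) : ZMod (m ^ 2)) := by
  have h1 : (((t : ZMod m).val : ℕ) : ℤ) = t % m := ZMod.val_intCast t
  have h2 : (m * t : ℤ) = ((m * (t : ZMod m).val : ℕ) : ℤ) + (m ^ 2 : ℕ) * (t / m) := by
    push_cast
    rw [h1]
    have h3 := Int.emod_add_mul_ediv t m
    linear_combination (-(m : ℤ)) * h3
  rw [h2, Int.cast_add, Int.cast_mul]
  simp only [Int.cast_natCast, ZMod.natCast_self, zero_mul, add_zero]

theorem bitYes_uniq {M q r q' r' : ℕ} (h : M * q + r = M * q' + r') (hr : r < M) (hr' : r' < M) :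
    q = q' ∧ r = r' := by
  have h1 : (M * q + r) % M = (M * q' + r') % M := by rw [h]
  rw [Nat.mul_add_mod, Nat.mul_add_mod, Nat.mod_eq_of_lt hr, Nat.mod_eq_of_lt hr'] at h1
  subst h1
  exact ⟨Nat.eq_of_mul_eq_mul_left (by omega) (Nat.add_right_cancel h), rfl⟩

/-- digits of the solutions -/
def bitYes_b (m : ℕ) (st : Bool) (k α : ZMod m) : ZMod m :=
  if st then (if k = 0 then 0 else -α - k - 1) else (if k = 0 then α else -1)

/-- holonomies of the solutions -/
def bitYes_h (m : ℕ) (st i : Bool) (k : ZMod m) : Bool :=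
  if st then (if i then decide (k = 0) else true) else (if i then true else decide (k ≠ 0))

/-- class data of the solutions -/
def bitYes_D (m : ℕ) (P : Bool → ℕ) (st : Bool) : CD m P where
  κ _ := 0
  b := bitYes_b m st
  ζ _ _ _ := 0
  h i k _ := bitYes_h m st i k

theorem bitYes_lab {m : ℕ} (n : ℕ) :
    lab (fun _ : ZMod m => (0 : ZMod m)) (n : ℤ) = ((n / m : ℕ) : ZMod m) := by
  rw [lab, zero_add, ← Int.natCast_div, Int.cast_natCast]

theorem bitYes_ne {m n : ℕ} (h : n / m < m) : ((n / m : ℕ) : ZMod m) = 0 ↔ n / m = 0 := by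
  constructor
  · intro h1
    exact Nat.eq_zero_of_dvd_of_lt ((ZMod.natCast_eq_zero_iff _ _).1 h1) h
  · intro h1
    rw [h1, Nat.cast_zero]

/-- integer digit -/
def bitYes_t (m : ℕ) (st : Bool) (n : ℕ) : ℤ :=
  if st then (if n / m = 0 then 0 else -((n % m : ℕ) : ℤ) - ((n / m : ℕ) : ℤ) - 1)
  else (if n / m = 0 then ((n % m : ℕ) : ℤ) else -1)

theorem bitYes_rowE {m : ℕ} [NeZero m] (st : Bool) (n : ℕ) (h : n / m < m) :
    rowE (fun _ : ZMod m => (0 : ZMod m)) (bitYes_b m st) (n : ℤ) =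
      (((n / m : ℕ) + m * bitYes_t m st n : ℤ) : ZMod (m ^ 2)) := by
  rw [rowE, bitYes_lab]
  have h1 : bitYes_b m st ((n / m : ℕ) : ZMod m) (((n : ℤ) : ℤ) : ZMod m) =
      ((bitYes_t m st n : ℤ) : ZMod m) := by
    have h2 : (((n : ℤ) : ℤ) : ZMod m) = ((n % m : ℕ) : ZMod m) := by
      rw [Int.cast_natCast, ZMod.natCast_mod]
    rw [h2]
    unfold bitYes_b bitYes_t
    by_cases h0 : n / m = 0
    · cases st <;> simp [h0]
    · have h0' : ((n / m : ℕ) : ZMod m) ≠ 0 := fun hh => h0 ((bitYes_ne h).1 hh)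
      cases st
      · simp only [h0, h0', if_false, Bool.false_eq_true, Int.cast_neg, Int.cast_one]
      · simp only [h0, h0', if_false, if_true, Int.cast_sub, Int.cast_neg, Int.cast_one,
          Int.cast_natCast]
  rw [h1, Nat.cast_add, bitYes_cast, ZMod.val_natCast_of_lt h, Int.cast_add, Int.cast_natCast]

/-- the value as a natural number -/
def bitYes_v (m : ℕ) (st : Bool) (n : ℕ) : ℕ :=
  if st then (if n / m = 0 then n % m else (m - 1) * (m - n % m) + n / m)
  else (if n / m = 0 then (m + 1) * (n % m) else (m + 1) * (n / m - 1) + (n % m + 1))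

theorem bitYes_v_lt {m : ℕ} (hm : 3 ≤ m) (st : Bool) {n : ℕ} (hn : n < m ^ 2) :
    bitYes_v m st n < m ^ 2 := by
  have ha : n % m < m := Nat.mod_lt _ (by omega)
  have hk : n / m < m := by
    rw [Nat.div_lt_iff_lt_mul (by omega)]
    (clear * - hn; nlinarith)
  obtain ⟨m', rfl⟩ : ∃ m', m = m' + 1 := ⟨m - 1, by omega⟩
  unfold bitYes_v
  generalize n / (m' + 1) = k at hk ⊢
  generalize n % (m' + 1) = a at ha ⊢
  simp only [Nat.add_sub_cancel]
  split_ifs with h1 h2 h2
  · nlinarith only [ha]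
  · obtain ⟨c, hc⟩ : ∃ c, m' + 1 - a = c := ⟨_, rfl⟩
    rw [hc]
    have : c ≤ m' + 1 := by omega
    nlinarith only [hk, this]
  · nlinarith only [ha]
  · obtain ⟨k', rfl⟩ : ∃ k', k = k' + 1 := ⟨k - 1, by omega⟩
    simp only [Nat.add_sub_cancel]
    nlinarith only [ha, hk]

theorem bitYes_v_inj {m : ℕ} (hm : 3 ≤ m) (st : Bool) {n n' : ℕ} (hn : n < m ^ 2)
    (hn' : n' < m ^ 2) (h : bitYes_v m st n = bitYes_v m st n') : n = n' := by
  have ha : n % m < m := Nat.mod_lt _ (by omega)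
  have hk : n / m < m := by
    rw [Nat.div_lt_iff_lt_mul (by omega)]
    linarith
  have ha' : n' % m < m := Nat.mod_lt _ (by omega)
  have hk' : n' / m < m := by
    rw [Nat.div_lt_iff_lt_mul (by (clear * - hm; omega))]
    nlinarith only [hn']
  have key : n / m = n' / m ∧ n % m = n' % m := by
    unfold bitYes_v at h
    generalize n / m = k at hk h ⊢
    generalize n % m = a at ha h ⊢
    generalize n' / m = k' at hk' h ⊢
    generalize n' % m = a' at ha' h ⊢
    cases st
    · simp only [Bool.false_eq_true, if_false] at h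
      split_ifs at h with h1 h2 h2
      · have := bitYes_uniq (M := m + 1) (r := 0) (r' := 0) h (by omega) (by omega)
        omega
      · have := bitYes_uniq (M := m + 1) (r := 0) h (by omega) (by omega)
        omega
      · have := bitYes_uniq (M := m + 1) (r' := 0) h (by omega) (by omega)
        omega
      · have := bitYes_uniq (M := m + 1) h (by omega) (by omega)
        (clear * - h1 h2 h this; omega)
    · simp only [if_true] at h
      have hbig : ∀ a k : ℕ, a < m → k ≠ 0 → m ≤ (m - 1) * (m - a) + k := by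
        intro a k h3 h4
        have h5 : (m - 1) * 1 ≤ (m - 1) * (m - a) := Nat.mul_le_mul_left _ (by omega)
        omega
      split_ifs at h with h1 h2 h2
      · omega
      · have := hbig a' k' ha' h2
        omega
      · have := hbig a k ha h1
        omega
      · have := bitYes_uniq (M := m - 1) (q := m - a) (r := k - 1) (q' := m - a') (r' := k' - 1)
          (by (clear * - h1 h2 h; omega)) (by omega) (by (clear * - hm hk'; omega))
        omega
  rw [← Nat.div_add_mod n m, ← Nat.div_add_mod n' m, key.1, key.2]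

theorem bitYes_val {m : ℕ} (hm : 3 ≤ m) [NeZero m] (st : Bool) (j : ZMod (m ^ 2)) :
    j + rowE (fun _ : ZMod m => (0 : ZMod m)) (bitYes_b m st) (j.val : ℤ) =
      ((bitYes_v m st j.val : ℕ) : ZMod (m ^ 2)) := by
  have hn : j.val < m ^ 2 := ZMod.val_lt j
  have hk : j.val / m < m := by
    rw [Nat.div_lt_iff_lt_mul (by omega)]
    linarith
  have ha : j.val % m < m := Nat.mod_lt _ (by omega)
  rw [bitYes_rowE st _ hk]
  have h1 : j = ((j.val : ℕ) : ZMod (m ^ 2)) := (ZMod.natCast_zmod_val j).symm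
  have h0 : ((m : ZMod (m ^ 2))) ^ 2 = 0 := by
    have := ZMod.natCast_self (m ^ 2)
    push_cast at this
    exact this
  have h2 : ((j.val : ℕ) : ZMod (m ^ 2)) =
      ((m * (j.val / m) + j.val % m : ℕ) : ZMod (m ^ 2)) := by
    rw [Nat.div_add_mod]
  nth_rewrite 1 [h1]
  rw [h2]
  unfold bitYes_t bitYes_v
  generalize j.val / m = k at hk ⊢
  generalize j.val % m = a at ha ⊢
  obtain ⟨c, hc⟩ : ∃ c, m - a = c := ⟨_, rfl⟩
  have hc2 : (m : ZMod (m ^ 2)) = (a : ZMod (m ^ 2)) + c := by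
    rw [← Nat.cast_add]
    congr 1
    (clear * - ha hc; omega)
  obtain ⟨d, hd⟩ : ∃ d, m - 1 = d := ⟨_, rfl⟩
  have hd2 : (m : ZMod (m ^ 2)) = (d : ZMod (m ^ 2)) + 1 := by
    rw [← Nat.cast_one, ← Nat.cast_add]
    congr 1
    omega
  split_ifs with h3 h4 h4
  · rw [h4]
    push_cast
    ring
  · rw [hc, hd]
    push_cast
    linear_combination (-1) * h0 + ((m : ZMod (m ^ 2)) - 1) * hc2 + (c : ZMod (m ^ 2)) * hd2
  · rw [h4]
    push_cast
    ring
  · obtain ⟨k', rfl⟩ : ∃ k', k = k' + 1 := ⟨k - 1, by (clear * - h4; omega)⟩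
    simp only [Nat.add_sub_cancel]
    push_cast
    ring

theorem bitYes_G {m : ℕ} (hm : 3 ≤ m) [NeZero m] (st : Bool) (y : ZMod (m ^ 2)) :
    ∃! j : ZMod (m ^ 2),
      j + rowE (fun _ : ZMod m => (0 : ZMod m)) (bitYes_b m st) (j.val : ℤ) = y := by
  have hinj : Function.Injective fun j : ZMod (m ^ 2) =>
      j + rowE (fun _ : ZMod m => (0 : ZMod m)) (bitYes_b m st) (j.val : ℤ) := by
    intro j j' h
    simp only [bitYes_val hm] at h
    rw [ZMod.natCast_eq_natCast_iff',
      Nat.mod_eq_of_lt (bitYes_v_lt hm st (ZMod.val_lt j)),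
      Nat.mod_eq_of_lt (bitYes_v_lt hm st (ZMod.val_lt j'))] at h
    exact ZMod.val_injective _ (bitYes_v_inj hm st (ZMod.val_lt j) (ZMod.val_lt j') h)
  exact (Finite.injective_iff_bijective.1 hinj).existsUnique y

/-- Solutions of the bit block. -/
theorem bit_yes {m : ℕ} [NeZero m] (hm : 3 ≤ m) {P : Bool → ℕ} {θ : ℤ}
    (S : Bool → Star m) (hN : Num m P θ 1 (2 * m * m)) [∀ i, NeZero (P i)]
    (hL : ∀ i, (S i).L = 2 * m * m)
    (h1 : ∀ i a b, (S i).τ true a b = pairLab m b (b + sg m i * a))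
    (h2 : ∀ i b a, (S i).dl true b a = pairLab m b (b + a))
    (h3 : ∀ i a b, (S i).τ false a b = ordLab m (sg m i * a) (b - sg m i * a))
    (h4 : ∀ i b a, (S i).dl false b a = ordLab m a b)
    (J : (i : Bool) → JData m (P i)) (hJ : ∀ i, (J i).J = (S i).Jf (P i))
    (τ : (i : Bool) → ZMod (m ^ 2) × ZMod (P i) → ℤ × (ZMod (m ^ 2) × ZMod (P i)))
    (hτ : ∀ i, IsT (J i) (τ i)) (st : Bool) :
    ∃ W : ℤ → KK m P, (∀ t ∈ rowTiles m P τ, Solves (Gr W) t) ∧
      (∀ ξ, W (ξ + m * θ) = W ξ) ∧ ∀ ξ, Neu θ W (!st) ξ := by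
  have hm2 : 2 ≤ m := by omega
  have hP1 : ∀ i, 1 < P i := fun i => by have := hN.big' i; omega
  have hT : ∀ i, Solves (Gr (bitYes_D m P st).W) (lift1 m P i (τ i)) := by
    intro i
    refine (solves_T_iff hm2 i (hP1 i) (hN.co i) (J i) (τ i) (hτ i) _).2 ?_
    refine star_acc hm2 (S i) (by rw [hL i]; exact hN.big i) (hN.big' i) (J i) (hJ i) _ _ _ ?_
    intro k
    refine ⟨bitYes_h m st i k, 0, fun _ => rfl, fun _ => rfl,
      bit_acc hm i (S i) (h1 i) (h2 i) (h3 i) (h4 i) _ _ ?_⟩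
    change (bitYes_h m st i k = true ∧ ((∀ α, bitYes_b m st k α = bitYes_b m st k 0) ∨
      (∀ α, bitYes_b m st k α = bitYes_b m st k 0 - sg m i * α))) ∨
      (bitYes_h m st i k = false ∧ ∀ α, bitYes_b m st k α = bitYes_b m st k 0 + sg m i * α)
    by_cases hk : k = 0
    · subst hk
      cases st <;> cases i <;> simp [bitYes_h, bitYes_b, sg]
    · cases st <;> cases i <;> simp [bitYes_h, bitYes_b, sg, hk]
      · exact Or.inr fun α => by ring
      · exact fun α => by ring
  have hlabm : ∀ ξ : ℤ, lab (fun _ : ZMod m => (0 : ZMod m)) (ξ + m * θ) =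
      lab (fun _ : ZMod m => (0 : ZMod m)) ξ := by
    intro ξ
    have hθ : (θ : ZMod m) = 0 := by
      have h5 := congrArg (ZMod.castHom (dvd_pow_self m two_ne_zero) (ZMod m)) hN.θm
      simpa only [map_intCast, one_mul, map_natCast, CharP.cast_eq_zero] using h5
    rw [lab, lab, Int.add_mul_ediv_left _ _ (by exact_mod_cast (by omega : m ≠ 0)), Int.cast_add,
      hθ, add_zero]
  refine ⟨(bitYes_D m P st).W, ?_, ?_, ?_⟩
  · intro t ht
    simp only [rowTiles, Set.mem_insert_iff, Set.mem_singleton_iff] at ht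
    rcases ht with rfl | rfl | rfl | rfl | rfl | rfl | rfl
    · exact solves_tL hm2 _
    · exact solves_tP hm2 _
    · exact (solves_tG_iff hm2 _).2 (bitYes_G hm st)
    · exact solves_tH hm2 hP1 hN.co _ _
    · exact solves_tH hm2 hP1 hN.co _ _
    · exact hT false
    · exact hT true
  · intro ξ
    have hmm : ((ξ + m * θ : ℤ) : ZMod m) = (ξ : ZMod m) := by simp
    refine Prod.ext ?_ (funext fun i => ?_)
    · change rowE (fun _ : ZMod m => (0 : ZMod m)) (bitYes_b m st) _ =
        rowE (fun _ : ZMod m => (0 : ZMod m)) (bitYes_b m st) _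
      rw [rowE, rowE, hlabm, hmm]
    · change rowZ (fun _ : ZMod m => (0 : ZMod m)) _ _ _ =
        rowZ (fun _ : ZMod m => (0 : ZMod m)) _ _ _
      have hPP : ((ξ + m * θ : ℤ) : ZMod (P i)) = (ξ : ZMod (P i)) := by
        push_cast
        rw [hN.θP i]
        ring
      rw [rowZ, rowZ, hlabm, hmm, hPP]
  · intro ξ c
    have hh : ∀ η : ℤ, ((bitYes_D m P st).W η).2 (!st) = (η : ZMod (P (!st))) := by
      intro η
      change rowZ (fun _ : ZMod m => (0 : ZMod m)) (fun _ _ => (0 : ZMod (P (!st))))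
        (fun k _ => bitYes_h m st (!st) k) η = _
      rw [rowZ]
      cases st <;> simp [bitYes_h]
    rw [hh, hh]
    push_cast
    rw [hN.θP]
    ring

end Vale.Agent.P043.Z
end
end

section

section

/-!
# Forcing in the seed block
-/

namespace Vale.Agent.P043.Z

open Vale.Agent.P043

theorem seedNo_pair4 : ∀ h : ZMod 4 → Bool, (∑ x, if h x = true then (2 : ZMod 4) else 0) = 2 →
    ∃ x, h x = true ∧ h (x + 2) = false := by
  decide

theorem seedNo_pair2 : ∀ h : ZMod 4 → Bool, (∑ x, if h x = true then (1 : ZMod 2) else 0) = 1 →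
    ∃ x, h x = true ∧ h (x + 2) = false := by
  decide

theorem seedNo_par : ∀ x y : ZMod 4, ((x.val : ℕ) : ZMod 2) = ((y.val : ℕ) : ZMod 2) →
    x = y ∨ x = y + 2 := by
  decide

theorem seedNo_add_one : ∀ x : ZMod 4, (((x + 1).val : ℕ) : ZMod 2) = ((x.val : ℕ) : ZMod 2) + 1 := by
  decide

/-- reduction modulo two -/
def seedNo_r : ZMod 4 →+ ZMod 2 :=
  (ZMod.castHom (by norm_num : (2 : ℕ) ∣ 4) (ZMod 2)).toAddMonoidHom

theorem seedNo_r_val : ∀ x : ZMod 4, seedNo_r x = ((x.val : ℕ) : ZMod 2) := by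
  decide

/-- reindexing of `US` -/
theorem seedNo_US (b : ZMod 4 → ZMod 4 → ZMod 4) (s : ZMod 4) : US b s = ∑ k, b k (s - k) := by
  unfold US
  exact Fintype.sum_equiv (Equiv.subLeft s) _ _ (fun x => by simp only [Equiv.subLeft_apply, sub_sub_cancel])

theorem seedNo_lab_add (κ : ZMod 4 → ZMod 4) (ξ : ℤ) : lab κ (ξ + 4) = lab κ ξ + 1 := by
  unfold lab
  have h1 : ((ξ + 4 : ℤ) : ZMod 4) = (ξ : ZMod 4) := by
    push_cast
    have : (4 : ZMod 4) = 0 := by decide
    rw [this, add_zero]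
  have h2 : (ξ + 4) / ((4 : ℕ) : ℤ) = ξ / ((4 : ℕ) : ℤ) + 1 := by
    push_cast
    omega
  rw [h1, h2]
  push_cast
  ring

theorem seedNo_lab_sub (κ : ZMod 4 → ZMod 4) (ξ θ : ℤ) (hθ : (θ : ZMod (4 ^ 2)) = 8) :
    lab κ (ξ - θ) = lab κ ξ + 2 := by
  have h3 : (θ : ZMod (4 ^ 2)) = ((8 : ℤ) : ZMod (4 ^ 2)) := by
    rw [hθ]; norm_cast
  rw [ZMod.intCast_eq_intCast_iff_dvd_sub] at h3
  obtain ⟨t, ht⟩ := h3
  have ht' : θ = 8 - 16 * t := by
    push_cast at ht
    linarith only [ht]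
  subst ht'
  unfold lab
  have h1 : ((ξ - (8 - 16 * t) : ℤ) : ZMod 4) = (ξ : ZMod 4) := by
    rw [ZMod.intCast_eq_intCast_iff_dvd_sub]
    exact ⟨2 - 4 * t, by push_cast; ring⟩
  have h2 : (ξ - (8 - 16 * t)) / ((4 : ℕ) : ℤ) = ξ / ((4 : ℕ) : ℤ) - 2 + 4 * t := by
    push_cast
    omega
  rw [h1, h2]
  push_cast
  have h4 : (4 : ZMod 4) = 0 := by decide
  have h5 : (-2 : ZMod 4) = 2 := by decide
  rw [h4, zero_mul, add_zero, sub_eq_add_neg, h5]
  ring

theorem seedNo_par4 {P : Bool → ℕ} (D : CD 4 P) (ξ : ℤ) :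
    par4 (D.W ξ) = (((lab D.κ ξ).val : ℕ) : ZMod 2) := by
  unfold par4 CD.W rowE
  simp only
  rw [ZMod.val_natCast]
  have h : ∀ a b : ℕ, (((a + 4 * b) % (4 ^ 2) : ℕ) : ZMod 2) = ((a : ℕ) : ZMod 2) := by
    intro a b
    rw [ZMod.natCast_eq_natCast_iff]
    unfold Nat.ModEq
    omega
  exact h _ _

/-- Forcing in the seed block. -/
theorem seed_no {P : Bool → ℕ} {θ : ℤ} (S : Bool → Star 4) (hN : Num 4 P θ 2 8)
    [∀ i, NeZero (P i)] (hL : ∀ i, (S i).L ≤ 8)
    (h1 : ∀ i (h : Bool) (b : ZMod 4 → ZMod 4), (S i).Ok h b ↔ if i then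
        (∀ x, ((b (x + 1)).val : ZMod 2) = ((b x).val : ZMod 2) + (if h then 1 else 0))
      else (∀ x, b (x + 2) = b x + (if h then 2 else 0)))
    (J : (i : Bool) → JData 4 (P i)) (hJ : ∀ i, (J i).J = (S i).Jf (P i))
    (τ : (i : Bool) → ZMod (4 ^ 2) × ZMod (P i) → ℤ × (ZMod (4 ^ 2) × ZMod (P i)))
    (hτ : ∀ i, IsT (J i) (τ i))
    (W : ℤ → KK 4 P) (hW : ∀ t ∈ rowTiles 4 P τ, Solves (Gr W) t) :
    (∀ ξ, par4 (W (ξ + 4)) = par4 (W ξ) + 1) ∧
    ∃ (e : Bool → ZMod 2) (g : (i : Bool) → ZMod (P i)), ∀ i ξ, par4 (W ξ) = e i →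
      Neu θ W i ξ → (ξ : ZMod (P i)) = g i := by
  have hP : ∀ i, 1 < P i := fun i => lt_trans (by norm_num) (hN.big' i)
  obtain ⟨D, rfl⟩ := exists_cd (m := 4) (by norm_num) hP hN.co W
    (hW _ (by simp only [rowTiles, Set.mem_insert_iff, Set.mem_singleton_iff, true_or])) (hW _ (by simp only [rowTiles, Set.mem_insert_iff, Set.mem_singleton_iff, true_or, or_true]))
    (fun i => hW _ (by cases i <;> simp only [rowTiles, Set.mem_insert_iff, Set.mem_singleton_iff, true_or, or_true]))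
  have hG := (solves_tG_iff (m := 4) (by norm_num) D).1 (hW _ (by simp only [rowTiles, Set.mem_insert_iff, Set.mem_singleton_iff, true_or, or_true]))
  have hsum := sum_rule (m := 4) (by norm_num) D.κ D.b hG
  have hA : ∀ i, Acc (J i) D.b (D.ζ i) (D.h i) := fun i =>
    (solves_T_iff (m := 4) (by norm_num) i (hP i) (hN.co i) (J i) (τ i) (hτ i) D).1
      (hW _ (by cases i <;> simp [rowTiles]))
  have hF : ∀ i k, ∃ (hk : Bool) (ζk : ZMod (P i)), (∀ α, D.h i k α = hk) ∧
      (∀ α, D.ζ i k α = ζk) ∧ (S i).Ok hk (D.b k) := fun i k =>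
    star_force (m := 4) (by norm_num) (S i)
      (lt_of_le_of_lt (Nat.pow_le_pow_right (by norm_num) (by have := hL i; omega)) (hN.big i))
      (hN.big' i) (hN.co i) (J i) (hJ i) D.b (D.ζ i) (D.h i) (hA i) k
  choose hk ζk hh hζ hok using hF
  refine ⟨fun ξ => ?_, ?_⟩
  · rw [seedNo_par4, seedNo_par4, seedNo_lab_add, seedNo_add_one]
  -- the two pairs
  have hx : ∀ i, ∃ x, hk i x = true ∧ hk i (x + 2) = false := by
    intro i
    cases i
    · apply seedNo_pair4
      have e1 : ∀ k x, D.b k (x + 2) = D.b k x + (if hk false k = true then 2 else 0) := by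
        intro k
        have := (h1 false (hk false k) (D.b k)).1 (hok false k)
        simpa only [Bool.false_eq_true, ↓reduceIte] using this
      have e2 : US D.b (0 + 1 + 1) = US D.b 0 + 1 + 1 := by
        rw [hsum, hsum]
      have e3 : US D.b (0 + 1 + 1) =
          US D.b 0 + ∑ k, (if hk false k = true then (2 : ZMod 4) else 0) := by
        rw [seedNo_US, seedNo_US, ← Finset.sum_add_distrib]
        refine Finset.sum_congr rfl fun k _ => ?_
        rw [← e1]
        congr 1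
        ring
      rw [e3, add_assoc] at e2
      have e4 := add_left_cancel e2
      rw [e4]
      norm_num
    · apply seedNo_pair2
      have e1 : ∀ k x, seedNo_r (D.b k (x + 1)) =
          seedNo_r (D.b k x) + (if hk true k = true then 1 else 0) := by
        intro k x
        rw [seedNo_r_val, seedNo_r_val]
        have := (h1 true (hk true k) (D.b k)).1 (hok true k)
        simp only [if_true] at this
        exact this x
      have e2 : seedNo_r (US D.b (0 + 1)) = seedNo_r (US D.b 0) + 1 := by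
        rw [hsum, map_add]
        congr 1
      have e3 : seedNo_r (US D.b (0 + 1)) =
          seedNo_r (US D.b 0) + ∑ k, (if hk true k = true then (1 : ZMod 2) else 0) := by
        rw [seedNo_US, seedNo_US, map_sum, map_sum, ← Finset.sum_add_distrib]
        refine Finset.sum_congr rfl fun k _ => ?_
        rw [← e1]
        congr 2
        ring
      rw [e3] at e2
      exact add_left_cancel e2
  choose x hx1 hx2 using hx
  refine ⟨fun i => (((x i).val : ℕ) : ZMod 2), fun i => ζk i (x i + 2) - ζk i (x i), ?_⟩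
  intro i ξ hpar hneu
  rw [seedNo_par4] at hpar
  have hn := hneu 1
  have hθ : (θ : ZMod (4 ^ 2)) = 8 := by
    have := hN.θm
    rw [this]
    norm_num
  have hz : ∀ η : ℤ, (D.W η).2 i =
      ζk i (lab D.κ η) + (if hk i (lab D.κ η) = true then (η : ZMod (P i)) else 0) := by
    intro η
    unfold CD.W rowZ
    simp only [hh, hζ]
  rw [hz, hz] at hn
  have hl : lab D.κ (ξ - ((1 : ℕ) : ℤ) * θ) = lab D.κ ξ + 2 := by
    rw [Nat.cast_one, one_mul]
    exact seedNo_lab_sub D.κ ξ θ hθ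
  rw [hl] at hn
  have hcast : ((ξ - ((1 : ℕ) : ℤ) * θ : ℤ) : ZMod (P i)) = (ξ : ZMod (P i)) := by
    push_cast
    rw [hN.θP i]
    ring
  rw [hcast] at hn
  rcases seedNo_par _ _ hpar with h | h
  · rw [h, hx1, hx2] at hn
    simp only [if_true] at hn
    rw [eq_sub_iff_add_eq']
    simpa using hn.symm
  · have h2 : x i + 2 + 2 = x i := by
      have : (2 : ZMod 4) + 2 = 0 := by decide
      rw [add_assoc, this, add_zero]
    rw [h, h2, hx1, hx2] at hn
    simp only [if_true] at hn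
    rw [eq_sub_iff_add_eq']
    simpa only [Bool.false_eq_true, ↓reduceIte, add_zero] using hn

end Vale.Agent.P043.Z
end
end

section

section

/-!
# Solution of the seed block
-/

namespace Vale.Agent.P043.Z

open Vale.Agent.P043

/-- digits of the solution -/
def syb : ZMod 4 → ZMod 4 → ZMod 4 := fun k α =>
  if k = 0 then 0 else if k = 1 then (if α = 0 ∨ α = 1 then 2 else 0)
  else if k = 2 then (if α = 0 ∨ α = 1 then 0 else 2) else -α

/-- holonomies of the solution -/
def syh : Bool → ZMod 4 → ZMod 4 → Bool := fun i k _ =>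
  if i then decide (k = 3) else decide (k ≠ 0)

/-- class data of the solution -/
def syD (P : Bool → ℕ) : CD 4 P where
  κ := fun _ => 0
  b := syb
  ζ := fun _ _ _ => 0
  h := syh

/-- the conditions for the first coordinate -/
theorem sy_ok_false (k : ZMod 4) :
    ∀ x, syb k (x + 2) = syb k x + (if syh false k 0 then 2 else 0) := by
  revert k; decide

/-- the conditions for the second coordinate -/
theorem sy_ok_true (k : ZMod 4) :
    ∀ x, ((syb k (x + 1)).val : ZMod 2) = ((syb k x).val : ZMod 2) +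
      (if syh true k 0 then 1 else 0) := by
  revert k; decide

/-- first coordinate as a function modulo `16` -/
def syE (j : ℕ) : ℕ :=
  (j / 4) % 4 + 4 * (syb ((j / 4 : ℕ) : ZMod 4) ((j : ℕ) : ZMod 4)).val

theorem sy_lab (ξ : ℤ) : lab (m := 4) (fun _ => 0) ξ = ((ξ / 4 : ℤ) : ZMod 4) := by
  unfold lab
  rw [zero_add]
  norm_num

theorem sy_inj : ∀ j j' : ZMod 16, j + ((syE j.val : ℕ) : ZMod 16) =
    j' + ((syE j'.val : ℕ) : ZMod 16) → j = j' := by
  (clear * -; decide)

theorem sy_bij (y : ZMod 16) : ∃! j : ZMod 16, j + ((syE j.val : ℕ) : ZMod 16) = y := by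
  have h : Function.Bijective fun j : ZMod 16 => j + ((syE j.val : ℕ) : ZMod 16) :=
    Finite.injective_iff_bijective.1 fun j j' hj => sy_inj j j' hj
  exact (Function.bijective_iff_existsUnique _).1 h y

theorem sy_rowE (j : ZMod (4 ^ 2)) :
    rowE (m := 4) (fun _ => 0) syb (j.val : ℤ) = ((syE j.val : ℕ) : ZMod (4 ^ 2)) := by
  have e1 : lab (m := 4) (fun _ => 0) ((j.val : ℕ) : ℤ) = ((j.val / 4 : ℕ) : ZMod 4) := by
    rw [sy_lab]
    have : ((j.val : ℕ) : ℤ) / 4 = ((j.val / 4 : ℕ) : ℤ) := by norm_num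
    rw [this]
    push_cast
    rfl
  unfold rowE syE
  rw [e1]
  have e2 : (((j.val : ℕ) : ℤ) : ZMod 4) = ((j.val : ℕ) : ZMod 4) := by push_cast; rfl
  rw [e2]
  have e3 : ((j.val / 4 : ℕ) : ZMod 4).val = (j.val / 4) % 4 := ZMod.val_natCast _ _
  rw [e3]

/-- Solution of the seed block. -/
theorem seed_yes {P : Bool → ℕ} {θ : ℤ} (S : Bool → Star 4) (hN : Num 4 P θ 2 8)
    [∀ i, NeZero (P i)] (hL : ∀ i, (S i).L ≤ 8)
    (h1 : ∀ i (h : Bool) (b : ZMod 4 → ZMod 4), (S i).Ok h b ↔ if i then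
        (∀ x, ((b (x + 1)).val : ZMod 2) = ((b x).val : ZMod 2) + (if h then 1 else 0))
      else (∀ x, b (x + 2) = b x + (if h then 2 else 0)))
    (h2 : ∀ i (h : Bool) (b : ZMod 4 → ZMod 4), (S i).Ok h b → (S i).Inj h b)
    (J : (i : Bool) → JData 4 (P i)) (hJ : ∀ i, (J i).J = (S i).Jf (P i))
    (τ : (i : Bool) → ZMod (4 ^ 2) × ZMod (P i) → ℤ × (ZMod (4 ^ 2) × ZMod (P i)))
    (hτ : ∀ i, IsT (J i) (τ i)) :
    ∃ W : ℤ → KK 4 P, (∀ t ∈ rowTiles 4 P τ, Solves (Gr W) t) ∧
      (∀ ξ, W (ξ + 4 * θ) = W ξ) ∧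
      ∀ (i : Bool) (ξ : ℤ), (ξ / 4) % 2 ≠ (if i then 1 else 0) → Neu θ W i ξ := by
  have hP : ∀ i, 1 < P i := fun i => lt_of_le_of_lt (by norm_num) (hN.big' i)
  have h2m : (2 : ℕ) ≤ 4 := by norm_num
  have hT : ∀ i, Solves (Gr (syD P).W) (lift1 4 P i (τ i)) := by
    intro i
    rw [solves_T_iff h2m i (hP i) (hN.co i) (J i) (τ i) (hτ i) (syD P)]
    refine star_acc h2m (S i) ?_ (hN.big' i) (J i) (hJ i) _ _ _ fun k => ?_
    · exact lt_of_le_of_lt (Nat.pow_le_pow_right (by norm_num)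
        (Nat.add_le_add_right (hL i) 1)) (hN.big i)
    · have hok : (S i).Ok (syh i k 0) (syb k) := by
        rw [h1]
        cases i
        · simpa only [Bool.false_eq_true, ↓reduceIte] using sy_ok_false k
        · simpa only [↓reduceIte, ZMod.natCast_val] using sy_ok_true k
      exact ⟨syh i k 0, 0, fun _ => rfl, fun _ => rfl, hok, h2 i _ _ hok⟩
  -- `θ`
  obtain ⟨q, hq⟩ : ∃ q : ℤ, θ = 8 + 16 * q := by
    have h := hN.θm
    have h3 : ((θ - 8 : ℤ) : ZMod (4 ^ 2)) = 0 := by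
      push_cast at h ⊢
      rw [h]
      decide
    rw [ZMod.intCast_zmod_eq_zero_iff_dvd] at h3
    obtain ⟨q, hq⟩ := h3
    refine ⟨q, ?_⟩
    push_cast at hq
    linarith only [hq]
  have hlab : ∀ (ξ : ℤ) (c : ℤ), lab (m := 4) (fun _ => 0) (ξ - c * θ) =
      lab (m := 4) (fun _ => 0) ξ - 2 * (c : ZMod 4) := by
    intro ξ c
    rw [sy_lab, sy_lab]
    have e : (ξ - c * θ) / 4 = ξ / 4 + (-2 * c + 4 * (-(c * q))) := by
      rw [hq, show ξ - c * (8 + 16 * q) = ξ + (-2 * c + 4 * (-(c * q))) * 4 by ring,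
        Int.add_mul_ediv_right _ _ (by norm_num)]
    rw [e]
    push_cast
    have h4 : (4 : ZMod 4) = 0 := by decide
    rw [h4]
    ring
  refine ⟨(syD P).W, ?_, ?_, ?_⟩
  · intro t ht
    simp only [rowTiles, Set.mem_insert_iff, Set.mem_singleton_iff] at ht
    rcases ht with rfl | rfl | rfl | rfl | rfl | rfl | rfl
    · exact solves_tL h2m _
    · exact solves_tP h2m _
    · rw [solves_tG_iff h2m]
      intro y
      have h := sy_bij y
      show ∃! j : ZMod (4 ^ 2), j + rowE (m := 4) (fun _ => 0) syb (j.val : ℤ) = y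
      simp only [sy_rowE]
      exact h
    · exact solves_tH h2m hP hN.co _ _
    · exact solves_tH h2m hP hN.co _ _
    · exact hT _
    · exact hT _
  · intro ξ
    have e1 : ξ + 4 * θ = ξ - (-4 : ℤ) * θ := by ring
    have e2 : lab (m := 4) (fun _ => 0) (ξ + 4 * θ) = lab (m := 4) (fun _ => 0) ξ := by
      rw [e1, hlab]
      have : (2 : ZMod 4) * (((-4 : ℤ)) : ZMod 4) = 0 := by decide
      rw [this, sub_zero]
    have e3 : ((ξ + 4 * θ : ℤ) : ZMod 4) = (ξ : ZMod 4) := by
      push_cast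
      have h4 : (4 : ZMod 4) = 0 := by decide
      rw [h4]
      ring
    refine Prod.ext ?_ ?_
    · show rowE (m := 4) (fun _ => 0) syb (ξ + 4 * θ) = rowE (m := 4) (fun _ => 0) syb ξ
      unfold rowE
      rw [e2, e3]
    · funext i
      show (0 : ZMod (P i)) + (if syh i (lab (m := 4) (fun _ => 0) (ξ + 4 * θ))
        ((ξ + 4 * θ : ℤ) : ZMod 4) then ((ξ + 4 * θ : ℤ) : ZMod (P i)) else 0) =
        0 + (if syh i (lab (m := 4) (fun _ => 0) ξ) (ξ : ZMod 4) then (ξ : ZMod (P i)) else 0)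
      rw [e2, e3]
      push_cast
      rw [hN.θP i]
      simp
  · intro i ξ hξ c
    show (0 : ZMod (P i)) + (if syh i (lab (m := 4) (fun _ => 0) (ξ - c * θ))
        ((ξ - c * θ : ℤ) : ZMod 4) then ((ξ - c * θ : ℤ) : ZMod (P i)) else 0) =
        0 + (if syh i (lab (m := 4) (fun _ => 0) ξ) (ξ : ZMod 4) then (ξ : ZMod (P i)) else 0)
    have e4 : ((ξ - c * θ : ℤ) : ZMod (P i)) = (ξ : ZMod (P i)) := by
      push_cast
      rw [hN.θP i]
      ring
    rw [e4, hlab]
    have key : syh i (lab (m := 4) (fun _ => 0) ξ - 2 * (((c : ℕ) : ℤ) : ZMod 4))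
        ((ξ - c * θ : ℤ) : ZMod 4) = syh i (lab (m := 4) (fun _ => 0) ξ) (ξ : ZMod 4) := by
      rw [sy_lab]
      have hpar : ∃ r : ℤ, ξ / 4 = 2 * r + (if i then 0 else 1) := by
        refine ⟨ξ / 4 / 2, ?_⟩
        cases i
        · simp only [Bool.false_eq_true, if_false] at hξ ⊢
          omega
        · simp only [if_true] at hξ ⊢
          omega
      obtain ⟨r, hr⟩ := hpar
      rw [hr]
      push_cast
      generalize ((r : ℤ) : ZMod 4) = r'
      generalize ((c : ℕ) : ZMod 4) = c'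
      unfold syh
      cases i
      · simp only [Bool.false_eq_true, if_false]
        revert r' c'
        decide
      · simp only [if_true]
        revert r' c'
        decide
    rw [key]

end Vale.Agent.P043.Z
end
end

section

section

/-!
# Existence of two-frame tiles
-/

namespace Vale.Agent.P043.Z

open Vale.Agent.P043

variable {m : ℕ} {P : Bool → ℕ}

/-- bijection between finite sets of the same size, as a function -/
theorem existsT_bij {α : Type*} [DecidableEq α] {s t : Finset α} (h : s.card = t.card) :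
    ∃ f : α → α, Set.BijOn f s t := by
  let e := Finset.equivOfCardEq h
  refine ⟨fun x => if hx : x ∈ s then (e ⟨x, hx⟩ : α) else x, ?_, ?_, ?_⟩
  · intro x hx
    have hx' : x ∈ s := hx
    simp only [hx', dif_pos]
    exact (e ⟨x, hx'⟩).2
  · intro x hx y hy hxy
    have hx' : x ∈ s := hx
    have hy' : y ∈ s := hy
    simp only [hx', hy', dif_pos] at hxy
    have := e.injective (Subtype.ext hxy)
    exact congrArg Subtype.val this
  · intro y hy
    have hy' : y ∈ t := hy
    refine ⟨e.symm ⟨y, hy'⟩, (e.symm ⟨y, hy'⟩).2, ?_⟩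
    simp

/-- Chinese remainder theorem -/
theorem existsT_crt {p : ℕ} [NeZero m] [NeZero p] (hc : Nat.Coprime m p) (i : ZMod (m ^ 2))
    (z : ZMod p) : ∃ x : ℤ, (x : ZMod (m ^ 2)) = i ∧ (x : ZMod p) = z := by
  have hc2 : Nat.Coprime (m ^ 2) p := hc.pow_left 2
  obtain ⟨k, hk1, hk2⟩ := Nat.chineseRemainder hc2 i.val z.val
  refine ⟨(k : ℤ), ?_, ?_⟩
  · rw [Int.cast_natCast, (ZMod.natCast_eq_natCast_iff _ _ _).2 hk1, ZMod.natCast_zmod_val]
  · rw [Int.cast_natCast, (ZMod.natCast_eq_natCast_iff _ _ _).2 hk2, ZMod.natCast_zmod_val]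

/-- each residue modulo `m` has `m` preimages modulo `m ^ 2` -/
theorem existsT_sum [NeZero m] (f : ZMod m → ℕ) :
    ∑ i : ZMod (m ^ 2), f (ZMod.castHom (dvd_pow_self m (by norm_num : (2 : ℕ) ≠ 0)) (ZMod m) i)
      = m * ∑ a, f a := by
  set φ := ZMod.castHom (dvd_pow_self m (by norm_num : (2 : ℕ) ≠ 0)) (ZMod m) with hφ
  have hsurj : Function.Surjective φ := ZMod.castHom_surjective _
  have hfib : ∀ a : ZMod m, (Finset.univ.filter fun i => φ i = a).card
      = (Finset.univ.filter fun i => φ i = 0).card := fun a => by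
    have := AddMonoidHom.card_fiber_eq_of_mem_range φ.toAddMonoidHom (x := a) (y := 0)
      (hsurj a) (hsurj 0)
    exact this
  have hcard : (Finset.univ : Finset (ZMod (m ^ 2))).card
      = ∑ a : ZMod m, (Finset.univ.filter fun i => φ i = a).card :=
    Finset.card_eq_sum_card_fiberwise (fun _ _ => Finset.mem_coe.2 (Finset.mem_univ _))
  rw [Finset.card_univ, ZMod.card, Finset.sum_congr rfl (fun a _ => hfib a), Finset.sum_const,
    Finset.card_univ, ZMod.card, smul_eq_mul] at hcard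
  have hc0 : (Finset.univ.filter fun i => φ i = 0).card = m :=
    (Nat.eq_of_mul_eq_mul_left (Nat.pos_of_ne_zero (NeZero.ne m)) ((sq m).symm.trans hcard)).symm
  have hsum : ∑ i, f (φ i) = ∑ a : ZMod m, ∑ i ∈ Finset.univ.filter (fun i => φ i = a), f (φ i) :=
    (Finset.sum_fiberwise _ _ _).symm
  rw [hsum, Finset.mul_sum]
  refine Finset.sum_congr rfl fun a _ => ?_
  rw [Finset.sum_congr rfl (g := fun _ => f a) (fun i hi => by rw [(Finset.mem_filter.1 hi).2]),
    Finset.sum_const, hfib a, hc0, smul_eq_mul]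

/-- existence of two-frame tiles -/
theorem exists_T {p : ℕ} [NeZero m] (hm : 2 ≤ m) (hp : 1 < p) (hc : Nat.Coprime m p)
    (D : JData m p) : ∃ τ, IsT D τ := by
  classical
  have : NeZero p := ⟨by omega⟩
  set φ := ZMod.castHom (dvd_pow_self m (by norm_num : (2 : ℕ) ≠ 0)) (ZMod m) with hφ
  choose F hF using fun a b => existsT_bij (D.card_eq a b)
  choose X hX1 hX2 using fun (i : ZMod (m ^ 2)) (z : ZMod p) => existsT_crt hc i z
  -- the index functions
  obtain ⟨I, B, Z, hmem, hinj, hsurj⟩ : ∃ (I : ZMod (m ^ 2) × ZMod p → ZMod (m ^ 2))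
      (B : ZMod (m ^ 2) × ZMod p → ZMod m) (Z : ZMod (m ^ 2) × ZMod p → ZMod p),
      (∀ j, Z j ∈ D.J false (φ (I j)) (B j)) ∧
      (∀ j j', I j = I j' → B j = B j' → Z j = Z j' → j = j') ∧
      (∀ i b x, x ∈ D.J false (φ i) b → ∃ j, I j = i ∧ B j = b ∧ Z j = x) := by
    let T := Σ i : ZMod (m ^ 2), Σ b : ZMod m, {x // x ∈ D.J false (φ i) b}
    have hcard : Fintype.card (ZMod (m ^ 2) × ZMod p) = Fintype.card T := by
      rw [Fintype.card_prod, ZMod.card, ZMod.card, Fintype.card_sigma]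
      have h1 : ∀ i : ZMod (m ^ 2), Fintype.card (Σ b : ZMod m, {x // x ∈ D.J false (φ i) b})
          = ∑ b, (D.J false (φ i) b).card := fun i => by
        rw [Fintype.card_sigma]
        exact Finset.sum_congr rfl fun b _ => Fintype.card_coe _
      rw [Finset.sum_congr rfl fun i _ => h1 i]
      have h2 := existsT_sum (m := m) (fun a => ∑ b, (D.J false a b).card)
      rw [← hφ] at h2
      rw [h2, D.card_sum]
      ring
    let e : ZMod (m ^ 2) × ZMod p ≃ T := Fintype.equivOfCardEq hcard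
    refine ⟨fun j => (e j).1, fun j => (e j).2.1, fun j => (e j).2.2, fun j => (e j).2.2.2,
      fun j j' h1 h2 h3 => ?_, fun i b x hx => ?_⟩
    · apply e.injective
      have : ∀ s t : T, s.1 = t.1 → s.2.1 = t.2.1 → (s.2.2 : ZMod p) = t.2.2 → s = t := by
        rintro ⟨i, b, x, hx⟩ ⟨i', b', x', hx'⟩ h1 h2 h3
        simp only at h1 h2 h3
        subst h1 h2 h3
        rfl
      exact this _ _ h1 h2 h3
    · have h := e.apply_symm_apply ⟨i, b, x, hx⟩
      refine ⟨e.symm ⟨i, b, x, hx⟩, ?_, ?_, ?_⟩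
      · exact congrArg (fun s : T => s.1) h
      · exact congrArg (fun s : T => s.2.1) h
      · exact congrArg (fun s : T => (s.2.2 : ZMod p)) h
  have hcast : ∀ i : ℤ, φ (i : ZMod (m ^ 2)) = (i : ZMod m) := fun i => map_intCast φ i
  refine ⟨fun j => (X (I j) (Z j - F (φ (I j)) (B j) (Z j)),
    (((m * (B j).val : ℕ) : ZMod (m ^ 2)), Z j)),
    B, Z, fun j => F (φ (I j)) (B j) (Z j), fun _ => rfl, fun j => hX2 _ _, ?_, ?_, ?_⟩
  · intro i b x
    constructor
    · intro hx
      rw [← hcast i] at hx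
      obtain ⟨j, h1, h2, h3⟩ := hsurj _ _ _ hx
      exact ⟨j, by simp only [hX1, h1], h2, h3⟩
    · rintro ⟨j, h1, h2, h3⟩
      simp only [hX1] at h1
      have h4 := hmem j
      rw [h3, h2, h1, hcast] at h4
      exact h4
  · intro i b x
    constructor
    · intro hx
      rw [← hcast i] at hx
      obtain ⟨y, hy, hyx⟩ := (hF (φ (i : ZMod (m ^ 2))) b).surjOn hx
      obtain ⟨j, h1, h2, h3⟩ := hsurj _ _ _ hy
      exact ⟨j, by simp only [hX1, h1], h2, by simp only [h1, h2, h3]; exact hyx⟩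
    · rintro ⟨j, h1, h2, h3⟩
      simp only [hX1] at h1
      have h4 := (hF (φ (I j)) (B j)).mapsTo (hmem j)
      rw [← h3, ← h2, ← hcast i, ← h1]
      exact h4
  · intro j j' h1 h2 h3
    simp only [hX1] at h1
    have key : Z j = Z j' := by
      rcases h3 with h3 | h3
      · exact h3
      · have hj := hmem j
        have hj' := hmem j'
        simp only [h1, h2] at h3
        rw [h1, h2] at hj
        exact (hF (φ (I j')) (B j')).injOn hj hj' h3
    exact hinj _ _ h1 h2 key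

end Vale.Agent.P043.Z
end
end

section

section

/-!
# The families of a star tile
-/

namespace Vale.Agent.P043.Z

open Vale.Agent.P043

variable {m : ℕ}

theorem starJ_card_image [NeZero m] (S : Star m) (p : ℕ) [NeZero p]
    (hp : 2 ^ (S.L + 1) < p) (h : Bool) (b : ZMod m) :
    ((Finset.univ.erase (0 : ZMod m)).image fun a' => φ p (S.dl h b a')).card = m - 1 := by
  classical
  rw [Finset.card_image_of_injOn]
  · rw [Finset.card_erase_of_mem (Finset.mem_univ _), Finset.card_univ, ZMod.card]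
  · intro a ha a' ha' haa
    have h1 : a ≠ 0 := by simpa only [ne_eq, Finset.coe_erase, Finset.coe_univ, Set.mem_sdiff, Set.mem_univ, Set.mem_singleton_iff,     true_and] using ha
    have h2 : a' ≠ 0 := by simpa only [ne_eq, Finset.coe_erase, Finset.coe_univ, Set.mem_sdiff, Set.mem_univ, Set.mem_singleton_iff,     true_and] using ha'
    exact S.dl_inj h b a a' h1 h2 (φ_inj hp (S.dl_lt h b a) (S.dl_lt h b a') haa)

theorem starJ_card_zero [NeZero m] (S : Star m) (p : ℕ) [NeZero p]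
    (hp : 2 ^ (S.L + 1) < p) (h : Bool) (b : ZMod m) :
    (S.Jf p h 0 b).card = p - (m - 1) := by
  classical
  have h1 := starJ_card_image S p hp h b
  unfold Star.Jf
  rw [if_pos rfl]
  have h2 : (Finset.univ : Finset (ZMod p)).card = p := by
    rw [Finset.card_univ, ZMod.card]
  have h3 := Finset.card_sdiff_of_subset (Finset.subset_univ
    ((Finset.univ.erase (0 : ZMod m)).image fun a' => φ p (S.dl h b a')))
  rw [h1, h2] at h3
  convert h3 using 2

theorem starJ_card_ne [NeZero m] (S : Star m) (p : ℕ) [NeZero p]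
    (h : Bool) (a b : ZMod m) (ha : a ≠ 0) :
    (S.Jf p h a b).card = 1 := by
  unfold Star.Jf
  rw [if_neg ha]
  exact Finset.card_singleton _

theorem Star.exists_J [NeZero m] (hm : 2 ≤ m) (S : Star m) (p : ℕ) [NeZero p]
    (hp : 2 ^ (S.L + 1) < p) (hmp : m < p) : ∃ J : JData m p, J.J = S.Jf p := by
  classical
  refine ⟨⟨S.Jf p, ?_, ?_, ?_⟩, rfl⟩
  · intro h a b
    rw [← Finset.card_pos]
    by_cases ha : a = 0
    · subst ha
      rw [starJ_card_zero S p hp]
      omega
    · rw [starJ_card_ne S p h a b ha]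
      exact Nat.one_pos
  · intro a b
    by_cases ha : a = 0
    · subst ha
      rw [starJ_card_zero S p hp, starJ_card_zero S p hp]
    · rw [starJ_card_ne S p _ a b ha, starJ_card_ne S p _ a b ha]
  · rw [← Finset.add_sum_erase _ _ (Finset.mem_univ (0 : ZMod m))]
    have h1 : ∑ b : ZMod m, (S.Jf p false 0 b).card = m * (p - (m - 1)) := by
      rw [Finset.sum_congr rfl (fun b _ => starJ_card_zero S p hp false b)]
      rw [Finset.sum_const, Finset.card_univ, ZMod.card, smul_eq_mul]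
    have h2 : ∑ a ∈ Finset.univ.erase (0 : ZMod m), ∑ b : ZMod m, (S.Jf p false a b).card
        = (m - 1) * m := by
      have h3 : ∀ a ∈ Finset.univ.erase (0 : ZMod m),
          ∑ b : ZMod m, (S.Jf p false a b).card = m := by
        intro a ha
        have ha' : a ≠ 0 := (Finset.mem_erase.mp ha).1
        rw [Finset.sum_congr rfl (fun b _ => starJ_card_ne S p false a b ha')]
        rw [Finset.sum_const, Finset.card_univ, ZMod.card, smul_eq_mul, mul_one]
      rw [Finset.sum_congr rfl h3, Finset.sum_const,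
        Finset.card_erase_of_mem (Finset.mem_univ _), Finset.card_univ, ZMod.card, smul_eq_mul]
    rw [h1, h2, mul_comm (m - 1) m, ← mul_add]
    congr 1
    omega

end Vale.Agent.P043.Z
end
end

section

section

/-!
# The star data of the seed block
-/

namespace Vale.Agent.P043.Z

open Vale.Agent.P043

/-- labels, first kind -/
def seedStar_tauF (h : Bool) (a b : ZMod 4) : ℕ :=
  if a = 1 then b.val % 2 else if a = 3 then (b.val + 1) % 2 else
    if a = 2 then 2 + (b - (if h then 2 else 0)).val else 0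

/-- exclusion labels, first kind -/
def seedStar_dlF (_h : Bool) (b a : ZMod 4) : ℕ :=
  if a = 1 then 0 else if a = 3 then 1 else if a = 2 then 2 + b.val else 0

/-- labels, second kind -/
def seedStar_tauT (h : Bool) (a b : ZMod 4) : ℕ :=
  if a = 0 then 0 else 2 * (a.val - 1) + (b.val + (if h then a.val else 0)) % 2

/-- exclusion labels, second kind -/
def seedStar_dlT (_h : Bool) (b a : ZMod 4) : ℕ :=
  if a = 0 then 0 else 2 * (a.val - 1) + b.val % 2

/-- star data, first kind -/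
def seedStar_F : Star 4 where
  τ := seedStar_tauF
  dl := seedStar_dlF
  L := 8
  τ_lt := by decide
  dl_lt := by decide
  dl_inj := by decide
  nc := by decide

/-- star data, second kind -/
def seedStar_T : Star 4 where
  τ := seedStar_tauT
  dl := seedStar_dlT
  L := 8
  τ_lt := by decide
  dl_lt := by decide
  dl_inj := by decide
  nc := by decide

theorem seedStar_F_ok_pt : ∀ (h : Bool) (a u v : ZMod 4), a ≠ 0 →
    ((∀ β : ZMod 4, ∃ a', a' ≠ 0 ∧ seedStar_tauF h a (β + u - v) = seedStar_dlF h β a') ↔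
      (a = 2 → u = v + (if h then 2 else 0))) := by decide

theorem seedStar_F_inj_pt : ∀ (h : Bool) (a a' c c' : ZMod 4), a ≠ 0 → a' ≠ 0 →
    (a = a' + 2 → c' = c + (if h then 2 else 0)) →
    seedStar_tauF h a c = seedStar_tauF h a' c' → a = a' := by (clear * -; decide)

theorem seedStar_T_ok_pt : ∀ (h : Bool) (a u v : ZMod 4), a ≠ 0 →
    ((∀ β : ZMod 4, ∃ a', a' ≠ 0 ∧ seedStar_tauT h a (β + u - v) = seedStar_dlT h β a') ↔
      ((u.val : ZMod 2) = (v.val : ZMod 2) + (if h then (a.val : ZMod 2) else 0))) := by (clear * -; decide)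

theorem seedStar_T_inj_pt : ∀ (h : Bool) (a a' c c' : ZMod 4), a ≠ 0 → a' ≠ 0 →
    seedStar_tauT h a c = seedStar_tauT h a' c' → a = a' := by decide

theorem seedStar_cases : ∀ a : ZMod 4, a ≠ 0 → a = 1 ∨ a = 2 ∨ a = 3 := by decide

theorem seedStar_F_ok (h : Bool) (b : ZMod 4 → ZMod 4) :
    seedStar_F.Ok h b ↔ ∀ x, b (x + 2) = b x + (if h then 2 else 0) := by
  constructor
  · intro H x
    have h1 := (seedStar_F_ok_pt h 2 (b (x + 2)) (b (x + 2 - 2)) (by decide)).1
      (fun β => H (x + 2) β 2 (by decide)) rfl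
    rwa [add_sub_cancel_right] at h1
  · intro H x β a ha
    refine (seedStar_F_ok_pt h a (b x) (b (x - a)) ha).2 ?_ β
    rintro rfl
    have h1 := H (x - 2)
    rwa [sub_add_cancel] at h1

theorem seedStar_F_inj (h : Bool) (b : ZMod 4 → ZMod 4) (H : seedStar_F.Ok h b) :
    seedStar_F.Inj h b := by
  rw [seedStar_F_ok] at H
  intro x β a a' ha ha' heq
  refine seedStar_F_inj_pt h a a' _ _ ha ha' ?_ heq
  intro h1
  have h2 := H (x - a)
  have h3 : x - a + 2 = x - a' := by rw [h1]; ring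
  rw [h3] at h2
  rw [h2]
  cases h
  · simp only [Bool.false_eq_true, ↓reduceIte, add_zero]
  · simp only [if_true]
    have h4 : (-(2 : ZMod 4)) = 2 := by decide
    calc β + b x - (b (x - a) + 2) = β + b x - b (x - a) + (-2) := by ring
      _ = _ := by rw [h4]

theorem seedStar_T_ok (h : Bool) (b : ZMod 4 → ZMod 4) :
    seedStar_T.Ok h b ↔
      ∀ x, ((b (x + 1)).val : ZMod 2) = ((b x).val : ZMod 2) + (if h then 1 else 0) := by
  constructor
  · intro H x
    have h1 := (seedStar_T_ok_pt h 1 (b (x + 1)) (b (x + 1 - 1)) (by decide)).1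
      (fun β => H (x + 1) β 1 (by decide))
    rw [add_sub_cancel_right] at h1
    rw [h1]
    cases h <;> rfl
  · intro H x β a ha
    refine (seedStar_T_ok_pt h a (b x) (b (x - a)) ha).2 ?_ β
    have h1 := H (x - 1)
    have h2 := H (x - 2)
    have h3 := H (x - 3)
    have e1 : x - 1 + 1 = x := by ring
    have e2 : x - 2 + 1 = x - 1 := by ring
    have e3 : x - 3 + 1 = x - 2 := by ring
    rw [e1] at h1
    rw [e2] at h2
    rw [e3] at h3
    rcases seedStar_cases a ha with rfl | rfl | rfl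
    · rw [h1]
      cases h <;> rfl
    · rw [h1, h2, add_assoc]
      congr 1
      cases h <;> rfl
    · rw [h1, h2, h3, add_assoc, add_assoc]
      congr 1
      cases h <;> rfl

theorem seedStar_T_inj (h : Bool) (b : ZMod 4 → ZMod 4) : seedStar_T.Inj h b := by
  intro x β a a' ha ha' heq
  exact seedStar_T_inj_pt h a a' _ _ ha ha' heq

theorem exists_seedStar (i : Bool) : ∃ S : Star 4, S.L ≤ 8 ∧
    (∀ (h : Bool) (b : ZMod 4 → ZMod 4), S.Ok h b ↔ if i then
        (∀ x, ((b (x + 1)).val : ZMod 2) = ((b x).val : ZMod 2) + (if h then 1 else 0))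
      else (∀ x, b (x + 2) = b x + (if h then 2 else 0))) ∧
    (∀ (h : Bool) (b : ZMod 4 → ZMod 4), S.Ok h b → S.Inj h b) := by
  cases i
  · refine ⟨seedStar_F, le_refl _, fun h b => ?_, seedStar_F_inj⟩
    rw [seedStar_F_ok]
    simp
  · refine ⟨seedStar_T, le_refl _, fun h b => ?_, fun h b _ => seedStar_T_inj h b⟩
    rw [seedStar_T_ok]
    simp only [ZMod.natCast_val, ↓reduceIte]

end Vale.Agent.P043.Z
end
end

section

section

/-!
# Existence of blocks
-/

namespace Vale.Agent.P043.Z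

open Vale.Agent.P043

theorem eb_rowTiles_finite (m : ℕ) (P : Bool → ℕ)
    (τ : (i : Bool) → ZMod (m ^ 2) × ZMod (P i) → ℤ × (ZMod (m ^ 2) × ZMod (P i))) :
    (rowTiles m P τ).Finite := by
  rw [rowTiles]
  exact Set.toFinite _

theorem eb_theta (m σ : ℕ) (P : Bool → ℕ) (hc : ∀ i, Nat.Coprime m (P i)) :
    ∃ θ : ℤ, (θ : ZMod (m ^ 2)) = ((σ * m : ℕ) : ZMod (m ^ 2)) ∧
      ∀ i, (θ : ZMod (P i)) = 0 := by
  have h1 : Nat.Coprime (m ^ 2) (P false * P true) :=
    Nat.Coprime.mul_right ((hc false).pow_left 2) ((hc true).pow_left 2)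
  obtain ⟨k, hk1, hk2⟩ := Nat.chineseRemainder h1 (σ * m) 0
  refine ⟨(k : ℤ), ?_, fun i => ?_⟩
  · rw [Int.cast_natCast]
    exact (ZMod.natCast_eq_natCast_iff _ _ _).mpr hk1
  · rw [Int.cast_natCast, ZMod.natCast_eq_zero_iff]
    have h2 : P false * P true ∣ k := (Nat.modEq_zero_iff_dvd).mp hk2
    cases i
    · exact (dvd_mul_right _ _).trans h2
    · exact (dvd_mul_left _ _).trans h2

/-- existence of bit blocks with prescribed moduli -/
theorem exists_bitBlk (m : ℕ) (hm : 3 ≤ m) (P : Bool → ℕ) (hP : ∀ i, 2 ^ (2 * m * m + 1) < P i)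
    (hc : ∀ i, Nat.Coprime m (P i)) (hPP : Nat.Coprime (P false) (P true)) :
    ∃ B : Blk, B.m = m ∧ B.P = P ∧ B.IsBit := by
  have hm0 : NeZero m := ⟨by omega⟩
  have hP0 : ∀ i, NeZero (P i) := fun i => ⟨(Nat.zero_lt_of_lt (hP i)).ne'⟩
  have hmP : ∀ i, m < P i := fun i =>
    (Nat.lt_two_pow_self.trans_le (Nat.pow_le_pow_right (by norm_num)
      (by nlinarith only [hm]))).trans (hP i)
  obtain ⟨θ, hθ, hθP⟩ := eb_theta m 1 P hc
  choose S hL h1 h2 h3 h4 using fun i : Bool => exists_bitStar hm i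
  have hN : Num m P θ 1 (2 * m * m) := ⟨hP, hmP, hc, hθ, hθP⟩
  choose J hJ using fun i : Bool => Star.exists_J (by omega) (S i) (P i)
    (by rw [hL]; exact hP i) (hmP i)
  choose τ hτ using fun i : Bool => exists_T (by omega) (by have := hmP i; omega) (hc i) (J i)
  exact ⟨⟨m, P, θ, rowTiles m P τ, eb_rowTiles_finite m P τ, by omega,
      fun i => by have := hmP i; omega⟩, rfl, rfl,
    fun W hW => bit_no hm S hN hL h1 h2 h3 h4 J hJ τ hτ W hW,
    fun st => bit_yes hm S hN hL h1 h2 h3 h4 J hJ τ hτ st⟩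

/-- existence of the seed block -/
theorem exists_seedBlk (P : Bool → ℕ) (hP : ∀ i, 2 ^ 9 < P i)
    (hc : ∀ i, Nat.Coprime 4 (P i)) (hPP : Nat.Coprime (P false) (P true)) :
    ∃ B : Blk, B.m = 4 ∧ B.P = P ∧ ∃ pr, B.IsSeed pr := by
  have hP0 : ∀ i, NeZero (P i) := fun i => ⟨(Nat.zero_lt_of_lt (hP i)).ne'⟩
  have hmP : ∀ i, 4 < P i := fun i => by have := hP i; omega
  obtain ⟨θ, hθ, hθP⟩ := eb_theta 4 2 P hc
  choose S hL h1 h2 using fun i : Bool => exists_seedStar i
  have hN : Num 4 P θ 2 8 := ⟨hP, hmP, hc, hθ, hθP⟩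
  choose J hJ using fun i : Bool => Star.exists_J (by norm_num) (S i) (P i)
    ((Nat.pow_le_pow_right (by norm_num) (Nat.succ_le_succ (hL i))).trans_lt (hP i)) (hmP i)
  choose τ hτ using fun i : Bool => exists_T (by norm_num) (by have := hmP i; omega) (hc i) (J i)
  exact ⟨⟨4, P, θ, rowTiles 4 P τ, eb_rowTiles_finite 4 P τ, by norm_num,
      fun i => by have := hmP i; omega⟩, rfl, rfl, par4,
    fun W hW => seed_no S hN hL h1 J hJ τ hτ W hW,
    seed_yes S hN hL h1 h2 J hJ τ hτ⟩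

end Vale.Agent.P043.Z
end
end
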