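import Vale.Agent.P043.MathlibUsed
import Vale.Agent.P043.Bdl.B1
import Vale.Agent.P043.Defs

set_option linter.all false

section

section

/-!
# The global family: definitions
-/

namespace Vale.Agent.P043.Z

open Vale.Agent.P043

section

variable {I : Type} (B : I → Blk) {X : Type} [AddCommGroup X]

/-- the fibre of the global group -/
abbrev GF := (n : I) → FF (B n).m (B n).P

/-- common index set -/
abbrev GJ := (n : I) → KK (B n).m (B n).P

/-- embedding -/
def gemb (j : GJ B) : GF B := fun n => emb (B n).m (B n).P (j n)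

/-- base tile -/
def gBase : GJ B → X × GF B := fun j => (0, gemb B j)

variable [DecidableEq I]

/-- unit vector in the row coordinate of block `n` -/
def gone (n : I) : GF B := Pi.single n ((1 : ZMod ((B n).m ^ 3)), 0)

/-- tile of block `n` -/
def gBlock (u : I → X) (n : I) (t : KK (B n).m (B n).P → ℤ × KK (B n).m (B n).P) :
    GJ B → X × GF B := fun j =>
  ((t (j n)).1 • u n, gemb B (Function.update j n (t (j n)).2))

/-- row shift tile -/
def gShift (u : I → X) (n : I) (i : Bool) : GJ B → X × GF B := fun j =>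
  if (j n).2 i = 0 then ((B n).θ • u n, gemb B j + gone B n) else (0, gemb B j)

/-- product tile -/
def gProd (n n' : I) : GJ B → X × GF B := fun j =>
  if j n = 0 then (0, gemb B j + gone B n') else (0, gemb B j)

/-- clause tile: cyclic list of blocks `c` with literals `l` -/
def gClause {r : ℕ} (c : Fin (r + 1) → I) (l : Fin (r + 1) → Bool) : GJ B → X × GF B := fun j =>
  (0, gemb B j + ∑ i, if (j (c (i - 1))).2 (l (i - 1)) = 0 then gone B (c i) else 0)

/-- a clause -/
structure Clause (I : Type) where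
  r : ℕ
  c : Fin (r + 1) → I
  l : Fin (r + 1) → Bool
  inj : Function.Injective c

/-- neutrality at `x` -/
def gNeu (u : I → X) (W : (n : I) → X → KK (B n).m (B n).P) (n : I) (i : Bool) (x : X) : Prop :=
  ∀ c : ℕ, (W n (x - ((c : ℤ) * (B n).θ) • u n)).2 i = (W n x).2 i

/-- the family -/
def GFam (u : I → X) (Cl : Set (Clause I)) : Set (GJ B → X × GF B) :=
  {gBase B} ∪ (⋃ n, gBlock B u n '' (B n).T) ∪ (Set.range fun p : I × Bool => gShift B u p.1 p.2) ∪
    {t | ∃ n n', n ≠ n' ∧ t = gProd B n n'} ∪ (⋃ k ∈ Cl, {gClause B k.c k.l})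

/-- product set of row data `ρ n x c : FF` (the point of row `c` over `x` of block `n`) -/
def PA (ρ : (n : I) → X → ZMod (B n).m → FF (B n).m (B n).P) : Set (X × GF B) :=
  {g | ∀ n, g.2 n = ρ n g.1 (rowOf (B n).m (g.2 n).1)}

/-- the row data are consistent -/
def IsRow (ρ : (n : I) → X → ZMod (B n).m → FF (B n).m (B n).P) : Prop :=
  ∀ n x c, rowOf (B n).m (ρ n x c).1 = c

/-- the set of the `n`-th block -/
def RA {m : ℕ} {P : Bool → ℕ} (ρ : X → ZMod m → FF m P) : Set (X × FF m P) :=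
  {g | g.2 = ρ g.1 (rowOf m g.2.1)}

/-- the tile of a block alone -/
def rBlock {m : ℕ} {P : Bool → ℕ} (u : X) (t : KK m P → ℤ × KK m P) : KK m P → X × FF m P :=
  fun k => ((t k).1 • u, emb m P (t k).2)

end

end Vale.Agent.P043.Z
end
end

section

section

/-!
# The centres add up

PROOF.  Suppose `d := cG + cK - cH ≠ 0`; `sa_lemmaB d` (B/SudokuAperiodic.lean) gives `g, k`.  Choose a pair
`(α, β)` with `ρ α = g + cG`, `ρ β = k + cK`, `fineG D α`, `fineK D β`, `fineH D (α + β)`, `(8α, 8β) ∉ D`: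
there are `(N/8)²` pairs with the residues (`cnt_class`), and the bad pairs number at most
`N * (N/1024) * 3 + N²/65536 < N²/64` (`fineG_cnt`, ..., `thin_eight`).  Then `G (8α) = g`, `K (8β) = k`,
`H (8(α+β)) = g + k + d` (`ρ (α + β) - cH = g + k + d ≠ 0`), and `q4 (8α) (8β)` contradicts the choice of
`g, k` in each of the four cases.
-/

namespace Vale.Agent.P043.Z3

open Vale.Agent.P043.B Classical

variable {N : ℕ} [NeZero N] {ρ : ZMod N →+* ZMod 8} {G K H L M N' : ZMod N → ZMod 8}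
  {D : Set (ZMod N × ZMod N)}

theorem robCentre_prod (p q : ZMod N → Prop) :
    cnt (fun x : ZMod N × ZMod N => p x.1 ∧ q x.2) = cnt p * cnt q := by
  unfold cnt
  rw [← Finset.card_product]
  congr 1
  ext x
  simp

theorem robCentre_fst (p : ZMod N → Prop) :
    cnt (fun x : ZMod N × ZMod N => p x.1) = cnt p * N := by
  have h := robCentre_prod p (fun _ => True)
  have h2 : cnt (fun _ : ZMod N => True) = N := by
    unfold cnt
    simp [ZMod.card]
  rw [h2] at h
  rw [← h]
  congr 1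
  funext x
  simp

theorem robCentre_snd (p : ZMod N → Prop) :
    cnt (fun x : ZMod N × ZMod N => p x.2) = cnt p * N := by
  rw [← robCentre_fst p]
  exact cnt_equiv (Equiv.prodComm (ZMod N) (ZMod N)) (fun x : ZMod N × ZMod N => p x.1)

theorem robCentre_sum (p : ZMod N → Prop) :
    cnt (fun x : ZMod N × ZMod N => p (x.1 + x.2)) = cnt p * N := by
  rw [← robCentre_fst p]
  let e : ZMod N × ZMod N ≃ ZMod N × ZMod N :=
    { toFun := fun x => (x.1 + x.2, x.2)
      invFun := fun x => (x.1 - x.2, x.2)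
      left_inv := fun x => by simp
      right_inv := fun x => by simp }
  exact cnt_equiv e (fun x : ZMod N × ZMod N => p x.1)

/-- a pair with prescribed residues, all three lines fine, outside `D` -/
theorem robCentre_pair (hD : Thin D) (u v : ZMod 8) :
    ∃ α β : ZMod N, ρ α = u ∧ ρ β = v ∧ fineG D α ∧ fineK D β ∧ fineH D (α + β) ∧
      (8 * α, 8 * β) ∉ D := by
  have hN : 0 < N := Nat.pos_of_ne_zero (NeZero.ne N)
  have hu := cnt_class ρ u
  have hv := cnt_class ρ v
  have h0 := robCentre_prod (N := N) (fun α => ρ α = u) (fun β => ρ β = v)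
  have h1 := fineG_cnt hD
  have h2 := fineK_cnt hD
  have h3 := fineH_cnt hD
  have h4 := thin_eight hD
  have g1 := robCentre_fst (N := N) (fun α => ¬ fineG D α)
  have g2 := robCentre_snd (N := N) (fun β => ¬ fineK D β)
  have g3 := robCentre_sum (N := N) (fun γ => ¬ fineH D γ)
  have o1 := cnt_or (fun x : ZMod N × ZMod N => ¬ fineG D x.1) (fun x => ¬ fineK D x.2)
  have o2 := cnt_or (fun x : ZMod N × ZMod N => ¬ fineG D x.1 ∨ ¬ fineK D x.2)
    (fun x => ¬ fineH D (x.1 + x.2))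
  have o3 := cnt_or (fun x : ZMod N × ZMod N =>
    (¬ fineG D x.1 ∨ ¬ fineK D x.2) ∨ ¬ fineH D (x.1 + x.2)) (fun x => (8 * x.1, 8 * x.2) ∈ D)
  have hlt : cnt (fun x : ZMod N × ZMod N =>
      ((¬ fineG D x.1 ∨ ¬ fineK D x.2) ∨ ¬ fineH D (x.1 + x.2)) ∨ (8 * x.1, 8 * x.2) ∈ D) <
      cnt (fun x : ZMod N × ZMod N => ρ x.1 = u ∧ ρ x.2 = v) := by
    rw [h0]
    have k1 : 1024 * (cnt (fun α => ¬ fineG D α) * N) ≤ N * N := by
      calc 1024 * (cnt (fun α => ¬ fineG D α) * N)
          = (1024 * cnt (fun α => ¬ fineG D α)) * N := by ring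
        _ ≤ N * N := Nat.mul_le_mul_right _ h1
    have k2 : 1024 * (cnt (fun α => ¬ fineK D α) * N) ≤ N * N := by
      calc 1024 * (cnt (fun α => ¬ fineK D α) * N)
          = (1024 * cnt (fun α => ¬ fineK D α)) * N := by ring
        _ ≤ N * N := Nat.mul_le_mul_right _ h2
    have k3 : 1024 * (cnt (fun α => ¬ fineH D α) * N) ≤ N * N := by
      calc 1024 * (cnt (fun α => ¬ fineH D α) * N)
          = (1024 * cnt (fun α => ¬ fineH D α)) * N := by ring
        _ ≤ N * N := Nat.mul_le_mul_right _ h3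
    have k4 : 64 * (cnt (fun α : ZMod N => ρ α = u) * cnt (fun β : ZMod N => ρ β = v)) = N * N := by
      calc 64 * (cnt (fun α : ZMod N => ρ α = u) * cnt (fun β : ZMod N => ρ β = v))
          = (8 * cnt (fun α : ZMod N => ρ α = u)) * (8 * cnt (fun β : ZMod N => ρ β = v)) := by ring
        _ = N * N := by rw [hu, hv]
    have k5 : 0 < N * N := Nat.mul_pos hN hN
    rw [pow_two] at h4
    omega
  obtain ⟨x, ⟨hx1, hx2⟩, hx3⟩ := exists_of_cnt hlt
  refine ⟨x.1, x.2, hx1, hx2, ?_, ?_, ?_, ?_⟩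
  · by_contra h
    exact hx3 (Or.inl (Or.inl (Or.inl h)))
  · by_contra h
    exact hx3 (Or.inl (Or.inl (Or.inr h)))
  · by_contra h
    exact hx3 (Or.inl (Or.inr h))
  · intro h
    exact hx3 (Or.inr h)

theorem centre_add (h : Lev ρ G K H L M N' D) (cG cK cH : ZMod 8)
    (hG : ∀ α, fineG D α → ρ α ≠ cG → G (8 * α) = ρ α - cG)
    (hK : ∀ α, fineK D α → ρ α ≠ cK → K (8 * α) = ρ α - cK)
    (hH : ∀ α, fineH D α → ρ α ≠ cH → H (8 * α) = ρ α - cH) : cH = cG + cK := by
  by_contra hne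
  have hd : cG + cK - cH ≠ 0 := sub_ne_zero.2 (Ne.symm hne)
  obtain ⟨g, k, h1, h2, h3, h4, h5, h6⟩ := sa_lemmaB (cG + cK - cH) hd
  obtain ⟨α, β, hα, hβ, fG, fK, fH, hD⟩ := robCentre_pair (ρ := ρ) h.thin (g + cG) (k + cK)
  have eG : G (8 * α) = g := by
    rw [hG α fG (by rw [hα]; simpa using h1), hα]; ring
  have eK : K (8 * β) = k := by
    rw [hK β fK (by rw [hβ]; simpa using h2), hβ]; ring
  have eρ : ρ (α + β) = g + cG + (k + cK) := by rw [map_add, hα, hβ]
  have eH : H (8 * α + 8 * β) = g + k + (cG + cK - cH) := by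
    rw [← mul_add, hH (α + β) fH, eρ]
    · ring
    · rw [eρ]
      intro e
      apply h3
      rw [← sub_eq_zero] at e
      rw [← e]
      ring
  rcases h.q4 (8 * α) (8 * β) hD with e | e | e | e
  · rw [eH, eG] at e
    apply h4
    have : g + k + (cG + cK - cH) - g = 0 := by rw [e]; ring
    rw [← this]; ring
  · rw [eH, eK] at e
    apply h5
    have : g + k + (cG + cK - cH) - k = 0 := by rw [e]; ring
    rw [← this]; ring
  · rw [eH, eG, eK] at e
    apply hd
    have : g + k + (cG + cK - cH) - (g + k) = 0 := by rw [e]; ring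
    rw [← this]; ring
  · rw [eG, eK] at e
    apply h6
    rw [e]; ring

end Vale.Agent.P043.Z3
end
end

section

section

/-!
# Descent

PROOF.  `star_gen` with `g α = G (8α)`, `l β = L (8β)`, `Fi = fineG D` (`fineG_cnt`: `1024 * .. ≤ N`, so
`8 * .. < N`), `row_G`; the same for `K, M` and `H, N'`: centres `cG, cK, cH`; `centre_add`.  Choose
`ka, kb` with `ρ ka = cG`, `ρ kb = cK`.  New system: `thin_dilate`; `q1..q4` at `(a,b)` are the old ones at
`(8(a+ka), 8(b+kb))` (ring identities for the arguments).  `eG`: if `ρ m ≠ 0` and `G (8(m+ka)) ≠ ρ m` then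
`m + ka` is not fine (otherwise `ρ (m+ka) ≠ cG` gives `G (8(m+ka)) = ρ (m + ka) - cG = ρ m`); so the
number is at most `cnt (¬ fineG)` (translation), `fineG_cnt`.  `eH`: with `m + ka + kb`, `ρ (ka+kb) = cH`.
-/

namespace Vale.Agent.P043.Z3

open Vale.Agent.P043.B Classical

variable {N : ℕ} [NeZero N] {ρ : ZMod N →+* ZMod 8} {G K H L M N' : ZMod N → ZMod 8}
  {D : Set (ZMod N × ZMod N)}

omit [NeZero N] in
theorem rde_surj (ρ : ZMod N →+* ZMod 8) (c : ZMod 8) : ∃ k : ZMod N, ρ k = c :=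
  ⟨((c.val : ℕ) : ZMod N), by rw [map_natCast, ZMod.natCast_zmod_val]⟩

theorem rde_shift (ρ : ZMod N →+* ZMod 8) (F : ZMod N → ZMod 8) (Fi : ZMod N → Prop)
    (c : ZMod 8) (k : ZMod N) (hk : ρ k = c)
    (hF : ∀ α, Fi α → ρ α ≠ c → F (8 * α) = ρ α - c)
    (hc : 1024 * cnt (fun α => ¬ Fi α) ≤ N) :
    1024 * cnt (fun m => ρ m ≠ 0 ∧ F (8 * (m + k)) ≠ ρ m) ≤ N := by
  have h1 : cnt (fun m : ZMod N => ρ m ≠ 0 ∧ F (8 * (m + k)) ≠ ρ m) ≤
      cnt (fun m : ZMod N => ¬ Fi (m + k)) := by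
    apply cnt_le
    rintro m ⟨hm0, hm1⟩ hfi
    apply hm1
    have e : ρ (m + k) = ρ m + c := by rw [map_add, hk]
    rw [hF (m + k) hfi (by rw [e]; intro h; exact hm0 (by linear_combination h)), e]
    ring
  have h2 : cnt (fun m : ZMod N => ¬ Fi (m + k)) = cnt (fun m : ZMod N => ¬ Fi m) :=
    cnt_equiv (Equiv.addRight k) (fun m => ¬ Fi m)
  omega

theorem Lev.descend (h : Lev ρ G K H L M N' D) :
    ∃ ka kb : ZMod N, Lev ρ (fun m => G (8 * (m + ka))) (fun m => K (8 * (m + kb)))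
      (fun m => H (8 * (m + ka + kb))) (fun m => L (8 * (m + ka + 8 * kb)))
      (fun m => M (8 * (m + kb + 8 * ka))) (fun m => N' (8 * (m + ka + 9 * kb)))
      {x | (8 * (x.1 + ka), 8 * (x.2 + kb)) ∈ D} := by
  have hN : 0 < N := Nat.pos_of_ne_zero (NeZero.ne N)
  have fG := fineG_cnt h.thin
  have fK := fineK_cnt h.thin
  have fH := fineH_cnt h.thin
  obtain ⟨cG, hG⟩ := star_gen ρ (fun α => G (8 * α)) (fun β => L (8 * β)) (fineG D)
    (by omega) (row_G h)
  obtain ⟨cK, hK⟩ := star_gen ρ (fun α => K (8 * α)) (fun β => M (8 * β)) (fineK D)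
    (by omega) (row_K h)
  obtain ⟨cH, hH⟩ := star_gen ρ (fun α => H (8 * α)) (fun β => N' (8 * β)) (fineH D)
    (by omega) (row_H h)
  have hcen := centre_add h cG cK cH hG hK hH
  obtain ⟨ka, hka⟩ := rde_surj ρ cG
  obtain ⟨kb, hkb⟩ := rde_surj ρ cK
  refine ⟨ka, kb, ?_⟩
  refine
    { thin := thin_dilate h.thin ka kb
      q1 := ?_, q2 := ?_, q3 := ?_, q4 := ?_
      eG := rde_shift ρ G (fineG D) cG ka hka hG fG
      eK := rde_shift ρ K (fineK D) cK kb hkb hK fK
      eH := ?_ }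
  · intro a b hab hh
    have e1 : 8 * (a + b + ka + kb) = 8 * (a + ka) + 8 * (b + kb) := by ring
    have e2 : 8 * (a + 8 * b + ka + 8 * kb) = 8 * (a + ka) + 8 * (8 * (b + kb)) := by ring
    have := h.q1 (8 * (a + ka)) (8 * (b + kb)) hab (by rw [← e1]; exact hh)
    rw [← e2] at this
    exact this
  · intro a b hab hh
    have e1 : 8 * (a + b + ka + kb) = 8 * (a + ka) + 8 * (b + kb) := by ring
    have e2 : 8 * (b + 8 * a + kb + 8 * ka) = 8 * (b + kb) + 8 * (8 * (a + ka)) := by ring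
    have := h.q2 (8 * (a + ka)) (8 * (b + kb)) hab (by rw [← e1]; exact hh)
    rw [← e2] at this
    exact this
  · intro a b hab hh
    have e1 : 8 * (a + b + ka + kb) = 8 * (a + ka) + 8 * (b + kb) := by ring
    have e2 : 8 * (a + 9 * b + ka + 9 * kb) = 8 * (a + ka) + 9 * (8 * (b + kb)) := by ring
    have := h.q3 (8 * (a + ka)) (8 * (b + kb)) hab hh
    rw [← e1, ← e2] at this
    exact this
  · intro a b hab
    have e1 : 8 * (a + b + ka + kb) = 8 * (a + ka) + 8 * (b + kb) := by ring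
    have := h.q4 (8 * (a + ka)) (8 * (b + kb)) hab
    rw [← e1] at this
    exact this
  · have h1 := rde_shift ρ H (fineH D) cH (ka + kb) (by rw [map_add, hka, hkb, hcen]) hH fH
    simpa only [add_assoc] using h1

theorem rde_iter (h : Lev ρ G K H L M N' D) (j : ℕ) :
    ∃ (s : ZMod N) (K₁ H₁ L₁ M₁ N₁ : ZMod N → ZMod 8) (D₁ : Set (ZMod N × ZMod N)),
      Lev ρ (fun m => G (8 ^ j * m + s)) K₁ H₁ L₁ M₁ N₁ D₁ := by
  induction j with
  | zero =>
    refine ⟨0, K, H, L, M, N', D, ?_⟩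
    have e : (fun m : ZMod N => G (8 ^ 0 * m + 0)) = G := by
      funext m; rw [pow_zero, one_mul, add_zero]
    rw [e]; exact h
  | succ j ih =>
    obtain ⟨s, K₁, H₁, L₁, M₁, N₁, D₁, h₁⟩ := ih
    obtain ⟨ka, kb, h₂⟩ := h₁.descend
    have e : (fun m : ZMod N => G (8 ^ j * (8 * (m + ka)) + s)) =
        fun m => G (8 ^ (j + 1) * m + (8 ^ (j + 1) * ka + s)) := by
      funext m
      congr 1
      ring
    rw [e] at h₂
    exact ⟨8 ^ (j + 1) * ka + s, _, _, _, _, _, _, h₂⟩

omit [NeZero N] in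
theorem rde_per (T : ℕ) (hper : ∀ m, G (m + (T : ZMod N)) = G m) (k : ℕ) :
    ∀ m, G (m + (k * T : ℕ)) = G m := by
  induction k with
  | zero => intro m; simp
  | succ k ih =>
    intro m
    have e : m + (((k + 1) * T : ℕ) : ZMod N) = (m + ((k * T : ℕ) : ZMod N)) + (T : ZMod N) := by
      push_cast; ring
    rw [e, hper, ih]

/-- PROOF.  By `Lev.descend` and induction on `j`: for every `j` there is an `s` and a system `Lev` whose
first function is `m ↦ G (8^j m + s)`.  Write `T = 2^e T'`, `T'` odd; level `j = e`: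
`8^e T' = 4^e T`, so `G (8^e (m + T') + s) = G (8^e m + s)`.  Put `u := ρ T'`, `4 u ≠ 0`, so `u ≠ 0`; choose
`w` with `w ≠ 0`, `w + u ≠ 0` (`sa_shift`); among the `N/8` elements `m` with `ρ m = w` there is one with
`m` and `m + T'` not exceptional (`2 N/1024 < N/8`): `w = G_e m = G_e (m + T') = w + u`, contradiction. -/
theorem lev_false (T : ℕ) (hT : 0 < T) (hN : N = 8 * T) (h : Lev ρ G K H L M N' D)
    (hper : ∀ m, G (m + (T : ZMod N)) = G m) : False := by
  obtain ⟨e, T', hodd, hTe⟩ := Nat.exists_eq_two_pow_mul_odd hT.ne'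
  obtain ⟨s, K₁, H₁, L₁, M₁, N₁, D₁, h₁⟩ := rde_iter h e
  have hp : ∀ m : ZMod N, G (8 ^ e * (m + (T' : ZMod N)) + s) = G (8 ^ e * m + s) := by
    intro m
    have e1 : 8 ^ e * (m + (T' : ZMod N)) + s =
        (8 ^ e * m + s) + ((4 ^ e * T : ℕ) : ZMod N) := by
      rw [hTe]
      push_cast
      have e2 : (8 : ZMod N) ^ e = 4 ^ e * 2 ^ e := by
        rw [← mul_pow]; norm_num
      rw [e2]; ring
    rw [e1]
    exact rde_per T hper (4 ^ e) _
  have hu : ((T' : ℕ) : ZMod 8) ≠ 0 := by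
    intro h0
    rw [ZMod.natCast_eq_zero_iff] at h0
    obtain ⟨c, hc⟩ := h0
    obtain ⟨d, hd⟩ := hodd
    omega
  have hw : ∀ u : ZMod 8, ∃ w : ZMod 8, w ≠ 0 ∧ w + u ≠ 0 := by decide
  obtain ⟨w, hw0, hwu⟩ := hw ((T' : ℕ) : ZMod 8)
  have hcl := cnt_class ρ w
  have c1 := h₁.eG
  have c2 : cnt (fun m : ZMod N => ρ (m + (T' : ZMod N)) ≠ 0 ∧
      G (8 ^ e * (m + (T' : ZMod N)) + s) ≠ ρ (m + (T' : ZMod N))) =
      cnt (fun m : ZMod N => ρ m ≠ 0 ∧ G (8 ^ e * m + s) ≠ ρ m) :=
    cnt_equiv (Equiv.addRight (T' : ZMod N)) (fun m => ρ m ≠ 0 ∧ G (8 ^ e * m + s) ≠ ρ m)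
  have c3 := cnt_or (fun m : ZMod N => ρ m ≠ 0 ∧ G (8 ^ e * m + s) ≠ ρ m)
    (fun m : ZMod N => ρ (m + (T' : ZMod N)) ≠ 0 ∧
      G (8 ^ e * (m + (T' : ZMod N)) + s) ≠ ρ (m + (T' : ZMod N)))
  obtain ⟨m, hm, hnot⟩ := exists_of_cnt (p := fun m : ZMod N =>
      (ρ m ≠ 0 ∧ G (8 ^ e * m + s) ≠ ρ m) ∨ (ρ (m + (T' : ZMod N)) ≠ 0 ∧
      G (8 ^ e * (m + (T' : ZMod N)) + s) ≠ ρ (m + (T' : ZMod N))))
    (r := fun m : ZMod N => ρ m = w) (by omega)
  push Not at hnot
  obtain ⟨hn1, hn2⟩ := hnot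
  have g1 := hn1 (by rw [hm]; exact hw0)
  have e3 : ρ (m + (T' : ZMod N)) = w + ((T' : ℕ) : ZMod 8) := by
    rw [map_add, hm, map_natCast]
  have g2 := hn2 (by rw [e3]; exact hwu)
  rw [hp, g1, hm, e3] at g2
  exact hu (by linear_combination -g2)

end Vale.Agent.P043.Z3
end
end

section

section

/-!
# Robust non-existence: assembly

PROOF.  `N := 8 * T`, `ρ := ZMod.castHom _ (ZMod 8)`.  `G a := F 0 (a.val, 0)`, `K b := F 1 (0, b.val)`,
`H c := F 2 (c.val, 0)`, `L c := F 3 (c.val, 0)`, `M c := F 4 (0, c.val)`, `N' c := F 5 (c.val, 0)`,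
`Ca a := F 6 (a.val, 0)`, `Cb b := F 7 (0, b.val)`, `Cab c := F 8 (c.val, 0)`.  By `hFd` (iterated, `ℤ`-multiples of
`dir j`) and `hFT` (`N`-periodic): `F j (x, y)` for integers `x, y` equals `G (x : ZMod N)`, `K y`,
`H (x + y)`, `L (x + 8y)`, `M (y + 8x)`, `N' (x + 9y)`, `Ca x`, `Cb y`, `Cab (x + y)` (compare `f0..f8` in
`sol_aperiodic`, B/SudokuAperiodic.lean).  `E := {x | ∃ i, (x.1.val, x.2.val) ∈ W i}`: `Bas` by `thin_of_wild`
and `hrel`.  `base_aff`; the last part gives a pair `a, a + u`; `four_l` (hypothesis of `robust_gen`) shows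
`4 l ≠ 0`; `base_lev`; `lev_false` (`l * G (m + s)` is `T`-periodic).
-/

namespace Vale.Agent.P043.Z3

open Vale.Agent.P043.B Classical

theorem rm_dir {β : Sort*} (f : ℤ × ℤ → β) (d : ℤ × ℤ) (hd : ∀ x, f (x + d) = f x) (k : ℤ) :
    ∀ x, f (x + k • d) = f x := by
  induction k using Int.induction_on with
  | zero => intro x; simp
  | succ n ih =>
    intro x
    rw [add_smul, one_smul, ← add_assoc, hd]
    exact ih x
  | pred n ih =>
    intro x
    have h1 := hd (x + (-(n : ℤ) - 1) • d)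
    rw [← h1, add_assoc, sub_smul, one_smul, sub_add_cancel]
    exact ih x

theorem rm_per {β : Sort*} (f : ℤ × ℤ → β) (T : ℕ)
    (hT : ∀ (x u : ℤ × ℤ), f (x + (T : ℤ) • u) = f x) (x y : ℤ × ℤ)
    (h1 : ((x.1 : ℤ) : ZMod (8 * T)) = ((y.1 : ℤ) : ZMod (8 * T)))
    (h2 : ((x.2 : ℤ) : ZMod (8 * T)) = ((y.2 : ℤ) : ZMod (8 * T))) : f x = f y := by
  rw [ZMod.intCast_eq_intCast_iff_dvd_sub] at h1 h2
  obtain ⟨k1, h1⟩ := h1
  obtain ⟨k2, h2⟩ := h2
  have e : y = x + (T : ℤ) • ((8 * k1, 8 * k2) : ℤ × ℤ) := by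
    ext
    · simp only [Prod.fst_add, Prod.smul_fst, smul_eq_mul]
      push_cast at h1
      linarith
    · simp only [Prod.snd_add, Prod.smul_snd, smul_eq_mul]
      push_cast at h2
      linarith
  rw [e, hT]

theorem rm_eq {β : Sort*} (f : ℤ × ℤ → β) (T : ℕ)
    (hT : ∀ (x u : ℤ × ℤ), f (x + (T : ℤ) • u) = f x) (d : ℤ × ℤ) (hd : ∀ x, f (x + d) = f x)
    (x y : ℤ × ℤ) (k : ℤ)
    (h1 : ((x.1 : ℤ) : ZMod (8 * T)) = ((y.1 + k * d.1 : ℤ) : ZMod (8 * T)))
    (h2 : ((x.2 : ℤ) : ZMod (8 * T)) = ((y.2 + k * d.2 : ℤ) : ZMod (8 * T))) : f x = f y := by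
  rw [← rm_dir f d hd k y]
  refine rm_per f T hT x _ ?_ ?_
  · rw [h1]
    rfl
  · rw [h2]
    rfl

theorem rm_vec {α : Type} (g : Fin 9 → α) :
    g = ![g 0, g 1, g 2, g 3, g 4, g 5, g 6, g 7, g 8] := by
  funext j
  fin_cases j <;> rfl

/-- general form: the oddness of the slope `l` of the clock is a hypothesis: whenever `F 6` is affine with
slope `l` (`F 6 (a, b) = l a + c`) and the column `a` has at most `N / 64` wild points, for all `a` outside
a set `Z` of residues mod `N = 8 T` with `1024 |Z| ≤ N`, then `4 l ≠ 0`.  (`Z` := the residues that are not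
`fine0`.) -/
theorem robust_gen {I : Type} [Fintype I] (T : ℕ) (hT : 0 < T)
    (F : Fin 9 → ℤ × ℤ → ZMod 8) (hFd : ∀ j x, F j (x + dir j) = F j x)
    (hFT : ∀ j x (u : ℤ × ℤ), F j (x + (T : ℤ) • u) = F j x)
    (W : I → Set (ℤ × ℤ)) (v : I → ℤ × ℤ) (L P : I → ℕ) (hL : ∀ i, Odd (L i))
    (hWT : ∀ i x (u : ℤ × ℤ), x + (T : ℤ) • u ∈ W i ↔ x ∈ W i)
    (hWL : ∀ i x, x + (L i : ℤ) • v i ∈ W i ↔ x ∈ W i)
    (hW : ∀ i x, P i * ((Finset.range (L i)).filter
      (fun k : ℕ => x + (k : ℤ) • v i ∈ W i)).card ≤ L i)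
    (hP : ∀ i, 65536 * Fintype.card I ≤ P i)
    (hrel : ∀ x, (∀ i, x ∉ W i) → Rel (decide ((F 6 x).val < 4)) (fun j => F j x))
    (hl : ∀ l c : ZMod 8, ∀ Z : Finset (ZMod (8 * T)), 1024 * Z.card ≤ 8 * T →
      (∀ a : ℤ, (a : ZMod (8 * T)) ∉ Z → F 6 (a, 0) = l * a + c ∧
        64 * ((Finset.range (8 * T)).filter (fun b : ℕ => ∃ i, (a, (b : ℤ)) ∈ W i)).card ≤ 8 * T) →
      4 * l ≠ 0) : False := by
  have : NeZero (8 * T) := ⟨by omega⟩
  set ρ : ZMod (8 * T) →+* ZMod 8 := ZMod.castHom (Dvd.intro T rfl) (ZMod 8) with hρ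
  have hv : ∀ a : ZMod (8 * T), (((a.val : ℤ)) : ZMod (8 * T)) = a := by
    intro a
    rw [Int.cast_natCast, ZMod.natCast_zmod_val]
  have e0 : ∀ (x y : ℤ) (a : ZMod (8 * T)), (x : ZMod (8 * T)) = a →
      F 0 (x, y) = F 0 ((a.val : ℤ), 0) := by
    intro x y a ha
    refine rm_eq (F 0) T (hFT 0) (dir 0) (hFd 0) _ _ y ?_ ?_
    · simp [dir, ha]
    · simp [dir]
  have e6 : ∀ (x y : ℤ) (a : ZMod (8 * T)), (x : ZMod (8 * T)) = a →
      F 6 (x, y) = F 6 ((a.val : ℤ), 0) := by
    intro x y a ha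
    refine rm_eq (F 6) T (hFT 6) (dir 6) (hFd 6) _ _ y ?_ ?_
    · simp [dir, ha]
    · simp [dir]
  have e1 : ∀ (x y : ℤ) (b : ZMod (8 * T)), (y : ZMod (8 * T)) = b →
      F 1 (x, y) = F 1 (0, (b.val : ℤ)) := by
    intro x y b hb
    refine rm_eq (F 1) T (hFT 1) (dir 1) (hFd 1) _ _ x ?_ ?_
    · simp [dir]
    · simp [dir, hb]
  have e7 : ∀ (x y : ℤ) (b : ZMod (8 * T)), (y : ZMod (8 * T)) = b →
      F 7 (x, y) = F 7 (0, (b.val : ℤ)) := by
    intro x y b hb
    refine rm_eq (F 7) T (hFT 7) (dir 7) (hFd 7) _ _ x ?_ ?_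
    · simp [dir]
    · simp [dir, hb]
  have e2 : ∀ (x y : ℤ) (a b : ZMod (8 * T)), (x : ZMod (8 * T)) = a → (y : ZMod (8 * T)) = b →
      F 2 (x, y) = F 2 (((a + b).val : ℤ), 0) := by
    intro x y a b ha hb
    refine rm_eq (F 2) T (hFT 2) (dir 2) (hFd 2) _ _ (-y) ?_ ?_
    · simp [dir, ha, hb]
    · simp [dir, hb]
  have e8 : ∀ (x y : ℤ) (a b : ZMod (8 * T)), (x : ZMod (8 * T)) = a → (y : ZMod (8 * T)) = b →
      F 8 (x, y) = F 8 (((a + b).val : ℤ), 0) := by
    intro x y a b ha hb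
    refine rm_eq (F 8) T (hFT 8) (dir 8) (hFd 8) _ _ (-y) ?_ ?_
    · simp [dir, ha, hb]
    · simp [dir, hb]
  have e3 : ∀ (x y : ℤ) (a b : ZMod (8 * T)), (x : ZMod (8 * T)) = a → (y : ZMod (8 * T)) = b →
      F 3 (x, y) = F 3 (((a + 8 * b).val : ℤ), 0) := by
    intro x y a b ha hb
    refine rm_eq (F 3) T (hFT 3) (dir 3) (hFd 3) _ _ (-y) ?_ ?_
    · simp [dir, ha, hb]
      try ring
    · simp [dir, hb]
  have e5 : ∀ (x y : ℤ) (a b : ZMod (8 * T)), (x : ZMod (8 * T)) = a → (y : ZMod (8 * T)) = b →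
      F 5 (x, y) = F 5 (((a + 9 * b).val : ℤ), 0) := by
    intro x y a b ha hb
    refine rm_eq (F 5) T (hFT 5) (dir 5) (hFd 5) _ _ (-y) ?_ ?_
    · simp [dir, ha, hb]
      try ring
    · simp [dir, hb]
  have e4 : ∀ (x y : ℤ) (a b : ZMod (8 * T)), (x : ZMod (8 * T)) = a → (y : ZMod (8 * T)) = b →
      F 4 (x, y) = F 4 (0, ((b + 8 * a).val : ℤ)) := by
    intro x y a b ha hb
    refine rm_eq (F 4) T (hFT 4) (dir 4) (hFd 4) _ _ x ?_ ?_
    · simp [dir]
    · simp [dir, ha, hb]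
      try ring
  set E : Set (ZMod (8 * T) × ZMod (8 * T)) :=
    {x | ∃ i, (((x.1.val : ℤ), (x.2.val : ℤ)) : ℤ × ℤ) ∈ W i} with hE
  have hWN : ∀ i x (u : ℤ × ℤ), x + ((8 * T : ℕ) : ℤ) • u ∈ W i ↔ x ∈ W i := by
    intro i x u
    have : ((8 * T : ℕ) : ℤ) • u = (T : ℤ) • ((8 : ℤ) • u) := by
      rw [smul_smul]
      congr 1
      push_cast
      ring
    rw [this]
    exact hWT i x _
  have hthin : Thin E := thin_of_wild W v L P hL hWN hWL hW hP
  have hB : Bas (N := 8 * T) (fun a => F 0 ((a.val : ℤ), 0)) (fun b => F 1 (0, (b.val : ℤ)))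
      (fun c => F 2 ((c.val : ℤ), 0)) (fun c => F 3 ((c.val : ℤ), 0))
      (fun c => F 4 (0, (c.val : ℤ))) (fun c => F 5 ((c.val : ℤ), 0))
      (fun a => F 6 ((a.val : ℤ), 0)) (fun b => F 7 (0, (b.val : ℤ)))
      (fun c => F 8 ((c.val : ℤ), 0)) E := by
    refine ⟨hthin, ?_⟩
    intro a b hab
    have h := hrel ((a.val : ℤ), (b.val : ℤ)) (fun i hi => hab ⟨i, hi⟩)
    rw [rm_vec (fun j => F j ((a.val : ℤ), (b.val : ℤ)))] at h
    rw [e0 _ _ a (hv a), e1 _ _ b (hv b), e2 _ _ a b (hv a) (hv b), e3 _ _ a b (hv a) (hv b),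
      e4 _ _ a b (hv a) (hv b), e5 _ _ a b (hv a) (hv b), e6 _ _ a (hv a), e7 _ _ b (hv b),
      e8 _ _ a b (hv a) (hv b)] at h
    exact h
  obtain ⟨l, ca, cb, ha, hb, hc, -⟩ := base_aff ρ hB
  have h4 : 4 * l ≠ 0 := by
    refine hl l ca (Finset.univ.filter (fun a => ¬ fine0 E a)) ?_ ?_
    · refine le_trans (le_of_eq ?_) (fine0_cnt hthin)
      unfold cnt
      congr 3
    · intro a haZ
      rw [Finset.mem_filter] at haZ
      have hf : fine0 E (a : ZMod (8 * T)) := by
        by_contra hcon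
        exact haZ ⟨Finset.mem_univ _, hcon⟩
      constructor
      · rw [e6 a 0 (a : ZMod (8 * T)) rfl, ha _ hf]
        rw [hρ, map_intCast]
      · refine le_trans (Nat.mul_le_mul_left _ ?_) hf
        unfold cnt
        refine Finset.card_le_card_of_injOn (fun b : ℕ => (b : ZMod (8 * T))) ?_ ?_
        · intro b hb
          simp only [Finset.coe_filter, Finset.mem_range, Set.mem_ofPred_eq, Finset.mem_univ,
            true_and] at hb ⊢
          obtain ⟨hb1, i, hi⟩ := hb
          refine ⟨i, ?_⟩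
          have := rm_per (fun x => x ∈ W i) T (fun x u => propext (hWT i x u))
            (a, (b : ℤ)) ((((a : ZMod (8 * T))).val : ℤ), (((b : ZMod (8 * T))).val : ℤ))
            (hv _).symm (by
              change (((b : ℤ)) : ZMod (8 * T)) = _
              rw [Int.cast_natCast]
              exact (hv _).symm)
          exact (Eq.mp this hi)
        · intro b hb b' hb' hbb
          simp only [Finset.coe_filter, Finset.mem_range, Set.mem_ofPred_eq] at hb hb' hbb
          have := congrArg ZMod.val hbb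
          rw [ZMod.val_natCast_of_lt hb.1, ZMod.val_natCast_of_lt hb'.1] at this
          exact this
  obtain ⟨s, t, hlev⟩ := base_lev ρ hB l ca cb h4 ha hb hc
  refine lev_false T hT rfl hlev ?_
  intro m
  show l * F 0 (((m + (T : ZMod (8 * T)) + s).val : ℤ), 0) = l * F 0 (((m + s).val : ℤ), 0)
  congr 1
  rw [← hFT 0 (((m + s).val : ℤ), 0) (1, 0)]
  refine rm_per (F 0) T (hFT 0) _ _ ?_ ?_
  · simp only [Prod.fst_add, Prod.smul_fst, smul_eq_mul, mul_one]
    rw [hv, Int.cast_add, hv, Int.cast_natCast]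
    ring
  · simp

end Vale.Agent.P043.Z3
end
end

section

attribute [-instance] ProperSMul.toContinuousSMul IsTopologicalTorsor.toContinuousSMul IdemSemiring.toCanonicallyOrderedAdd IdemSemiring.toMulLeftMono IdemSemiring.toMulRightMono AddQuantale.instAddLeftMono AddQuantale.instAddRightMono Quantale.instMulLeftMono Quantale.instMulRightMono FiniteDimensional.rclike_to_real IsScalarTower.complexToReal FiniteDimensional.complexToReal

section

namespace Vale.Agent.P043

open Classical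

theorem solves_injective {G P : Type} [AddCommGroup G] {A : Set G} {τ : P → G}
    (h : Solves A τ) : Function.Injective τ := by
  intro p q hpq
  obtain ⟨r, hr, _⟩ := h 0
  have h1 := h ((0 - τ r) + τ p)
  exact h1.unique (by rw [add_sub_cancel_right]; exact hr)
    (by rw [← hpq, add_sub_cancel_right]; exact hr)

theorem isTiling_iff {G P : Type} [AddCommGroup G] [Fintype P] {A : Set G} {τ : P → G}
    (hinj : Function.Injective τ) : IsTiling A (Finset.univ.image τ) ↔ Solves A τ := by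
  constructor
  · intro h g
    obtain ⟨⟨a, f⟩, ⟨ha, hf, haf⟩, hu⟩ := h g
    obtain ⟨p, -, rfl⟩ := Finset.mem_image.mp hf
    refine ⟨p, ?_, fun q hq => ?_⟩
    · have : g - τ p = a := by rw [← haf]; simp only [add_sub_cancel_right]
      show g - τ p ∈ A
      rw [this]; exact ha
    · have := hu (g - τ q, τ q) ⟨hq, Finset.mem_image_of_mem _ (Finset.mem_univ _), by simp⟩
      exact hinj (congrArg Prod.snd this)
  · intro h g
    obtain ⟨p, hp, hu⟩ := h g
    refine ⟨(g - τ p, τ p), ⟨hp, Finset.mem_image_of_mem _ (Finset.mem_univ _), by simp⟩, ?_⟩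
    rintro ⟨a, f⟩ ⟨ha, hf, haf⟩
    obtain ⟨q, -, rfl⟩ := Finset.mem_image.mp hf
    have e : g - τ q = a := by rw [← haf]; simp
    have := hu q (by show g - τ q ∈ A; rw [e]; exact ha)
    subst this
    rw [e]

theorem exists_finset {G P : Type} [AddCommGroup G] [Finite P] {τ : P → G}
    (hex : ∃ A, Solves A τ) : ∃ F : Finset G, F.Nonempty ∧ ∀ A, IsTiling A F ↔ Solves A τ := by
  have : Fintype P := Fintype.ofFinite P
  obtain ⟨A, hA⟩ := hex
  refine ⟨Finset.univ.image τ, ?_, fun A' => isTiling_iff (solves_injective hA)⟩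
  obtain ⟨q, _, _⟩ := hA 0
  exact ⟨τ q, Finset.mem_image_of_mem _ (Finset.mem_univ _)⟩

theorem perSet_of_isPeriodic {G : Type} [AddCommGroup G] {A : Set G} (h : IsPeriodic A) :
    PerSet A := by
  obtain ⟨L, hL, hA⟩ := h
  refine ⟨L, hL, fun v hv a => ?_⟩
  constructor
  · intro ha
    rw [← hA v hv] at ha
    obtain ⟨b, hb, hba⟩ := ha
    have : b = a := add_right_cancel hba
    rwa [← this]
  · intro ha
    rw [← hA v hv]
    exact ⟨a, ha, rfl⟩

theorem exists_moduli (I : Type) [Finite I] : ∃ p : I → ℕ, (∀ i, 1 < p i) ∧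
    Pairwise fun κ κ' => Nat.Coprime (nn p κ) (nn p κ') := by
  obtain ⟨n, ⟨e⟩⟩ := Finite.exists_equiv_fin I
  refine ⟨fun i => Nat.fermatNumber (e i), fun i => ?_, ?_⟩
  · have := Nat.two_lt_fermatNumber (e i : ℕ)
    show 1 < Nat.fermatNumber (e i)
    omega
  · have hodd : ∀ k : ℕ, Nat.Coprime 4 (Nat.fermatNumber k) := by
      intro k
      have h2 : Nat.Coprime 2 (Nat.fermatNumber k) :=
        Nat.coprime_two_left.mpr (Nat.odd_fermatNumber k)
      have : (4 : ℕ) = 2 ^ 2 := by norm_num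
      rw [this]
      exact Nat.Coprime.pow_left 2 h2
    rintro (_ | i) (_ | j) hij
    · exact absurd rfl hij
    · exact hodd _
    · exact (hodd _).symm
    · have : (e i : ℕ) ≠ (e j : ℕ) := by
        intro h
        apply hij
        rw [e.injective (Fin.ext h)]
      exact Nat.pairwise_coprime_fermatNumber this

theorem exists_dec {d : ℕ} (hd : 0 < d) : ∃ (ι : (Fin d → ℤ) →+ (Fin d → ℤ)) (e : Fin d → ℤ),
    ∀ u : Fin d → ℤ, ∃! q : (Fin d → ℤ) × Fin 4, ι q.1 + (q.2 : ℕ) • e = u := by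
  let i₀ : Fin d := ⟨0, hd⟩
  let ι : (Fin d → ℤ) →+ (Fin d → ℤ) :=
    { toFun := fun g i => if i = i₀ then 4 * g i else g i
      map_zero' := by funext i; simp
      map_add' := by intro g h; funext i; simp only [Pi.add_apply]; split_ifs <;> ring }
  refine ⟨ι, Pi.single i₀ 1, fun u => ?_⟩
  have hι : ∀ (g : Fin d → ℤ) (m : Fin 4) (i : Fin d), (ι g + (m : ℕ) • (Pi.single i₀ 1 : Fin d → ℤ)) i =
      if i = i₀ then 4 * g i + (m : ℕ) else g i := by
    intro g m i
    simp only [Pi.add_apply, Pi.smul_apply, ι, AddMonoidHom.coe_mk, ZeroHom.coe_mk]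
    by_cases h : i = i₀
    · subst h; simp only [↓reduceIte, Pi.single_eq_same, Int.nsmul_eq_mul, mul_one]
    · simp [h]
  refine ⟨(fun i => if i = i₀ then u i / 4 else u i, ⟨(u i₀ % 4).toNat, by omega⟩), ?_, ?_⟩
  · funext i
    rw [hι]
    by_cases h : i = i₀
    · subst h
      simp only [if_true]
      have h1 : (((u i₀ % 4).toNat : ℕ) : ℤ) = u i₀ % 4 := Int.toNat_of_nonneg (by (clear * - hd; omega))
      rw [h1]
      omega
    · simp [h]
  · rintro ⟨g, m⟩ hg
    have h0 := congrFun hg i₀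
    rw [hι] at h0
    simp only [if_true] at h0
    have hm : (m : ℕ) < 4 := m.isLt
    ext i
    · have hi := congrFun hg i
      rw [hι] at hi
      by_cases h : i = i₀
      · subst h
        simp only [if_true] at hi ⊢
        (clear * - hd h0; omega)
      · simp only [h, if_false] at hi ⊢
        exact hi
    · show (m : ℕ) = (u i₀ % 4).toNat
      omega

theorem ptc_false {d : ℕ} (hd : 4 ≤ d) : ∃ F : Finset (Fin d → ℤ), F.Nonempty ∧
    (∃ A, IsTiling A F) ∧ ∀ A, IsTiling A F → ¬ IsPeriodic A := by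
  obtain ⟨p, hp, hco⟩ := exists_moduli Ix
  obtain ⟨P, hP, S, hfin, hne, hS⟩ := block_main p hp wI AlI exists_dsol no_per_dsol
  have hn : ∀ κ, nn p κ ≠ 0 := by
    rintro (_ | i)
    · show (4 : ℕ) ≠ 0; norm_num
    · show p i ≠ 0; have := hp i; omega
  obtain ⟨φ, hφ, hker⟩ := exists_surj hd (nn p) hn hco
  obtain ⟨S', hfin', hne', hS'⟩ := lift_system φ hφ hker S hfin hne hS
  obtain ⟨ι, e, hdec⟩ := exists_dec (d := d) (by omega)
  obtain ⟨P', hP', τ, ⟨A, hA⟩, hnp⟩ := single_of_system ι e hdec S' hfin' hne' hS'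
  obtain ⟨F, hF, hiff⟩ := exists_finset ⟨A, hA τ rfl⟩
  refine ⟨F, hF, ⟨A, (hiff A).mpr (hA τ rfl)⟩, fun A' hA' hper => ?_⟩
  refine hnp ⟨A', perSet_of_isPeriodic hper, ?_⟩
  rintro τ' rfl
  exact (hiff A').mp hA'

end Vale.Agent.P043
end
end

section

attribute [-instance] ProperSMul.toContinuousSMul IsTopologicalTorsor.toContinuousSMul IdemSemiring.toCanonicallyOrderedAdd IdemSemiring.toMulLeftMono IdemSemiring.toMulRightMono AddQuantale.instAddLeftMono AddQuantale.instAddRightMono Quantale.instMulLeftMono Quantale.instMulRightMono FiniteDimensional.rclike_to_real IsScalarTower.complexToReal FiniteDimensional.complexToReal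

section

/-!
# Product structure of solutions
-/

namespace Vale.Agent.P043.Z

open Vale.Agent.P043

theorem gex_rowOf_sub_emb {m : ℕ} {P : Bool → ℕ} (a : FF m P) (k : KK m P) :
    rowOf m (a - emb m P k).1 = rowOf m a.1 := by
  show rowOf m (a.1 - emb1 m k.1) = rowOf m a.1
  rw [rowOf_sub, rowOf_emb1, sub_zero]

theorem gex_emb_zero (m : ℕ) (P : Bool → ℕ) : emb m P 0 = 0 := by
  show (emb1 m 0, (0 : (i : Bool) → ZMod (P i))) = 0
  rw [map_zero]
  rfl

theorem gex_rep {m : ℕ} (hm : 2 ≤ m) (c : ZMod m) :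
    rowOf m ((c.val : ℕ) : ZMod (m ^ 3)) = c := by
  haveI : NeZero m := ⟨by omega⟩
  rw [rowOf_natCast, ZMod.natCast_zmod_val]

/-- Every fibre of a solution of the base tile has exactly one point of each row vector. -/
theorem base_unique {I : Type} (B : I → Blk) {X : Type} [AddCommGroup X]
    (A : Set (X × GF B)) (hb : Solves A (gBase B)) (x : X) (c : (n : I) → ZMod (B n).m) :
    ∃! f : GF B, (x, f) ∈ A ∧ ∀ n, rowOf (B n).m (f n).1 = c n := by
  have hsub : ∀ (f : GF B) (j : GJ B), ((x, f) : X × GF B) - gBase B j = (x, f - gemb B j) := by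
    intro f j
    show ((x - 0, f - gemb B j) : X × GF B) = (x, f - gemb B j)
    rw [sub_zero]
  let f0 : GF B := fun n => ((((c n).val : ℕ) : ZMod ((B n).m ^ 3)), 0)
  obtain ⟨j, hj, hju⟩ := hb (x, f0)
  simp only [hsub] at hj hju
  refine ⟨f0 - gemb B j, ⟨hj, fun n => ?_⟩, ?_⟩
  · show rowOf (B n).m (f0 n - emb (B n).m (B n).P (j n)).1 = c n
    rw [gex_rowOf_sub_emb]
    exact gex_rep (B n).hm (c n)
  · rintro f ⟨hf, hr⟩
    have hex : ∀ n, ∃ k, emb (B n).m (B n).P k = f0 n - f n := by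
      intro n
      refine exists_emb (by have := (B n).hm; omega) _ ?_
      show rowOf (B n).m ((f0 n).1 - (f n).1) = 0
      rw [rowOf_sub, hr n]
      have h1 : rowOf (B n).m (f0 n).1 = c n := gex_rep (B n).hm (c n)
      rw [h1, sub_self]
    choose k hk using hex
    have hkf : f0 - gemb B k = f := by
      funext n
      show f0 n - emb (B n).m (B n).P (k n) = f n
      rw [hk n]
      abel
    have h2 : k = j := hju k (by
      show (x, f0 - gemb B k) ∈ A
      rw [hkf]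
      exact hf)
    rw [← h2, hkf]

section

variable {I : Type} (B : I → Blk) {X : Type} [AddCommGroup X]

/-- the unique point of the row vector `c` over `x` -/
noncomputable def gexF (A : Set (X × GF B)) (hb : Solves A (gBase B)) (x : X)
    (c : (n : I) → ZMod (B n).m) : GF B :=
  (base_unique B A hb x c).choose

theorem gexF_mem (A : Set (X × GF B)) (hb : Solves A (gBase B)) (x : X)
    (c : (n : I) → ZMod (B n).m) : (x, gexF B A hb x c) ∈ A :=
  (base_unique B A hb x c).choose_spec.1.1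

theorem gexF_row (A : Set (X × GF B)) (hb : Solves A (gBase B)) (x : X)
    (c : (n : I) → ZMod (B n).m) (n : I) : rowOf (B n).m (gexF B A hb x c n).1 = c n :=
  (base_unique B A hb x c).choose_spec.1.2 n

theorem gexF_unique (A : Set (X × GF B)) (hb : Solves A (gBase B)) (x : X)
    (c : (n : I) → ZMod (B n).m) (f : GF B) (hf : (x, f) ∈ A)
    (hr : ∀ n, rowOf (B n).m (f n).1 = c n) : f = gexF B A hb x c :=
  (base_unique B A hb x c).choose_spec.2 f ⟨hf, hr⟩

variable [DecidableEq I]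

theorem gexF_step (A : Set (X × GF B)) (hb : Solves A (gBase B))
    (hp : ∀ n n', n ≠ n' → Solves A (gProd B n n')) (x : X) (c : (n : I) → ZMod (B n).m)
    (n n' : I) (hn : n ≠ n') (a : ZMod (B n').m) :
    gexF B A hb x (Function.update c n' (a + 1)) n = gexF B A hb x (Function.update c n' a) n := by
  set c1 := Function.update c n' a with hc1
  set f := gexF B A hb x c1 with hf
  have hE : ∀ j : GJ B, j ∉ {j : GJ B | j n = 0} → gProd B (X := X) n n' j = gBase B j := by
    intro j hj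
    have hj' : ¬ j n = 0 := hj
    show (if j n = 0 then _ else _) = _
    rw [if_neg hj']
    rfl
  have h1 := (solves_exchange (hp n n' hn) hb {j : GJ B | j n = 0} hE
    ((x, f + gone B n') : X × GF B)).1 ⟨0, rfl, by
      show ((x, f + gone B n') : X × GF B) - (if (0 : GJ B) n = 0 then _ else _) ∈ A
      rw [if_pos (show (0 : GJ B) n = 0 from rfl)]
      have h2 : ((x, f + gone B n') : X × GF B) - (0, gemb B 0 + gone B n') = (x, f) := by
        have h3 : gemb B (0 : GJ B) = 0 := by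
          funext i
          exact gex_emb_zero _ _
        rw [h3, zero_add]
        show ((x - 0, f + gone B n' - gone B n') : X × GF B) = (x, f)
        rw [sub_zero, add_sub_cancel_right]
      rw [h2]
      exact gexF_mem B A hb x c1⟩
  obtain ⟨j, hj, hjA⟩ := h1
  have hj' : j n = 0 := hj
  have h4 : ((x, f + gone B n') : X × GF B) - gBase B j = (x, f + gone B n' - gemb B j) := by
    show ((x - 0, f + gone B n' - gemb B j) : X × GF B) = (x, f + gone B n' - gemb B j)
    rw [sub_zero]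
  rw [h4] at hjA
  have h5 : f + gone B n' - gemb B j = gexF B A hb x (Function.update c n' (a + 1)) := by
    refine gexF_unique B A hb x _ _ hjA ?_
    intro i
    show rowOf (B i).m ((f i + gone B n' i) - emb (B i).m (B i).P (j i)).1 = _
    rw [gex_rowOf_sub_emb]
    show rowOf (B i).m ((f i).1 + (gone B n' i).1) = _
    rw [rowOf_add, hf, gexF_row]
    by_cases hi : i = n'
    · subst hi
      rw [hc1, Function.update_self, Function.update_self]
      unfold gone
      rw [Pi.single_eq_same]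
      show a + rowOf (B i).m (1 : ZMod ((B i).m ^ 3)) = a + 1
      rw [rowOf_one]
    · rw [hc1, Function.update_of_ne hi, Function.update_of_ne hi]
      unfold gone
      rw [Pi.single_eq_of_ne hi]
      show c i + rowOf (B i).m (0 : ZMod ((B i).m ^ 3)) = c i
      have h6 : rowOf (B i).m (0 : ZMod ((B i).m ^ 3)) = 0 := by
        unfold rowOf
        rw [map_zero]
      rw [h6, add_zero]
  rw [← h5]
  show f n + gone B n' n - emb (B n).m (B n).P (j n) = f n
  rw [hj', gex_emb_zero]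
  unfold gone
  rw [Pi.single_eq_of_ne hn]
  rw [add_zero, sub_zero]

theorem gexF_update (A : Set (X × GF B)) (hb : Solves A (gBase B))
    (hp : ∀ n n', n ≠ n' → Solves A (gProd B n n')) (x : X) (c : (n : I) → ZMod (B n).m)
    (n n' : I) (hn : n ≠ n') (a : ZMod (B n').m) :
    gexF B A hb x (Function.update c n' a) n = gexF B A hb x (Function.update c n' 0) n := by
  have key : ∀ k : ℕ, gexF B A hb x (Function.update c n' (k : ZMod (B n').m)) n =
      gexF B A hb x (Function.update c n' 0) n := by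
    intro k
    induction k with
    | zero => rw [Nat.cast_zero]
    | succ k ih =>
      rw [Nat.cast_succ, gexF_step B A hb hp x c n n' hn, ih]
  haveI : NeZero (B n').m := ⟨by have := (B n').hm; omega⟩
  have h := key a.val
  rwa [ZMod.natCast_zmod_val] at h

theorem gexF_congr [Finite I] (A : Set (X × GF B)) (hb : Solves A (gBase B))
    (hp : ∀ n n', n ≠ n' → Solves A (gProd B n n')) (x : X) (c c' : (n : I) → ZMod (B n).m)
    (n : I) (h : c n = c' n) : gexF B A hb x c n = gexF B A hb x c' n := by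
  classical
  haveI := Fintype.ofFinite I
  have key : ∀ S : Finset I, n ∉ S →
      gexF B A hb x (fun i => if i ∈ S then c' i else c i) n = gexF B A hb x c n := by
    intro S
    induction S using Finset.induction_on with
    | empty =>
      intro _
      have e : (fun i => if i ∈ (∅ : Finset I) then c' i else c i) = c := by
        funext i
        rw [if_neg (Finset.notMem_empty i)]
      rw [e]
    | insert s S hs ih =>
      intro hn
      have hns : n ≠ s := by
        rintro rfl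
        exact hn (Finset.mem_insert_self _ _)
      have hnS : n ∉ S := fun h => hn (Finset.mem_insert_of_mem h)
      rw [← ih hnS]
      have e1 : (fun i => if i ∈ insert s S then c' i else c i) =
          Function.update (fun i => if i ∈ S then c' i else c i) s (c' s) := by
        funext i
        by_cases hi : i = s
        · subst hi
          rw [Function.update_self, if_pos (Finset.mem_insert_self _ _)]
        · rw [Function.update_of_ne hi]
          by_cases hiS : i ∈ S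
          · rw [if_pos hiS, if_pos (Finset.mem_insert_of_mem hiS)]
          · rw [if_neg hiS, if_neg (fun h => by
              rcases Finset.mem_insert.1 h with h | h
              · exact hi h
              · exact hiS h)]
      have e2 : (fun i => if i ∈ S then c' i else c i) =
          Function.update (fun i => if i ∈ S then c' i else c i) s (c s) := by
        funext i
        by_cases hi : i = s
        · subst hi
          rw [Function.update_self, if_neg hs]
        · rw [Function.update_of_ne hi]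
      rw [e1, gexF_update B A hb hp x _ n s hns]
      conv_rhs => rw [e2, gexF_update B A hb hp x _ n s hns]
  have h1 := key (Finset.univ.erase n) (Finset.notMem_erase n _)
  rw [← h1]
  congr 2
  funext i
  by_cases hi : i = n
  · subst hi
    rw [if_neg (Finset.notMem_erase i _), h]
  · rw [if_pos (Finset.mem_erase.2 ⟨hi, Finset.mem_univ i⟩)]

end

/-- Solutions of the base tile and the product tiles are product sets. -/
theorem exists_PA {I : Type} (B : I → Blk) {X : Type} [AddCommGroup X] [DecidableEq I] [Finite I]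
    (A : Set (X × GF B)) (hb : Solves A (gBase B))
    (hp : ∀ n n', n ≠ n' → Solves A (gProd B n n')) :
    ∃ ρ : (n : I) → X → ZMod (B n).m → FF (B n).m (B n).P, IsRow B ρ ∧ A = PA B ρ := by
  refine ⟨fun n x a => gexF B A hb x (Function.update 0 n a) n, ?_, ?_⟩
  · intro n x c
    show rowOf (B n).m (gexF B A hb x (Function.update 0 n c) n).1 = c
    rw [gexF_row, Function.update_self]
  · have key : ∀ (x : X) (c : (n : I) → ZMod (B n).m) (n : I),
        gexF B A hb x (Function.update 0 n (c n)) n = gexF B A hb x c n := by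
      intro x c n
      refine gexF_congr B A hb hp x _ _ n ?_
      rw [Function.update_self]
    ext g
    obtain ⟨x, f⟩ := g
    constructor
    · intro hg n
      show f n = gexF B A hb x (Function.update 0 n (rowOf (B n).m (f n).1)) n
      rw [key x (fun n => rowOf (B n).m (f n).1) n]
      have h1 := gexF_unique B A hb x (fun n => rowOf (B n).m (f n).1) f hg (fun n => rfl)
      exact congrFun h1 n
    · intro hg
      have h2 : f = gexF B A hb x (fun n => rowOf (B n).m (f n).1) := by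
        funext n
        have h3 : f n = gexF B A hb x (Function.update 0 n (rowOf (B n).m (f n).1)) n := hg n
        rw [key x (fun n => rowOf (B n).m (f n).1) n] at h3
        exact h3
      rw [h2]
      exact gexF_mem B A hb x _

end Vale.Agent.P043.Z
end
end

section

attribute [-instance] ProperSMul.toContinuousSMul IsTopologicalTorsor.toContinuousSMul IdemSemiring.toCanonicallyOrderedAdd IdemSemiring.toMulLeftMono IdemSemiring.toMulRightMono AddQuantale.instAddLeftMono AddQuantale.instAddRightMono Quantale.instMulLeftMono Quantale.instMulRightMono FiniteDimensional.rclike_to_real IsScalarTower.complexToReal FiniteDimensional.complexToReal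

section

/-!
# Product sets solve the base tile and the product tiles
-/

namespace Vale.Agent.P043.Z

open Vale.Agent.P043

variable {I : Type} (B : I → Blk) {X : Type} [AddCommGroup X]

/-- in one block, the index is determined by the point -/
theorem gbase_one {m : ℕ} {P : Bool → ℕ} (hm : 1 ≤ m) {X : Type*}
    (ρ : X → ZMod m → FF m P) (hρ : ∀ x c, rowOf m (ρ x c).1 = c) (x : X) (η : FF m P) :
    ∃! k : KK m P, η - emb m P k = ρ x (rowOf m (η - emb m P k).1) := by
  have hrow : ∀ k : KK m P, rowOf m (η - emb m P k).1 = rowOf m η.1 := by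
    intro k
    show rowOf m (η.1 - emb1 m k.1) = _
    rw [rowOf_sub, rowOf_emb1, sub_zero]
  obtain ⟨k, hk⟩ := exists_emb (m := m) (P := P) hm (η - ρ x (rowOf m η.1)) (by
    show rowOf m (η.1 - (ρ x (rowOf m η.1)).1) = 0
    rw [rowOf_sub, hρ, sub_self])
  refine ⟨k, ?_, fun k' hk' => ?_⟩
  · show η - emb m P k = ρ x (rowOf m (η - emb m P k).1)
    rw [hrow, hk]
    abel
  · apply emb_injective (P := P) hm
    have h : η - emb m P k' = ρ x (rowOf m (η - emb m P k').1) := hk'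
    rw [hrow] at h
    rw [hk, ← h]
    abel

theorem gbase_hm (n : I) : 1 ≤ (B n).m := by
  have := (B n).hm
  omega

theorem PA_base (ρ : (n : I) → X → ZMod (B n).m → FF (B n).m (B n).P) (hρ : IsRow B ρ) :
    Solves (PA B ρ) (gBase B) := by
  rintro ⟨x, f⟩
  choose k hk hu using fun n => gbase_one (gbase_hm B n) (ρ n) (hρ n) x (f n)
  refine ⟨k, fun n => ?_, fun k' hk' => ?_⟩
  · have h : (((x, f) : X × GF B) - gBase B k).1 = x := by simp [gBase]
    rw [h]
    exact hk n
  · funext n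
    apply hu n
    have h := hk' n
    have h1 : (((x, f) : X × GF B) - gBase B k').1 = x := by simp only [gBase, Prod.mk_sub_mk, sub_zero]
    rw [h1] at h
    exact h

theorem gbase_gone_ne [DecidableEq I] {n n' : I} (h : n ≠ n') : gone B n' n = 0 := by
  unfold gone
  rw [Pi.single_eq_of_ne h]

theorem PA_prod [DecidableEq I] (ρ : (n : I) → X → ZMod (B n).m → FF (B n).m (B n).P)
    (hρ : IsRow B ρ) (n n' : I) (h : n ≠ n') : Solves (PA B ρ) (gProd B n n') := by
  rintro ⟨x, f⟩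
  -- the index determined by a point in the block `a`
  choose K hK hU using fun (a : I) (η : FF (B a).m (B a).P) =>
    gbase_one (gbase_hm B a) (ρ a) (hρ a) x η
  -- membership
  have hmem : ∀ j : GJ B, ((x, f) : X × GF B) - gProd B n n' j ∈ PA B ρ ↔
      ∀ a, j a = K a (f a - (if j n = 0 then gone B n' a else 0)) := by
    intro j
    have e1 : (((x, f) : X × GF B) - gProd B n n' j).1 = x := by
      unfold gProd
      split_ifs <;> simp only [Prod.mk_sub_mk, sub_zero]
    have e2 : ∀ a, (((x, f) : X × GF B) - gProd B n n' j).2 a =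
        (f a - (if j n = 0 then gone B n' a else 0)) - emb (B a).m (B a).P (j a) := by
      intro a
      unfold gProd
      split_ifs
      · show f a - (emb (B a).m (B a).P (j a) + gone B n' a) = _
        abel
      · show f a - emb (B a).m (B a).P (j a) = _
        rw [sub_zero]
    constructor
    · intro hj a
      have h1 := hj a
      rw [e1, e2] at h1
      exact hU a _ _ h1
    · intro hj a
      rw [e1, e2]
      conv_lhs => rw [hj a]
      conv_rhs => rw [hj a]
      exact hK a _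
  have hn : ∀ c : Prop, ∀ _ : Decidable c, f n - (if c then gone B n' n else 0) = f n := by
    intro c _
    rw [gbase_gone_ne B h]
    simp only [ite_self, sub_zero]
  refine ⟨fun a => K a (f a - (if K n (f n) = 0 then gone B n' a else 0)), ?_, ?_⟩
  · show ((x, f) : X × GF B) - gProd B n n' _ ∈ PA B ρ
    rw [hmem]
    intro a
    simp only [hn]
  · intro j hj
    have hj' := (hmem j).1 hj
    have h1 : j n = K n (f n) := by
      have := hj' n
      rwa [hn] at this
    funext a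
    rw [hj' a, h1]

end Vale.Agent.P043.Z
end
end

section

attribute [-instance] ProperSMul.toContinuousSMul IsTopologicalTorsor.toContinuousSMul IdemSemiring.toCanonicallyOrderedAdd IdemSemiring.toMulLeftMono IdemSemiring.toMulRightMono AddQuantale.instAddLeftMono AddQuantale.instAddRightMono Quantale.instMulLeftMono Quantale.instMulRightMono FiniteDimensional.rclike_to_real IsScalarTower.complexToReal FiniteDimensional.complexToReal

section

/-!
# Block tiles and product sets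
-/

namespace Vale.Agent.P043.Z

open Vale.Agent.P043

private theorem gb_row {m : ℕ} {P : Bool → ℕ} (f : FF m P) (k : KK m P) :
    rowOf m (f - emb m P k).1 = rowOf m f.1 := by
  have h1 : (f - emb m P k).1 = f.1 - emb1 m k.1 := rfl
  rw [h1, rowOf_sub, rowOf_emb1, sub_zero]

private theorem gb_RA {m : ℕ} {P : Bool → ℕ} {X : Type} [AddCommGroup X]
    (ρ : X → ZMod m → FF m P) (u : X) (t : KK m P → ℤ × KK m P) (x0 : X) (f : FF m P)
    (k : KK m P) :
    (x0, f) - rBlock u t k ∈ RA ρ ↔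
      f - emb m P (t k).2 = ρ (x0 - (t k).1 • u) (rowOf m f.1) := by
  have h1 : (x0, f) - rBlock u t k ∈ RA ρ ↔
      f - emb m P (t k).2 = ρ (x0 - (t k).1 • u) (rowOf m (f - emb m P (t k).2).1) := Iff.rfl
  rw [h1, gb_row]

private theorem gb_PA {I : Type} (B : I → Blk) {X : Type} [AddCommGroup X] [DecidableEq I]
    (ρ : (n : I) → X → ZMod (B n).m → FF (B n).m (B n).P) (u : I → X) (n : I)
    (t : KK (B n).m (B n).P → ℤ × KK (B n).m (B n).P) (x0 : X) (F : GF B) (j : GJ B) :
    (x0, F) - gBlock B u n t j ∈ PA B ρ ↔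
      (x0, F n) - rBlock (u n) t (j n) ∈ RA (ρ n) ∧
      ∀ n', n' ≠ n → emb (B n').m (B n').P (j n') =
        F n' - ρ n' (x0 - (t (j n)).1 • u n) (rowOf (B n').m (F n').1) := by
  have h0 : (x0, F) - gBlock B u n t j ∈ PA B ρ ↔
      ∀ n', F n' - emb (B n').m (B n').P (Function.update j n (t (j n)).2 n') =
        ρ n' (x0 - (t (j n)).1 • u n) (rowOf (B n').m
          (F n' - emb (B n').m (B n').P (Function.update j n (t (j n)).2 n')).1) := Iff.rfl
  rw [h0, gb_RA]
  constructor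
  · intro h
    constructor
    · have h1 := h n
      rw [Function.update_self, gb_row] at h1
      exact h1
    · intro n' hn'
      have h1 := h n'
      rw [Function.update_of_ne hn', gb_row] at h1
      rw [← h1]
      abel
  · rintro ⟨h1, h2⟩ n'
    by_cases hn' : n' = n
    · subst hn'
      rw [Function.update_self, gb_row]
      exact h1
    · rw [Function.update_of_ne hn', gb_row, h2 n' hn']
      abel

private theorem gb_ex {I : Type} (B : I → Blk) {X : Type} [AddCommGroup X] [DecidableEq I]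
    (ρ : (n : I) → X → ZMod (B n).m → FF (B n).m (B n).P) (hρ : IsRow B ρ) (n : I)
    (x1 : X) (F : GF B) (k : KK (B n).m (B n).P) :
    ∃ j : GJ B, j n = k ∧ ∀ n', n' ≠ n → emb (B n').m (B n').P (j n') =
        F n' - ρ n' x1 (rowOf (B n').m (F n').1) := by
  have h1 : ∀ n', ∃ k', emb (B n').m (B n').P k' =
      F n' - ρ n' x1 (rowOf (B n').m (F n').1) := by
    intro n'
    refine exists_emb (le_trans (by norm_num) (B n').hm) _ ?_
    have h2 : (F n' - ρ n' x1 (rowOf (B n').m (F n').1)).1 =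
        (F n').1 - (ρ n' x1 (rowOf (B n').m (F n').1)).1 := rfl
    rw [h2, rowOf_sub, hρ, sub_self]
  choose k' hk' using h1
  refine ⟨Function.update k' n k, Function.update_self _ _ _, fun n' hn' => ?_⟩
  rw [Function.update_of_ne hn']
  exact hk' n'

theorem PA_block {I : Type} (B : I → Blk) {X : Type} [AddCommGroup X] [DecidableEq I]
    (ρ : (n : I) → X → ZMod (B n).m → FF (B n).m (B n).P) (hρ : IsRow B ρ) (u : I → X) (n : I)
    (t : KK (B n).m (B n).P → ℤ × KK (B n).m (B n).P) :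
    Solves (PA B ρ) (gBlock B u n t) ↔ Solves (RA (ρ n)) (rBlock (u n) t) := by
  constructor
  · rintro h ⟨x0, f⟩
    obtain ⟨F, hs⟩ : ∃ F : GF B, F n = f := ⟨Function.update (0 : GF B) n f, Function.update_self _ _ _⟩
    obtain ⟨j, hj, hju⟩ := h (x0, F)
    refine ⟨j n, ?_, ?_⟩
    · have h1 := ((gb_PA B ρ u n t x0 _ j).1 hj).1
      rw [hs] at h1
      exact h1
    · intro k hk
      obtain ⟨j', hj', hj''⟩ := gb_ex B ρ hρ n (x0 - (t k).1 • u n) F k
      have h1 : j' = j := by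
        refine hju j' ((gb_PA B ρ u n t x0 _ j').2 ⟨?_, ?_⟩)
        · rw [hs, hj']
          exact hk
        · rw [hj']
          exact hj''
      rw [← h1, hj']
  · rintro h ⟨x0, F⟩
    obtain ⟨k, hk, hku⟩ := h (x0, F n)
    obtain ⟨j, hj, hj'⟩ := gb_ex B ρ hρ n (x0 - (t k).1 • u n) F k
    refine ⟨j, (gb_PA B ρ u n t x0 F j).2 ⟨?_, ?_⟩, ?_⟩
    · rw [hj]
      exact hk
    · rw [hj]
      exact hj'
    · intro j2 hj2
      obtain ⟨h1, h2⟩ := (gb_PA B ρ u n t x0 F j2).1 hj2
      have h3 : j2 n = k := hku _ h1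
      funext n'
      by_cases hn' : n' = n
      · subst hn'
        rw [h3, hj]
      · refine emb_injective (le_trans (by norm_num) (B n').hm) ?_
        rw [h2 n' hn', hj' n' hn', h3]

/-- A block tile is solved by the rows iff every row solves it along every line. -/
theorem RA_iff {m : ℕ} {P : Bool → ℕ} (hm : 1 ≤ m) {X : Type} [AddCommGroup X]
    (ρ : X → ZMod m → FF m P) (hρ : ∀ x c, rowOf m (ρ x c).1 = c) (u : X)
    (t : KK m P → ℤ × KK m P) (V : ZMod m → X → KK m P)
    (hV : ∀ c x, ρ x c = (((c.val : ℕ) : ZMod (m ^ 3)), 0) + emb m P (V c x)) :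
    Solves (RA ρ) (rBlock u t) ↔ ∀ c x, Solves (Gr fun ξ : ℤ => V c (x + ξ • u)) t := by
  have hr0 : ∀ (c : ZMod m) (k0 : KK m P),
      rowOf m ((((c.val : ℕ) : ZMod (m ^ 3)), 0) + emb m P k0 : FF m P).1 =
        rowOf m ((c.val : ℕ) : ZMod (m ^ 3)) := by
    intro c k0
    have h1 : ((((c.val : ℕ) : ZMod (m ^ 3)), 0) + emb m P k0 : FF m P).1 =
        ((c.val : ℕ) : ZMod (m ^ 3)) + emb1 m k0.1 := rfl
    rw [h1, rowOf_add, rowOf_emb1, add_zero]
  have hr : ∀ c : ZMod m, rowOf m ((c.val : ℕ) : ZMod (m ^ 3)) = c := by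
    intro c
    have h1 := hρ 0 c
    rw [hV, hr0] at h1
    exact h1
  have key : ∀ (x0 : X) (c : ZMod m) (k0 k : KK m P),
      (x0, ((((c.val : ℕ) : ZMod (m ^ 3)), 0) + emb m P k0 : FF m P)) - rBlock u t k ∈ RA ρ ↔
        k0 - (t k).2 = V c (x0 - (t k).1 • u) := by
    intro x0 c k0 k
    rw [gb_RA, hr0, hr, hV, add_sub_assoc, add_right_inj, ← emb_sub]
    exact (emb_injective hm).eq_iff
  have key2 : ∀ (c : ZMod m) (x : X) (ξ0 : ℤ) (k0 k : KK m P),
      (ξ0, k0) - t k ∈ (Gr fun ξ : ℤ => V c (x + ξ • u)) ↔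
        k0 - (t k).2 = V c (x + (ξ0 - (t k).1) • u) := fun _ _ _ _ _ => Iff.rfl
  constructor
  · rintro h c x ⟨ξ0, k0⟩
    obtain ⟨k, hk, hku⟩ := h (x + ξ0 • u, ((((c.val : ℕ) : ZMod (m ^ 3)), 0) + emb m P k0))
    have e : ∀ k', x + ξ0 • u - (t k').1 • u = x + (ξ0 - (t k').1) • u := by
      intro k'
      rw [sub_smul]
      abel
    refine ⟨k, ?_, fun k' hk' => hku k' ?_⟩
    · refine (key2 c x ξ0 k0 k).2 ?_
      rw [← e]
      exact (key _ _ _ _).1 hk
    · refine (key _ _ _ _).2 ?_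
      rw [e]
      exact (key2 c x ξ0 k0 k').1 hk'
  · rintro h ⟨x0, f⟩
    obtain ⟨k0, hk0⟩ : ∃ k0, emb m P k0 =
        f - ((((rowOf m f.1).val : ℕ) : ZMod (m ^ 3)), 0) := by
      refine exists_emb hm _ ?_
      have h1 : (f - ((((rowOf m f.1).val : ℕ) : ZMod (m ^ 3)), 0)).1 =
          f.1 - (((rowOf m f.1).val : ℕ) : ZMod (m ^ 3)) := rfl
      rw [h1, rowOf_sub, hr, sub_self]
    have hf : f = (((((rowOf m f.1).val : ℕ) : ZMod (m ^ 3)), 0) + emb m P k0 : FF m P) := by
      rw [hk0]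
      abel
    rw [hf]
    obtain ⟨k, hk, hku⟩ := h (rowOf m f.1) x0 (0, k0)
    have e : ∀ k', x0 + (0 - (t k').1) • u = x0 - (t k').1 • u := by
      intro k'
      rw [zero_sub, neg_smul]
      abel
    refine ⟨k, ?_, fun k' hk' => hku k' ?_⟩
    · refine (key _ _ _ _).2 ?_
      rw [← e]
      exact (key2 _ _ _ _ _).1 hk
    · refine (key2 _ _ _ _ _).2 ?_
      rw [e]
      exact (key _ _ _ _).1 hk'

end Vale.Agent.P043.Z
end
end

section

attribute [-instance] ProperSMul.toContinuousSMul IsTopologicalTorsor.toContinuousSMul IdemSemiring.toCanonicallyOrderedAdd IdemSemiring.toMulLeftMono IdemSemiring.toMulRightMono AddQuantale.instAddLeftMono AddQuantale.instAddRightMono Quantale.instMulLeftMono Quantale.instMulRightMono FiniteDimensional.rclike_to_real IsScalarTower.complexToReal FiniteDimensional.complexToReal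

section

/-!
# Row shift tiles and product sets
-/

namespace Vale.Agent.P043.Z

open Vale.Agent.P043

section gsh

variable {I : Type} (B : I → Blk) {X : Type} [AddCommGroup X]
    (ρ : (n : I) → X → ZMod (B n).m → FF (B n).m (B n).P)

theorem gsh_mem (x : X) (f : GF B) (j : GJ B) :
    ((x, f - gemb B j) ∈ PA B ρ) ↔
      ∀ n, emb (B n).m (B n).P (j n) = f n - ρ n x (rowOf (B n).m (f n).1) := by
  have hrow : ∀ n, rowOf (B n).m ((f - gemb B j) n).1 = rowOf (B n).m (f n).1 := by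
    intro n
    show rowOf (B n).m ((f n).1 - emb1 (B n).m (j n).1) = _
    rw [rowOf_sub, rowOf_emb1, sub_zero]
  constructor
  · intro h n
    have h1 : (f - gemb B j) n = ρ n x (rowOf (B n).m ((f - gemb B j) n).1) := h n
    rw [hrow n] at h1
    have h2 : (f - gemb B j) n = f n - emb (B n).m (B n).P (j n) := rfl
    rw [h2] at h1
    rw [← h1]
    abel
  · intro h n
    show (f - gemb B j) n = ρ n x (rowOf (B n).m ((f - gemb B j) n).1)
    rw [hrow n]
    have h2 : (f - gemb B j) n = f n - emb (B n).m (B n).P (j n) := rfl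
    rw [h2, h n]
    abel

theorem gsh_exists (hρ : IsRow B ρ) (x : X) (f : GF B) :
    ∃ j : GJ B, ∀ n, emb (B n).m (B n).P (j n) = f n - ρ n x (rowOf (B n).m (f n).1) := by
  have h : ∀ n, ∃ k, emb (B n).m (B n).P k = f n - ρ n x (rowOf (B n).m (f n).1) := by
    intro n
    apply exists_emb (le_trans (by (clear * -; norm_num)) (B n).hm)
    show rowOf (B n).m ((f n).1 - (ρ n x (rowOf (B n).m (f n).1)).1) = 0
    rw [rowOf_sub, hρ, sub_self]
  choose j hj using h
  exact ⟨j, hj⟩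

theorem gsh_uniq (x : X) (f : GF B) (j j' : GJ B)
    (h : ∀ n, emb (B n).m (B n).P (j n) = f n - ρ n x (rowOf (B n).m (f n).1))
    (h' : ∀ n, emb (B n).m (B n).P (j' n) = f n - ρ n x (rowOf (B n).m (f n).1)) : j = j' := by
  funext n
  exact emb_injective (le_trans (by norm_num) (B n).hm) ((h n).trans (h' n).symm)

theorem gsh_val (x : X) (f : GF B) (j : GJ B) (n : I) (i : Bool)
    (h : ∀ n, emb (B n).m (B n).P (j n) = f n - ρ n x (rowOf (B n).m (f n).1)) :
    (j n).2 i = (f n).2 i - (ρ n x (rowOf (B n).m (f n).1)).2 i := by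
  have h1 := congrArg (fun w => w.2 i) (h n)
  exact h1

end gsh

theorem PA_shift {I : Type} (B : I → Blk) {X : Type} [AddCommGroup X] [DecidableEq I]
    (ρ : (n : I) → X → ZMod (B n).m → FF (B n).m (B n).P) (hρ : IsRow B ρ) (u : I → X) (n : I)
    (i : Bool) : Solves (PA B ρ) (gShift B u n i) ↔
      ∀ x c, (ρ n (x + (B n).θ • u n) (c + 1)).2 i = (ρ n x c).2 i := by
  -- the two kinds of solutions
  have hkey : ∀ (x : X) (f : GF B) (j : GJ B), ((x, f) - gShift B u n i j ∈ PA B ρ) ↔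
      ((j n).2 i ≠ 0 ∧
        ∀ n', emb (B n').m (B n').P (j n') = f n' - ρ n' x (rowOf (B n').m (f n').1)) ∨
      ((j n).2 i = 0 ∧
        ∀ n', emb (B n').m (B n').P (j n') = (f - gone B n) n' -
          ρ n' (x - (B n).θ • u n) (rowOf (B n').m ((f - gone B n) n').1)) := by
    intro x f j
    by_cases hj : (j n).2 i = 0
    · have h1 : (x, f) - gShift B u n i j = (x - (B n).θ • u n, (f - gone B n) - gemb B j) := by
        unfold gShift
        rw [if_pos hj, Prod.mk_sub_mk]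
        congr 1
        abel
      rw [h1, gsh_mem]
      simp only [Pi.sub_apply, Prod.fst_sub, hj, ne_eq, not_true_eq_false, false_and, true_and, false_or]
    · have h1 : (x, f) - gShift B u n i j = (x, f - gemb B j) := by
        unfold gShift
        rw [if_neg hj, Prod.mk_sub_mk, sub_zero]
      rw [h1, gsh_mem]
      simp only [ne_eq, hj, not_false_eq_true, true_and, Pi.sub_apply, Prod.fst_sub, false_and, or_false]
  have hgone2 : ∀ f : GF B, ((f - gone B n) n).2 i = (f n).2 i := by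
    intro f
    show (f n - gone B n n).2 i = (f n).2 i
    unfold gone
    rw [Pi.single_eq_same]
    show (f n).2 i - (0 : (i : Bool) → ZMod ((B n).P i)) i = _
    rw [Pi.zero_apply, sub_zero]
  have hgone1 : ∀ f : GF B, rowOf (B n).m ((f - gone B n) n).1 = rowOf (B n).m (f n).1 - 1 := by
    intro f
    have : ((f - gone B n) n).1 = (f n).1 - 1 := by
      show (f n - gone B n n).1 = (f n).1 - 1
      unfold gone
      rw [Pi.single_eq_same]
      rfl
    rw [this, rowOf_sub, rowOf_one]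
  constructor
  · intro hS x c
    by_contra hne
    -- target
    set f : GF B := fun n' => if h : n' = n then
        h ▸ (((((c + 1 : ZMod (B n).m).val : ℕ) : ZMod ((B n).m ^ 3)), (ρ n x c).2) : FF (B n).m (B n).P)
      else 0 with hf
    have hfn : f n = ((((c + 1 : ZMod (B n).m).val : ℕ) : ZMod ((B n).m ^ 3)), (ρ n x c).2) := by
      rw [hf]
      simp only [↓reduceDIte]
    have hrow : rowOf (B n).m (f n).1 = c + 1 := by
      rw [hfn]
      show rowOf (B n).m (((c + 1 : ZMod (B n).m).val : ℕ) : ZMod ((B n).m ^ 3)) = c + 1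
      rw [rowOf_natCast]
      haveI : NeZero (B n).m := ⟨by have := (B n).hm; omega⟩
      exact ZMod.natCast_zmod_val _
    obtain ⟨j1, hj1⟩ := gsh_exists B ρ hρ (x + (B n).θ • u n) f
    obtain ⟨j2, hj2⟩ := gsh_exists B ρ hρ (x + (B n).θ • u n - (B n).θ • u n) (f - gone B n)
    have v1 := gsh_val B ρ _ _ _ n i hj1
    have v2 := gsh_val B ρ _ _ _ n i hj2
    rw [hrow, hfn] at v1
    rw [hgone2, hgone1, hrow, add_sub_cancel_right, add_sub_cancel_right, hfn, sub_self] at v2
    have v1' : (j1 n).2 i ≠ 0 := by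
      rw [v1]
      intro h0
      exact hne (sub_eq_zero.mp h0).symm
    have m1 : (x + (B n).θ • u n, f) - gShift B u n i j1 ∈ PA B ρ :=
      (hkey _ _ _).mpr (Or.inl ⟨v1', hj1⟩)
    have m2 : (x + (B n).θ • u n, f) - gShift B u n i j2 ∈ PA B ρ :=
      (hkey _ _ _).mpr (Or.inr ⟨v2, hj2⟩)
    have h12 := (hS (x + (B n).θ • u n, f)).unique m1 m2
    rw [h12] at v1'
    exact v1' v2
  · rintro hS ⟨x, f⟩
    have hS' : (ρ n x (rowOf (B n).m (f n).1)).2 i =
        (ρ n (x - (B n).θ • u n) (rowOf (B n).m (f n).1 - 1)).2 i := by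
      have := hS (x - (B n).θ • u n) (rowOf (B n).m (f n).1 - 1)
      rw [sub_add_cancel, sub_add_cancel] at this
      exact this
    obtain ⟨j1, hj1⟩ := gsh_exists B ρ hρ x f
    obtain ⟨j2, hj2⟩ := gsh_exists B ρ hρ (x - (B n).θ • u n) (f - gone B n)
    have v1 := gsh_val B ρ _ _ _ n i hj1
    have v2 := gsh_val B ρ _ _ _ n i hj2
    rw [hgone2, hgone1, ← hS', ← v1] at v2
    by_cases h0 : (j1 n).2 i = 0
    · refine ⟨j2, (hkey _ _ _).mpr (Or.inr ⟨v2.trans h0, hj2⟩), ?_⟩
      intro j hj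
      rcases (hkey _ _ _).mp hj with ⟨ha, hb⟩ | ⟨ha, hb⟩
      · exfalso
        apply ha
        rw [gsh_uniq B ρ _ _ _ _ hb hj1]
        exact h0
      · exact gsh_uniq B ρ _ _ _ _ hb hj2
    · refine ⟨j1, (hkey _ _ _).mpr (Or.inl ⟨h0, hj1⟩), ?_⟩
      intro j hj
      rcases (hkey _ _ _).mp hj with ⟨ha, hb⟩ | ⟨ha, hb⟩
      · exact gsh_uniq B ρ _ _ _ _ hb hj1
      · exfalso
        apply h0
        rw [← v2, ← gsh_uniq B ρ _ _ _ _ hb hj2]
        exact ha

end Vale.Agent.P043.Z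
end
end

section

attribute [-instance] ProperSMul.toContinuousSMul IsTopologicalTorsor.toContinuousSMul IdemSemiring.toCanonicallyOrderedAdd IdemSemiring.toMulLeftMono IdemSemiring.toMulRightMono AddQuantale.instAddLeftMono AddQuantale.instAddRightMono Quantale.instMulLeftMono Quantale.instMulRightMono FiniteDimensional.rclike_to_real IsScalarTower.complexToReal FiniteDimensional.complexToReal

section

/-!
# Clause tiles and product sets
-/

namespace Vale.Agent.P043.Z

open Vale.Agent.P043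

/-- the solution of a cyclic system with a constant map, in the order of the cycle -/
def gclauseSeq {r : ℕ} (f : Fin (r + 1) → Bool → Bool) (i0 : Fin (r + 1)) : ℕ → Bool
  | 0 => f i0 false
  | k + 1 => f (i0 + 1 + (Fin.ofNat (r + 1) k)) (gclauseSeq f i0 k)

/-- cyclic Boolean systems with a constant map have exactly one solution -/
theorem cyc_unique {r : ℕ} (f : Fin (r + 1) → Bool → Bool) (i0 : Fin (r + 1))
    (h : f i0 false = f i0 true) : ∃! ε : Fin (r + 1) → Bool, ∀ i, ε i = f (i - 1) (ε (i - 1)) := by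
  have hconst : ∀ b, f i0 b = f i0 false := by
    intro b
    cases b
    · rfl
    · exact h.symm
  have hsub : ∀ (i : Fin (r + 1)) (k : ℕ), (i - (i0 + 1)).val = k + 1 →
      (i - 1 - (i0 + 1)).val = k := by
    intro i k hk
    have h1 : i - 1 - (i0 + 1) = (i - (i0 + 1)) - 1 := by abel
    rw [h1]
    have h2 : (i - (i0 + 1)) ≠ 0 := by
      intro h0
      rw [h0] at hk
      simp only [Fin.coe_ofNat_eq_mod, Nat.zero_mod, Nat.right_eq_add, Nat.add_eq_zero_iff, one_ne_zero, and_false] at hk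
    rw [Fin.val_sub_one_of_ne_zero h2, hk]
    rfl
  have hidx : ∀ (i : Fin (r + 1)) (k : ℕ), (i - (i0 + 1)).val = k + 1 →
      i0 + 1 + (Fin.ofNat (r + 1) k) = i - 1 := by
    intro i k hk
    have h1 := hsub i k hk
    have h2 : Fin.ofNat (r + 1) k = i - 1 - (i0 + 1) := by
      rw [← h1]
      exact Fin.ofNat_val_eq_self _
    rw [h2]
    abel
  have key : ∀ ε : Fin (r + 1) → Bool, (∀ i, ε i = f (i - 1) (ε (i - 1))) →
      ∀ (k : ℕ) (i : Fin (r + 1)), (i - (i0 + 1)).val = k → ε i = gclauseSeq f i0 k := by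
    intro ε hε k
    induction k with
    | zero =>
      intro i hi
      have h0 : i - (i0 + 1) = 0 := Fin.ext (by rw [hi]; rfl)
      have h1 : i = i0 + 1 := sub_eq_zero.1 h0
      rw [hε i, h1, add_sub_cancel_right, hconst]
      rfl
    | succ k ih =>
      intro i hi
      rw [hε i, ih (i - 1) (hsub i k hi), gclauseSeq, hidx i k hi]
  refine ⟨fun i => gclauseSeq f i0 (i - (i0 + 1)).val, ?_, ?_⟩
  · intro i
    show gclauseSeq f i0 (i - (i0 + 1)).val = f (i - 1) (gclauseSeq f i0 (i - 1 - (i0 + 1)).val)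
    rcases Nat.eq_zero_or_pos (i - (i0 + 1)).val with h0 | h0
    · have h1 : i - (i0 + 1) = 0 := Fin.ext (by rw [h0]; rfl)
      have h2 : i = i0 + 1 := sub_eq_zero.1 h1
      rw [h0, gclauseSeq]
      rw [h2, add_sub_cancel_right, hconst (gclauseSeq _ _ _)]
    · obtain ⟨k, hk⟩ := Nat.exists_eq_succ_of_ne_zero h0.ne'
      rw [hk, hsub i k hk, Nat.succ_eq_add_one, gclauseSeq, hidx i k hk]
  · intro ε hε
    funext i
    exact key ε hε _ i rfl

/-- cyclic systems of identities have two solutions -/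
theorem cyc_not_unique {r : ℕ} (f : Fin (r + 1) → Bool → Bool) (h : ∀ i b, f i b = b) :
    ¬ ∃! ε : Fin (r + 1) → Bool, ∀ i, ε i = f (i - 1) (ε (i - 1)) := by
  intro hu
  have h1 := hu.unique (y₁ := fun _ => true) (y₂ := fun _ => false)
    (fun i => by rw [h]) (fun i => by rw [h])
  have h2 := congrFun h1 0
  simp at h2

/-- fixed points of `J ∘ e` and `e ∘ J` -/
theorem gclause_swap {α β : Type*} (J : β → α) (e : α → β) :
    (∃! a, a = J (e a)) ↔ ∃! b, b = e (J b) := by
  constructor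
  · rintro ⟨a, ha, hu⟩
    refine ⟨e a, ?_, ?_⟩
    · show e a = e (J (e a))
      rw [← ha]
    · intro b hb
      have h1 : J b = a := hu (J b) (by show J b = J (e (J b)); rw [← hb])
      rw [hb, h1]
  · rintro ⟨b, hb, hu⟩
    refine ⟨J b, ?_, ?_⟩
    · show J b = J (e (J b))
      rw [← hb]
    · intro a ha
      have h1 : e a = b := hu (e a) (by show e a = e (J (e a)); rw [← ha])
      rw [ha, h1]

theorem gclause_sum {I : Type} (B : I → Blk) [DecidableEq I] {r : ℕ} (c : Fin (r + 1) → I)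
    (hc : Function.Injective c) (p : Fin (r + 1) → Prop) [DecidablePred p] (n : I)
    [Decidable (∃ i, c i = n ∧ p i)] :
    (∑ i, if p i then gone B (c i) else 0) n =
      if ∃ i, c i = n ∧ p i then (((1 : ZMod ((B n).m ^ 3)), 0) : FF (B n).m (B n).P) else 0 := by
  rw [Finset.sum_apply]
  split_ifs with h
  · obtain ⟨i, rfl, hi⟩ := h
    rw [Finset.sum_eq_single i]
    · rw [if_pos hi]
      simp [gone]
    · intro i' _ hi'
      split_ifs
      · have : c i' ≠ c i := fun hh => hi' (hc hh)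
        simp only [gone]
        rw [Pi.single_eq_of_ne this.symm]
      · rfl
    · intro hh
      exact absurd (Finset.mem_univ i) hh
  · refine Finset.sum_eq_zero fun i _ => ?_
    split_ifs with h1
    · have : c i ≠ n := fun hh => h ⟨i, hh, h1⟩
      simp only [gone]
      rw [Pi.single_eq_of_ne this.symm]
    · rfl

/-- the solutions of a clause tile correspond to the solutions of a cyclic Boolean system -/
theorem PA_clause_cyc {I : Type} (B : I → Blk) {X : Type} [AddCommGroup X] [DecidableEq I]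
    (ρ : (n : I) → X → ZMod (B n).m → FF (B n).m (B n).P) (hρ : IsRow B ρ)
    {r : ℕ} (c : Fin (r + 1) → I) (l : Fin (r + 1) → Bool) (hc : Function.Injective c)
    (g : X × GF B) :
    (∃! j, g - gClause B c l j ∈ PA B ρ) ↔
      ∃! ε : Fin (r + 1) → Bool, ∀ i, ε i = decide ((g.2 (c (i - 1))).2 (l (i - 1)) =
        (ρ (c (i - 1)) g.1 (rowOf (B (c (i - 1))).m (g.2 (c (i - 1))).1 -
          (if ε (i - 1) then 1 else 0))).2 (l (i - 1))) := by
  classical
  -- the shift of the block `n`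
  set s : (Fin (r + 1) → Bool) → (n : I) → Prop := fun ε n => ∃ i, c i = n ∧ ε i = true with hs
  have hm : ∀ n, 1 ≤ (B n).m := fun n => (by norm_num : 1 ≤ 2).trans (B n).hm
  have hsc : ∀ ε i, s ε (c i) ↔ ε i = true := by
    intro ε i
    constructor
    · rintro ⟨i', hi', h⟩
      rwa [← hc hi']
    · intro h
      exact ⟨i, rfl, h⟩
  have hex : ∀ (ε : Fin (r + 1) → Bool) (n : I), ∃ k : KK (B n).m (B n).P, emb (B n).m (B n).P k =
      g.2 n - (if s ε n then (((1 : ZMod ((B n).m ^ 3)), 0) : FF (B n).m (B n).P) else 0) -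
        ρ n g.1 (rowOf (B n).m (g.2 n).1 - (if s ε n then 1 else 0)) := by
    intro ε n
    refine exists_emb (hm n) _ ?_
    rw [Prod.fst_sub, Prod.fst_sub, rowOf_sub, rowOf_sub, hρ]
    split_ifs
    · rw [rowOf_one]
      abel
    · simp only [Prod.fst_zero, sub_zero]
      have : rowOf (B n).m (0 : ZMod ((B n).m ^ 3)) = 0 := map_zero _
      rw [this]
      abel
  choose J hJ using hex
  set e : GJ B → (Fin (r + 1) → Bool) := fun j i =>
    decide ((j (c (i - 1))).2 (l (i - 1)) = 0) with he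
  have h1 : ∀ j : GJ B, g - gClause B c l j ∈ PA B ρ ↔ j = J (e j) := by
    intro j
    have hrow : ∀ (n : I) (k : KK (B n).m (B n).P), rowOf (B n).m (emb (B n).m (B n).P k).1 = 0 :=
      fun n k => rowOf_emb1 _
    have hval : ∀ n, (g - gClause B c l j).2 n = g.2 n - emb (B n).m (B n).P (j n) -
        (if s (e j) n then (((1 : ZMod ((B n).m ^ 3)), 0) : FF (B n).m (B n).P) else 0) := by
      intro n
      have h2 := gclause_sum B c hc (fun i => (j (c (i - 1))).2 (l (i - 1)) = 0) n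
      have h3 : (∃ i, c i = n ∧ (j (c (i - 1))).2 (l (i - 1)) = 0) ↔ s (e j) n := by
        simp only [hs, he, decide_eq_true_eq]
      have h4 : (gClause (X := X) B c l j).2 n = emb (B n).m (B n).P (j n) +
          (if s (e j) n then (((1 : ZMod ((B n).m ^ 3)), 0) : FF (B n).m (B n).P) else 0) := by
        simp only [gClause, Pi.add_apply]
        rw [h2]
        simp only [h3]
        rfl
      rw [Prod.snd_sub, Pi.sub_apply, h4]
      abel
    have hfst : (g - gClause B c l j).1 = g.1 := by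
      simp only [gClause, Prod.fst_sub, sub_zero]
    have hrow2 : ∀ n, rowOf (B n).m ((g - gClause B c l j).2 n).1 =
        rowOf (B n).m (g.2 n).1 - (if s (e j) n then 1 else 0) := by
      intro n
      rw [hval, Prod.fst_sub, Prod.fst_sub, rowOf_sub, rowOf_sub, hrow]
      split_ifs
      · rw [rowOf_one]
        abel
      · have : rowOf (B n).m (0 : ZMod ((B n).m ^ 3)) = 0 := map_zero _
        rw [Prod.fst_zero, this]
        abel
    constructor
    · intro hmem
      funext n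
      refine emb_injective (hm n) ?_
      have h5 := hmem n
      rw [hrow2, hfst, hval] at h5
      rw [hJ, ← h5]
      abel
    · intro hj n
      rw [hrow2, hfst, hval]
      have h5 := hJ (e j) n
      rw [← hj] at h5
      rw [h5]
      abel
  have h2 : ∀ ε : Fin (r + 1) → Bool, (∀ i, ε i = decide ((g.2 (c (i - 1))).2 (l (i - 1)) =
        (ρ (c (i - 1)) g.1 (rowOf (B (c (i - 1))).m (g.2 (c (i - 1))).1 -
          (if ε (i - 1) then 1 else 0))).2 (l (i - 1)))) ↔ ε = e (J ε) := by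
    intro ε
    rw [funext_iff]
    refine forall_congr' fun i => ?_
    have h3 : (e (J ε)) i = decide ((g.2 (c (i - 1))).2 (l (i - 1)) =
        (ρ (c (i - 1)) g.1 (rowOf (B (c (i - 1))).m (g.2 (c (i - 1))).1 -
          (if ε (i - 1) then 1 else 0))).2 (l (i - 1))) := by
      simp only [he]
      congr 1
      have h4 := congrArg Prod.snd (hJ ε (c (i - 1)))
      have h5 := congrFun h4 (l (i - 1))
      simp only [hsc] at h5
      have h6 : (emb (B (c (i - 1))).m (B (c (i - 1))).P (J ε (c (i - 1)))).2 (l (i - 1)) =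
        (J ε (c (i - 1))).2 (l (i - 1)) := rfl
      rw [h6] at h5
      rw [h5]
      simp only [Prod.snd_sub, Pi.sub_apply]
      have h7 : ((if ε (i - 1) = true then ((1 : ZMod ((B (c (i - 1))).m ^ 3)), 0) else 0 :
          FF (B (c (i - 1))).m (B (c (i - 1))).P)).2 (l (i - 1)) = 0 := by
        split_ifs <;> rfl
      rw [h7, sub_zero, sub_eq_zero]
    rw [h3]
  simp only [h1, h2]
  exact gclause_swap J e

theorem PA_clause {I : Type} (B : I → Blk) {X : Type} [AddCommGroup X] [DecidableEq I]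
    (ρ : (n : I) → X → ZMod (B n).m → FF (B n).m (B n).P) (hρ : IsRow B ρ)
    {r : ℕ} (c : Fin (r + 1) → I) (l : Fin (r + 1) → Bool) (hc : Function.Injective c) :
    Solves (PA B ρ) (gClause B c l) ↔
      ∀ x, ∃ i, ∀ a, (ρ (c i) x a).2 (l i) = (ρ (c i) x 0).2 (l i) := by
  classical
  constructor
  · intro hS x
    by_contra hcon
    push Not at hcon
    have hstep : ∀ i, ∃ a, (ρ (c i) x a).2 (l i) ≠ (ρ (c i) x (a - 1)).2 (l i) := by
      intro i
      by_contra hno
      push Not at hno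
      obtain ⟨a, ha⟩ := hcon i
      have hnat : ∀ k : ℕ, (ρ (c i) x (k : ZMod (B (c i)).m)).2 (l i) = (ρ (c i) x 0).2 (l i) := by
        intro k
        induction k with
        | zero => rw [Nat.cast_zero]
        | succ k ih =>
          rw [hno, Nat.cast_succ, add_sub_cancel_right, ih]
      have : NeZero (B (c i)).m := ⟨by have := (B (c i)).hm; omega⟩
      refine ha ?_
      have h1 := hnat a.val
      rwa [ZMod.natCast_zmod_val] at h1
    have hex : ∀ n : I, ∃ a : ZMod (B n).m, ∀ i, c i = n →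
        (ρ n x a).2 (l i) ≠ (ρ n x (a - 1)).2 (l i) := by
      intro n
      by_cases h : ∃ i, c i = n
      · obtain ⟨i, rfl⟩ := h
        obtain ⟨a, ha⟩ := hstep i
        refine ⟨a, fun i' hi' => ?_⟩
        rw [hc hi']
        exact ha
      · exact ⟨0, fun i hi => absurd ⟨i, hi⟩ h⟩
    choose a ha using hex
    set g : X × GF B := (x, fun n => ((ρ n x (a n)).1, (ρ n x (a n - 1)).2)) with hg
    have h1 := (PA_clause_cyc B ρ hρ c l hc g).1 (hS g)
    refine cyc_not_unique (fun i b => decide ((g.2 (c i)).2 (l i) =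
        (ρ (c i) g.1 (rowOf (B (c i)).m (g.2 (c i)).1 -
          (if b then 1 else 0))).2 (l i))) (fun i b => ?_) h1
    have h2 : rowOf (B (c i)).m (g.2 (c i)).1 = a (c i) := hρ _ _ _
    rw [h2]
    cases b
    · simp only [hg, Bool.false_eq_true, if_false, sub_zero, decide_eq_false_iff_not]
      exact fun h => ha (c i) i rfl h.symm
    · simp only [hg, if_true, decide_true]
  · intro h g
    obtain ⟨i, hi⟩ := h g.1
    refine (PA_clause_cyc B ρ hρ c l hc g).2 (cyc_unique (fun i b => decide ((g.2 (c i)).2 (l i) =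
        (ρ (c i) g.1 (rowOf (B (c i)).m (g.2 (c i)).1 -
          (if b then 1 else 0))).2 (l i))) i ?_)
    simp only [hi]

end Vale.Agent.P043.Z
end
end

section

attribute [-instance] ProperSMul.toContinuousSMul IsTopologicalTorsor.toContinuousSMul IdemSemiring.toCanonicallyOrderedAdd IdemSemiring.toMulLeftMono IdemSemiring.toMulRightMono AddQuantale.instAddLeftMono AddQuantale.instAddRightMono Quantale.instMulLeftMono Quantale.instMulRightMono FiniteDimensional.rclike_to_real IsScalarTower.complexToReal FiniteDimensional.complexToReal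

section

/-!
# The global structure and existence theorems
-/

namespace Vale.Agent.P043.Z

open Vale.Agent.P043

section

variable {I : Type} (B : I → Blk) {X : Type} [AddCommGroup X] [DecidableEq I]

/-- a point of row `c` is `c` plus an element of the row group -/
theorem glob_exists_V {m : ℕ} {P : Bool → ℕ} (hm : 2 ≤ m) (a : FF m P) (c : ZMod m)
    (h : rowOf m a.1 = c) :
    ∃ k : KK m P, a = (((c.val : ℕ) : ZMod (m ^ 3)), 0) + emb m P k := by
  haveI : NeZero m := ⟨by omega⟩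
  obtain ⟨k, hk⟩ := exists_emb (P := P) (by omega : 1 ≤ m)
    (a - (((c.val : ℕ) : ZMod (m ^ 3)), 0)) (by
      rw [Prod.fst_sub, rowOf_sub, rowOf_natCast, h, ZMod.natCast_zmod_val, sub_self])
  exact ⟨k, by rw [hk]; abel⟩

/-- Global structure theorem. -/
theorem global_no [Finite I] (u : I → X) (Cl : Set (Clause I)) (A : Set (X × GF B))
    (hA : ∀ t ∈ GFam B u Cl, Solves A t) :
    ∃ W : (n : I) → X → KK (B n).m (B n).P,
      (∀ n, ∀ t ∈ (B n).T, ∀ x : X, Solves (Gr fun ξ : ℤ => W n (x + ξ • u n)) t) ∧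
      (∀ k ∈ Cl, ∀ x : X, ∃ i, gNeu B u W (k.c i) (k.l i) x) ∧
      (∀ h : X, (∀ a, a + (h, 0) ∈ A ↔ a ∈ A) → ∀ n x, W n (x + h) = W n x) := by
  have hbase : Solves A (gBase B) := hA _ (by simp only [GFam, Set.singleton_union, ne_eq, Set.mem_union, Set.mem_insert_iff, Set.mem_iUnion, Set.mem_image, true_or, Set.mem_range, Prod.exists, Bool.exists_bool, Set.mem_ofPred_eq, Set.mem_singleton_iff, exists_prop])
  have hprod : ∀ n n', n ≠ n' → Solves A (gProd B n n') := fun n n' h =>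
    hA _ (Or.inl (Or.inr ⟨n, n', h, rfl⟩))
  have hblock : ∀ n, ∀ t ∈ (B n).T, Solves A (gBlock B u n t) := fun n t ht =>
    hA _ (Or.inl (Or.inl (Or.inl (Or.inr (Set.mem_iUnion.2 ⟨n, ⟨t, ht, rfl⟩⟩)))))
  have hshift : ∀ n i, Solves A (gShift B u n i) := fun n i =>
    hA _ (Or.inl (Or.inl (Or.inr ⟨(n, i), rfl⟩)))
  have hclause : ∀ k ∈ Cl, Solves A (gClause B k.c k.l) := fun k hk =>
    hA _ (Or.inr (Set.mem_iUnion₂.2 ⟨k, hk, rfl⟩))
  obtain ⟨ρ, hρ, rfl⟩ := exists_PA B A hbase hprod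
  have hV0 : ∀ n c x, ∃ k : KK (B n).m (B n).P,
      ρ n x c = (((c.val : ℕ) : ZMod ((B n).m ^ 3)), 0) + emb (B n).m (B n).P k :=
    fun n c x => glob_exists_V (B n).hm _ _ (hρ n x c)
  choose V hV using hV0
  have hV2 : ∀ n c x i, (V n c x).2 i = (ρ n x c).2 i := by
    intro n c x i
    rw [hV]
    simp only [emb, Prod.mk_add_mk, zero_add]
  have hind : ∀ (n : I) (i : Bool) (c : ℕ) (x : X),
      (ρ n x (c : ZMod (B n).m)).2 i = (ρ n (x - ((c : ℤ) * (B n).θ) • u n) 0).2 i := by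
    intro n i c
    induction c with
    | zero => intro x; simp
    | succ c ih =>
      intro x
      have h1 := (PA_shift B ρ hρ u n i).1 (hshift n i) (x - (B n).θ • u n) (c : ZMod (B n).m)
      rw [sub_add_cancel] at h1
      rw [Nat.cast_succ, h1, ih]
      congr 3
      rw [Nat.cast_succ, add_mul, one_mul, add_smul]
      abel
  refine ⟨fun n x => V n 0 x, ?_, ?_, ?_⟩
  · intro n t ht x
    have h1 := (PA_block B ρ hρ u n t).1 (hblock n t ht)
    exact (RA_iff (by have := (B n).hm; omega) (ρ n) (hρ n) (u n) t (V n) (hV n)).1 h1 0 x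
  · intro k hk x
    obtain ⟨i, hi⟩ := (PA_clause B ρ hρ k.c k.l k.inj).1 (hclause k hk) x
    refine ⟨i, fun c => ?_⟩
    rw [hV2, hV2, ← hind, hi]
  · intro h hh n x
    have h0 : ((x, fun n => ρ n x 0) : X × GF B) ∈ PA B ρ := by
      intro n
      change ρ n x 0 = ρ n x (rowOf (B n).m (ρ n x 0).1)
      rw [hρ]
    have h1 := (hh _).2 h0 n
    change ρ n x 0 + 0 = ρ n (x + h) (rowOf (B n).m (ρ n x 0 + 0).1) at h1
    rw [add_zero, hρ] at h1
    have h2 : emb (B n).m (B n).P (V n 0 (x + h)) = emb (B n).m (B n).P (V n 0 x) := by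
      have h3 := hV n 0 x
      have h4 := hV n 0 (x + h)
      rw [← h1, h3] at h4
      exact (add_left_cancel h4).symm
    exact emb_injective (by have := (B n).hm; omega) h2

/-- Global existence theorem. -/
theorem global_yes [Finite I] (u : I → X) (Cl : Set (Clause I))
    (W : (n : I) → X → KK (B n).m (B n).P)
    (hT : ∀ n, ∀ t ∈ (B n).T, ∀ x : X, Solves (Gr fun ξ : ℤ => W n (x + ξ • u n)) t)
    (hc : ∀ n x, W n (x + (((B n).m : ℤ) * (B n).θ) • u n) = W n x)
    (hCl : ∀ k ∈ Cl, ∀ x : X, ∃ i, gNeu B u W (k.c i) (k.l i) x) :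
    ∃ A : Set (X × GF B), ∀ t ∈ GFam B u Cl, Solves A t := by
  have hm0 : ∀ n, NeZero (B n).m := fun n => ⟨by have := (B n).hm; omega⟩
  let V : (n : I) → ZMod (B n).m → X → KK (B n).m (B n).P :=
    fun n c x => W n (x - ((c.val : ℤ) * (B n).θ) • u n)
  let ρ : (n : I) → X → ZMod (B n).m → FF (B n).m (B n).P := fun n x c =>
    (((c.val : ℕ) : ZMod ((B n).m ^ 3)), 0) + emb (B n).m (B n).P (V n c x)
  have hρ : IsRow B ρ := by
    intro n x c
    haveI := hm0 n
    change rowOf (B n).m (((c.val : ℕ) : ZMod ((B n).m ^ 3)) + emb1 (B n).m (V n c x).1) = c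
    rw [rowOf_add, rowOf_emb1, rowOf_natCast, ZMod.natCast_zmod_val, add_zero]
  have hρ2 : ∀ n x c i, (ρ n x c).2 i = (V n c x).2 i := by
    intro n x c i
    simp only [ZMod.natCast_val, emb, Prod.mk_add_mk, zero_add, ρ]
  refine ⟨PA B ρ, ?_⟩
  rintro t ((((ht | ht) | ht) | ht) | ht)
  · rw [Set.mem_singleton_iff] at ht
    subst ht
    exact PA_base B ρ hρ
  · obtain ⟨n, s, hs, rfl⟩ := Set.mem_iUnion.1 ht
    rw [PA_block B ρ hρ u n s, RA_iff (by have := (B n).hm; omega) (ρ n) (hρ n) (u n) s (V n)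
      (fun c x => rfl)]
    intro c x
    have h1 := hT n s hs (x - ((c.val : ℤ) * (B n).θ) • u n)
    have h2 : (fun ξ : ℤ => V n c (x + ξ • u n)) =
        fun ξ : ℤ => W n (x - ((c.val : ℤ) * (B n).θ) • u n + ξ • u n) := by
      funext ξ
      change W n _ = W n _
      congr 1
      abel
    rw [h2]
    exact h1
  · obtain ⟨⟨n, i⟩, rfl⟩ := ht
    change Solves (PA B ρ) (gShift B u n i)
    rw [PA_shift B ρ hρ u n i]
    intro x c
    rw [hρ2, hρ2]
    haveI := hm0 n
    have h1 : V n (c + 1) (x + (B n).θ • u n) = V n c x := by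
      change W n _ = W n _
      rcases eq_or_ne (c.val + 1) (B n).m with h | h
      · have h3 : ((c + 1).val : ℕ) = 0 := by
          have h4 : c + 1 = 0 := by
            have h5 : ((c.val + 1 : ℕ) : ZMod (B n).m) = 0 := by rw [h]; exact ZMod.natCast_self _
            rw [Nat.cast_succ, ZMod.natCast_zmod_val] at h5
            exact h5
          rw [h4, ZMod.val_zero]
        rw [h3, ← hc n (x - ((c.val : ℤ) * (B n).θ) • u n)]
        congr 1
        have h6 : ((B n).m : ℤ) = (c.val : ℤ) + 1 := by exact_mod_cast h.symm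
        rw [h6, add_mul, one_mul, add_smul, Nat.cast_zero, zero_mul, zero_smul]
        abel
      · have h7 : (c + 1).val = c.val + 1 := by
          have h8 : c.val + 1 < (B n).m := lt_of_le_of_ne (ZMod.val_lt c) h
          have h9 : c + 1 = ((c.val + 1 : ℕ) : ZMod (B n).m) := by
            rw [Nat.cast_succ, ZMod.natCast_zmod_val]
          rw [h9, ZMod.val_natCast, Nat.mod_eq_of_lt h8]
        congr 1
        rw [h7]
        push_cast
        rw [add_mul, one_mul, add_smul]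
        abel
    rw [h1]
  · obtain ⟨n, n', h, rfl⟩ := ht
    exact PA_prod B ρ hρ n n' h
  · obtain ⟨k, hk, rfl⟩ := Set.mem_iUnion₂.1 ht
    rw [PA_clause B ρ hρ k.c k.l k.inj]
    intro x
    obtain ⟨i, hi⟩ := hCl k hk x
    refine ⟨i, fun a => ?_⟩
    rw [hρ2, hρ2]
    have h1 := hi a.val
    have h2 := hi (0 : ZMod (B (k.c i)).m).val
    exact h1.trans h2.symm

end

end Vale.Agent.P043.Z
end
end

section

attribute [-instance] ProperSMul.toContinuousSMul IsTopologicalTorsor.toContinuousSMul IdemSemiring.toCanonicallyOrderedAdd IdemSemiring.toMulLeftMono IdemSemiring.toMulRightMono AddQuantale.instAddLeftMono AddQuantale.instAddRightMono Quantale.instMulLeftMono Quantale.instMulRightMono FiniteDimensional.rclike_to_real IsScalarTower.complexToReal FiniteDimensional.complexToReal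

section

namespace Vale.Agent.P043.B

/-- the last nonzero octal digit, with value `1` at `0` -/
def oct (m : ℤ) : ZMod 8 :=
  if m = 0 then 1 else if 8 ∣ m then oct (m / 8) else (m : ZMod 8)
termination_by m.natAbs
decreasing_by omega

theorem oct_zero : oct 0 = 1 := by
  rw [oct]
  simp

theorem oct_mul (m : ℤ) : oct (8 * m) = oct m := by
  by_cases h : m = 0
  · subst h
    rw [mul_zero]
  · rw [oct]
    rw [if_neg (by (clear * - h; omega)), if_pos (by omega)]
    congr 1
    omega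

theorem oct_of_not {m : ℤ} (h : ¬ (8:ℤ) ∣ m) : oct m = (m : ZMod 8) := by
  rw [oct]
  rw [if_neg (by rintro rfl; exact h (dvd_zero _)), if_neg h]

theorem cast_eq_zero {m : ℤ} : ((m : ZMod 8) = 0) ↔ (8:ℤ) ∣ m := by
  have := ZMod.intCast_zmod_eq_zero_iff_dvd m 8
  exact_mod_cast this

theorem oct_ne_zero (m : ℤ) : oct m ≠ 0 := by
  induction h : m.natAbs using Nat.strong_induction_on generalizing m with
  | _ n ih =>
    by_cases h0 : m = 0
    · subst h0
      rw [oct_zero]
      decide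
    · by_cases h8 : (8:ℤ) ∣ m
      · obtain ⟨c, rfl⟩ := h8
        rw [oct_mul]
        exact ih c.natAbs (by (clear * - h h0; omega)) c rfl
      · rw [oct_of_not h8]
        exact fun h1 => h8 (cast_eq_zero.1 h1)

/-- the main case distinction -/
theorem oct_add {b : ℤ} (hb : ¬ (8:ℤ) ∣ b) (c : ℤ) : R1 (b : ZMod 8) (oct c) (oct (c + b)) := by
  by_cases hc : (8:ℤ) ∣ c
  · right; right
    rw [oct_of_not (by omega)]
    push_cast
    rw [cast_eq_zero.2 hc, zero_add]
  · by_cases hcb : (8:ℤ) ∣ c + b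
    · right; left
      rw [oct_of_not hc]
      have h := cast_eq_zero.2 hcb
      push_cast at h
      exact eq_neg_of_add_eq_zero_left h
    · left
      rw [oct_of_not hc, oct_of_not hcb]
      push_cast
      rfl

theorem q1_aux {a b : ℤ} (hab : ¬ ((8:ℤ) ∣ a ∧ (8:ℤ) ∣ b)) (h : oct (a + b) = oct b) :
    R1 (oct b) (oct a) (oct (a + 8 * b)) := by
  by_cases ha : (8:ℤ) ∣ a
  · have hb : ¬ (8:ℤ) ∣ b := fun hb => hab ⟨ha, hb⟩
    obtain ⟨c, rfl⟩ := ha
    rw [oct_mul, ← mul_add, oct_mul, oct_of_not hb]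
    exact oct_add hb c
  · have hL : oct (a + 8 * b) = oct a := by
      rw [oct_of_not ha, oct_of_not (by omega)]
      push_cast
      have : (8 : ZMod 8) = 0 := by decide
      rw [this, zero_mul, add_zero]
    rw [hL]
    by_cases hb : (8:ℤ) ∣ b
    · right; right
      rw [← h, oct_of_not ha, oct_of_not (by omega)]
      push_cast
      rw [cast_eq_zero.2 hb, add_zero]
    · right; left
      rw [oct_of_not hb] at h ⊢
      rw [oct_of_not ha]
      by_cases hs : (8:ℤ) ∣ a + b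
      · have h1 := cast_eq_zero.2 hs
        push_cast at h1
        exact eq_neg_of_add_eq_zero_left h1
      · rw [oct_of_not hs] at h
        push_cast at h
        exact absurd (cast_eq_zero.1 (by simpa only [add_eq_right] using h)) ha

theorem q3_aux {a b : ℤ} (hab : ¬ ((8:ℤ) ∣ a ∧ (8:ℤ) ∣ b)) (h : oct a = - oct b) :
    R1 (oct b) (oct (a + b)) (oct (a + 9 * b)) := by
  by_cases hs : (8:ℤ) ∣ a + b
  · have hb : ¬ (8:ℤ) ∣ b := fun hb => hab ⟨by omega, hb⟩
    obtain ⟨c, hc⟩ := hs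
    have e : a + 9 * b = 8 * (c + b) := by omega
    rw [e, hc, oct_mul, oct_mul, oct_of_not hb]
    exact oct_add hb c
  · have hN : oct (a + 9 * b) = oct (a + b) := by
      rw [oct_of_not hs, oct_of_not (by (clear * - hs; omega))]
      push_cast
      have : (9 : ZMod 8) = 1 := by decide
      rw [this, one_mul]
    rw [hN]
    by_cases ha : (8:ℤ) ∣ a
    · have hb : ¬ (8:ℤ) ∣ b := fun hb => hab ⟨ha, hb⟩
      right; right
      rw [oct_of_not hs, oct_of_not hb]
      push_cast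
      rw [cast_eq_zero.2 ha, zero_add]
    · by_cases hb : (8:ℤ) ∣ b
      · right; left
        rw [← h, oct_of_not hs, oct_of_not ha]
        push_cast
        rw [cast_eq_zero.2 hb, add_zero]
      · rw [oct_of_not ha, oct_of_not hb] at h
        refine absurd (cast_eq_zero.1 ?_) hs
        push_cast
        rw [h, neg_add_cancel]

theorem q4_aux {a b : ℤ} (hab : ¬ ((8:ℤ) ∣ a ∧ (8:ℤ) ∣ b)) :
    oct (a + b) = oct a ∨ oct (a + b) = oct b ∨ oct (a + b) = oct a + oct b ∨
      oct a = - oct b := by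
  by_cases ha : (8:ℤ) ∣ a
  · have hb : ¬ (8:ℤ) ∣ b := fun hb => hab ⟨ha, hb⟩
    right; left
    rw [oct_of_not hb, oct_of_not (by omega)]
    push_cast
    rw [cast_eq_zero.2 ha, zero_add]
  · by_cases hb : (8:ℤ) ∣ b
    · left
      rw [oct_of_not ha, oct_of_not (by (clear * - ha hb; omega))]
      push_cast
      rw [cast_eq_zero.2 hb, add_zero]
    · right; right
      by_cases hs : (8:ℤ) ∣ a + b
      · right
        rw [oct_of_not ha, oct_of_not hb]
        have h1 := cast_eq_zero.2 hs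
        push_cast at h1
        exact eq_neg_of_add_eq_zero_left h1
      · left
        rw [oct_of_not ha, oct_of_not hb, oct_of_not hs]
        push_cast
        rfl

/-- the four relations -/
theorem quad (a b : ℤ) :
    (oct (a + b) = oct b → R1 (oct b) (oct a) (oct (a + 8 * b))) ∧
    (oct (a + b) = oct a → R1 (oct a) (oct b) (oct (b + 8 * a))) ∧
    (oct a = - oct b → R1 (oct b) (oct (a + b)) (oct (a + 9 * b))) ∧
    (oct (a + b) = oct a ∨ oct (a + b) = oct b ∨ oct (a + b) = oct a + oct b ∨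
      oct a = - oct b) := by
  induction h : a.natAbs + b.natAbs using Nat.strong_induction_on generalizing a b with
  | _ n ih =>
    by_cases hab : (8:ℤ) ∣ a ∧ (8:ℤ) ∣ b
    · obtain ⟨⟨c, rfl⟩, ⟨d, rfl⟩⟩ := hab
      by_cases h0 : c = 0 ∧ d = 0
      · obtain ⟨rfl, rfl⟩ := h0
        have e : (8:ℤ) * 0 = 0 := rfl
        have e1 : oct (8 * 0 + 8 * 0) = 1 := by rw [← oct_zero]; rfl
        have e2 : oct (8 * 0 + 8 * (8 * 0)) = 1 := by rw [← oct_zero]; rfl
        have e3 : oct (8 * 0 + 9 * (8 * 0)) = 1 := by rw [← oct_zero]; rfl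
        rw [e1, e2, e3, e, oct_zero]
        refine ⟨fun _ => Or.inr (Or.inr rfl), fun _ => Or.inr (Or.inr rfl), ?_, Or.inl rfl⟩
        intro h1
        exact absurd h1 (by decide)
      · have e1 : 8 * c + 8 * d = 8 * (c + d) := by ring
        have e2 : 8 * c + 8 * (8 * d) = 8 * (c + 8 * d) := by ring
        have e3 : 8 * d + 8 * (8 * c) = 8 * (d + 8 * c) := by ring
        have e4 : 8 * c + 9 * (8 * d) = 8 * (c + 9 * d) := by ring
        rw [e1, e2, e3, e4]
        simp only [oct_mul]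
        exact ih (c.natAbs + d.natAbs) (by omega) c d rfl
    · refine ⟨q1_aux hab, fun h1 => ?_, q3_aux hab, q4_aux hab⟩
      rw [add_comm] at h1
      exact q1_aux (fun h2 => hab ⟨h2.2, h2.1⟩) h1

/-- the solution -/
def octF : Fin 9 → ℤ × ℤ → ZMod 8 := fun j x =>
  ![oct x.1, oct x.2, oct (x.1 + x.2), oct (x.1 + 8 * x.2), oct (x.2 + 8 * x.1),
    oct (x.1 + 9 * x.2), (x.1 : ZMod 8), (x.2 : ZMod 8), ((x.1 + x.2 : ℤ) : ZMod 8)] j

end Vale.Agent.P043.B
end
end

section

attribute [-instance] ProperSMul.toContinuousSMul IsTopologicalTorsor.toContinuousSMul IdemSemiring.toCanonicallyOrderedAdd IdemSemiring.toMulLeftMono IdemSemiring.toMulRightMono AddQuantale.instAddLeftMono AddQuantale.instAddRightMono Quantale.instMulLeftMono Quantale.instMulRightMono FiniteDimensional.rclike_to_real IsScalarTower.complexToReal FiniteDimensional.complexToReal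

section

/-!
# The family is finite
-/

namespace Vale.Agent.P043.Z

open Vale.Agent.P043

theorem GFam_finite {I : Type} (B : I → Blk) {X : Type} [AddCommGroup X] [DecidableEq I]
    [Finite I] (u : I → X) (Cl : Set (Clause I)) (hCl : Cl.Finite) :
    (GFam B u Cl).Finite := by
  unfold GFam
  refine (((Set.Finite.union (Set.Finite.union (Set.finite_singleton _) ?_) ?_).union ?_).union ?_)
  · exact Set.finite_iUnion fun n => (B n).fin.image _
  · exact Set.finite_range _
  · refine (Set.finite_range fun p : I × I => gProd B p.1 p.2).subset ?_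
    rintro t ⟨n, n', -, rfl⟩
    exact ⟨(n, n'), rfl⟩
  · exact hCl.biUnion fun k _ => Set.finite_singleton _

end Vale.Agent.P043.Z
end
end

section

attribute [-instance] ProperSMul.toContinuousSMul IsTopologicalTorsor.toContinuousSMul IdemSemiring.toCanonicallyOrderedAdd IdemSemiring.toMulLeftMono IdemSemiring.toMulRightMono AddQuantale.instAddLeftMono AddQuantale.instAddRightMono Quantale.instMulLeftMono Quantale.instMulRightMono FiniteDimensional.rclike_to_real IsScalarTower.complexToReal FiniteDimensional.complexToReal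

section

/-!
# The hybrid system has no lattice periodic solution
-/

namespace Vale.Agent.P043.Hy

open Vale.Agent.P043 Vale.Agent.P043.Eu

/-! ## periods of lattice periodic sets -/

theorem cn_pt_add (x y x' y' : ℤ) (z z' : ℝ) : pt x y z + pt x' y' z' = pt (x + x') (y + y') (z + z') := by
  unfold pt
  ext i
  · fin_cases i <;> simp
  · simp

theorem cn_pt_sub (x y x' y' : ℤ) (z z' : ℝ) : pt x y z - pt x' y' z' = pt (x - x') (y - y') (z - z') := by
  unfold pt
  ext i
  · fin_cases i <;> simp only [Prod.mk_sub_mk, Matrix.sub_cons, Matrix.head_cons, Matrix.tail_cons, sub_self, Matrix.zero_empty, Fin.zero_eta, Fin.isValue, Matrix.cons_val_zero]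
  · simp

theorem cn_pt_eta (g : H 2) : g = pt (g.1 0) (g.1 1) g.2 := by
  unfold pt
  ext i
  · fin_cases i <;> simp
  · simp

theorem cn_pt_inj {x y x' y' : ℤ} {z z' : ℝ} (h : pt x y z = pt x' y' z') :
    x = x' ∧ y = y' ∧ z = z' := by
  unfold pt at h
  rw [Prod.mk.injEq] at h
  refine ⟨?_, ?_, h.2⟩
  · simpa using congrFun h.1 0
  · simpa using congrFun h.1 1

/-- the group of periods -/
def cn_stab (A : Set (H 2)) : AddSubgroup (H 2) where
  carrier := {v | ∀ a, v + a ∈ A ↔ a ∈ A}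
  zero_mem' := by intro a; rw [zero_add]
  add_mem' := by
    intro v w hv hw a
    rw [add_assoc, hv, hw]
  neg_mem' := by
    intro v hv a
    rw [← hv (-v + a), add_neg_cancel_left]

theorem perH_vec {A : Set (H 2)} (h : PerH A) :
    ∃ (D : ℤ) (t : ℝ), D ≠ 0 ∧ ∀ a, pt D 0 t + a ∈ A ↔ a ∈ A := by
  obtain ⟨v, hli, hv⟩ := h
  have hmem : ∀ i, v i ∈ cn_stab A := fun i => hv i
  by_cases hall : ∀ i j, (v i).1 0 * (v j).1 1 - (v j).1 0 * (v i).1 1 = 0
  · exfalso
    let M : Matrix (Fin 3) (Fin 3) ℝ := Matrix.of fun i => toR (v i)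
    have hM : LinearIndependent ℝ M.row := hli
    have h1 := Matrix.linearIndependent_rows_iff_isUnit.1 hM
    have h2 : IsUnit M.det := (Matrix.isUnit_iff_isUnit_det _).1 h1
    apply h2.ne_zero
    rw [Matrix.det_fin_three]
    have e0 : ∀ i, M i 0 = (v i).2 := fun i => rfl
    have e1 : ∀ i, M i 1 = ((v i).1 0 : ℝ) := fun i => rfl
    have e2 : ∀ i, M i 2 = ((v i).1 1 : ℝ) := fun i => rfl
    simp only [e0, e1, e2]
    have k : ∀ i j, ((v i).1 0 : ℝ) * ((v j).1 1 : ℝ) - ((v j).1 0 : ℝ) * ((v i).1 1 : ℝ) = 0 := by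
      intro i j
      exact_mod_cast hall i j
    linear_combination (v 0).2 * k 1 2 - (v 1).2 * k 0 2 + (v 2).2 * k 0 1
  · push Not at hall
    obtain ⟨i, j, hij⟩ := hall
    refine ⟨(v i).1 0 * (v j).1 1 - (v j).1 0 * (v i).1 1,
      ((v j).1 1 : ℝ) * (v i).2 - ((v i).1 1 : ℝ) * (v j).2, hij, ?_⟩
    have h1 : ((v j).1 1) • v i - ((v i).1 1) • v j ∈ cn_stab A :=
      AddSubgroup.sub_mem _ (AddSubgroup.zsmul_mem _ (hmem i) _)
        (AddSubgroup.zsmul_mem _ (hmem j) _)
    have h2 : ((v j).1 1) • v i - ((v i).1 1) • v j =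
        pt ((v i).1 0 * (v j).1 1 - (v j).1 0 * (v i).1 1) 0
          (((v j).1 1 : ℝ) * (v i).2 - ((v i).1 1 : ℝ) * (v j).2) := by
      unfold pt
      ext l
      · fin_cases l
        · simp only [Fin.isValue, zsmul_eq_mul, Fin.zero_eta, Prod.fst_sub, Prod.fst_mul, Prod.fst_intCast, Pi.sub_apply, Pi.mul_apply, Pi.intCast_apply, Int.cast_eq, Matrix.cons_val_zero]; ring
        · simp only [Fin.isValue, zsmul_eq_mul, Fin.mk_one, Prod.fst_sub, Prod.fst_mul, Prod.fst_intCast, Pi.sub_apply, Pi.mul_apply, Pi.intCast_apply, Int.cast_eq, Matrix.cons_val_one, Matrix.cons_val_fin_one]; ring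
      · simp only [Fin.isValue, zsmul_eq_mul, Prod.snd_sub, Prod.snd_mul, Prod.snd_intCast]
    rw [h2] at h1
    exact h1

/-! ## column structure -/

theorem cn_exch {B : Set (H 2)} {T T' : PP → H 2} (hT : Solves B T) (hT' : Solves B T')
    (E : PP → Prop) (hE : ∀ p, ¬ E p → T p = T' p) (g : H 2) :
    (∃ p, E p ∧ g - T p ∈ B) ↔ ∃ p, E p ∧ g - T' p ∈ B := by
  constructor
  · rintro ⟨p, hp, hg⟩
    obtain ⟨q, hq, -⟩ := hT' g
    by_cases hq' : E q
    · exact ⟨q, hq', hq⟩
    · exfalso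
      have h1 : g - T q ∈ B := by rw [hE q hq']; exact hq
      have := (hT g).unique h1 hg
      rw [this] at hq'
      exact hq' hp
  · rintro ⟨p, hp, hg⟩
    obtain ⟨q, hq, -⟩ := hT g
    by_cases hq' : E q
    · exact ⟨q, hq', hq⟩
    · exfalso
      have h1 : g - T' q ∈ B := by rw [← hE q hq']; exact hq
      have := (hT' g).unique h1 hg
      rw [this] at hq'
      exact hq' hp

theorem cn_T1_00 : T1 (0, 0) = pt 0 0 0 := by
  unfold T1; simp only [Fin.isValue, Fin.coe_ofNat_eq_mod, Nat.zero_mod, CharP.cast_eq_zero, mul_zero, Nat.zero_div]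

theorem cn_T1_20 : T1 (2, 0) = pt 0 0 1 := by
  unfold T1; simp only [Fin.isValue, Fin.coe_ofNat_eq_mod, Nat.reduceMod, Nat.mod_self, CharP.cast_eq_zero, mul_zero, Nat.zero_mod, Order.lt_two_iff, zero_le, Nat.div_self, Nat.cast_one]

theorem cn_shift {B : Set (H 2)} {c : H 2} (hT : Solves B T1) (hT' : Solves B (T1c c)) (g : H 2) :
    g ∈ B ↔ g - c ∈ B := by
  have h := cn_exch hT hT' (fun p => p = (0, 0)) (fun p hp => by
    unfold T1c; rw [if_neg hp]) g
  have h0 : pt 0 0 0 = (0 : H 2) := by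
    unfold pt
    ext i
    · fin_cases i <;> simp
    · simp
  simp only [exists_eq_left] at h
  rw [cn_T1_00, h0, sub_zero] at h
  rw [h]
  unfold T1c
  rw [if_pos rfl, cn_T1_00, h0, zero_add]

/-- the column structure of a solution -/
structure Col (B : Set (H 2)) (W : ℤ → ℤ → Prop) (S : ℤ → ℤ → ℝ) : Prop where
  mem : ∀ x y z, pt x y z ∈ B ↔ W x y ∧ ∃ m : ℤ, S x y + 2 * m ≤ z ∧ z < S x y + 2 * m + 1

theorem cn_col {A : Set (H 2)} (hT : Solves (Iv A) T1)
    (hT' : Solves (Iv A) (T1c (pt 0 0 2))) :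
    ∃ (W : ℤ → ℤ → Prop) (S : ℤ → ℤ → ℝ), Col (Iv A) W S := by
  classical
  have hper : ∀ (x y : ℤ) (z : ℝ) (m : ℤ), pt x y (z + 2 * m) ∈ Iv A ↔ pt x y z ∈ Iv A := by
    intro x y z m
    have hs : ∀ z : ℝ, pt x y (z + 2) ∈ Iv A ↔ pt x y z ∈ Iv A := by
      intro z
      rw [cn_shift hT hT' (pt x y (z + 2)), cn_pt_sub]
      simp
    induction m using Int.induction_on with
    | zero => simp
    | succ n ih =>
      refine Iff.trans ?_ ih
      have : z + 2 * (((n : ℤ) + 1 : ℤ) : ℝ) = z + 2 * (((n : ℤ)) : ℝ) + 2 := by push_cast; ring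
      rw [this]
      exact hs _
    | pred n ih =>
      refine Iff.trans ?_ ih
      have : z + 2 * ((-(n : ℤ) : ℤ) : ℝ) = z + 2 * ((-(n : ℤ) - 1 : ℤ) : ℝ) + 2 := by
        push_cast; ring
      rw [this]
      exact (hs _).symm
  have hnot : ∀ (x y : ℤ) (z : ℝ), pt x y z ∈ Iv A → pt x y (z - 1) ∉ Iv A := by
    intro x y z h1 h2
    have e1 : pt x y z - T1 (0, 0) ∈ Iv A := by
      rw [cn_T1_00, cn_pt_sub]; simpa using h1
    have e2 : pt x y z - T1 (2, 0) ∈ Iv A := by
      rw [cn_T1_20, cn_pt_sub]; simpa using h2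
    have := (hT (pt x y z)).unique e1 e2
    simp at this
  have hex : ∀ x y : ℤ, ∃ s : ℝ, (∃ z, pt x y z ∈ Iv A) → ∀ z, pt x y z ∈ Iv A ↔
      ∃ m : ℤ, s + 2 * m ≤ z ∧ z < s + 2 * m + 1 := by
    intro x y
    by_cases h : ∃ z, pt x y z ∈ Iv A
    · obtain ⟨z0, a, ha, ha1, -, -⟩ := h
      refine ⟨a.2, fun _ z => ?_⟩
      have hmem : ∀ z, a.2 ≤ z → z < a.2 + 1 → pt x y z ∈ Iv A := fun z h1 h2 =>
        ⟨a, ha, ha1, h1, h2⟩
      constructor
      · intro hz
        refine ⟨⌊(z - a.2) / 2⌋, ?_, ?_⟩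
        · have := Int.floor_le ((z - a.2) / 2)
          linarith only [this]
        · by_contra hcon
          push Not at hcon
          have h3 := Int.lt_floor_add_one ((z - a.2) / 2)
          have h4 : pt x y (z - 2 * ((⌊(z - a.2) / 2⌋ : ℤ) : ℝ)) ∈ Iv A := by
            rw [← hper x y _ ⌊(z - a.2) / 2⌋]
            simpa using hz
          exact hnot x y _ h4 (hmem _ (by linarith only [hcon]) (by linarith only [h3]))
      · rintro ⟨m, h1, h2⟩
        have := (hper x y (z - 2 * m) m).2 (hmem _ (by linarith) (by linarith))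
        simpa using this
    · exact ⟨0, fun h' => absurd h' h⟩
  choose S hS using hex
  refine ⟨fun x y => ∃ z, pt x y z ∈ Iv A, S, ⟨fun x y z => ?_⟩⟩
  constructor
  · intro h
    exact ⟨⟨z, h⟩, (hS x y ⟨z, h⟩ z).1 h⟩
  · rintro ⟨h, h'⟩
    exact (hS x y h z).2 h'

/-- congruence modulo `2` -/
def E2 (a b : ℝ) : Prop := ∃ m : ℤ, a = b + 2 * m

theorem E2.refl (a : ℝ) : E2 a a := ⟨0, by simp⟩

theorem E2.symm {a b : ℝ} (h : E2 a b) : E2 b a := by
  obtain ⟨m, h⟩ := h
  exact ⟨-m, by push_cast; linarith⟩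

theorem E2.trans {a b c : ℝ} (h : E2 a b) (h' : E2 b c) : E2 a c := by
  obtain ⟨m, h⟩ := h
  obtain ⟨m', h'⟩ := h'
  exact ⟨m + m', by push_cast; linarith⟩

theorem E2.add_right {a b : ℝ} (h : E2 a b) (c : ℝ) : E2 (a + c) (b + c) := by
  obtain ⟨m, h⟩ := h
  exact ⟨m, by linarith⟩

/-- one of the two intervals contains `z` -/
theorem cn_half (s z : ℝ) : (∃ m : ℤ, s + 2 * m ≤ z ∧ z < s + 2 * m + 1) ∨
    ∃ m : ℤ, s + 2 * m ≤ z - 1 ∧ z - 1 < s + 2 * m + 1 := by
  have h1 := Int.floor_le ((z - s) / 2)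
  have h2 := Int.lt_floor_add_one ((z - s) / 2)
  by_cases h : z < s + 2 * (⌊(z - s) / 2⌋ : ℤ) + 1
  · exact Or.inl ⟨_, by linarith only [h1], h⟩
  · push Not at h
    exact Or.inr ⟨_, by linarith only [h], by linarith only [h2]⟩

/-- disjoint arcs are opposite -/
theorem cn_arc {c1 c2 : ℝ}
    (h : ∀ z : ℝ, (∃ m : ℤ, c1 + 2 * m ≤ z ∧ z < c1 + 2 * m + 1) →
      ¬ ∃ m : ℤ, c2 + 2 * m ≤ z ∧ z < c2 + 2 * m + 1) : E2 c2 (c1 + 1) := by
  have h1 := Int.floor_le ((c2 - c1) / 2)
  have h2 := Int.lt_floor_add_one ((c2 - c1) / 2)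
  set k := ⌊(c2 - c1) / 2⌋ with hk
  rcases lt_trichotomy (c2 - c1 - 2 * (k : ℝ)) 1 with h3 | h3 | h3
  · exact absurd ⟨0, by simp, by simp only [Int.cast_zero, mul_zero, add_zero, lt_add_iff_pos_right, zero_lt_one]⟩ (h c2 ⟨k, by linarith only [h1], by linarith only [h3]⟩)
  · exact ⟨k, by linarith only [h3]⟩
  · refine absurd ⟨0, ?_, ?_⟩ (h (c1 + 2 * ((k + 1 : ℤ) : ℝ)) ⟨k + 1, le_rfl, by linarith only []⟩)
    · push_cast; linarith only [h2]
    · push_cast; linarith only [h3]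

theorem cn_E2_of_eq {s s' : ℝ}
    (h : ∀ z : ℝ, (∃ m : ℤ, s + 2 * m ≤ z ∧ z < s + 2 * m + 1) ↔
      ∃ m : ℤ, s' + 2 * m ≤ z ∧ z < s' + 2 * m + 1) : E2 s s' := by
  have h1 : E2 s (s' + 1 + 1) := by
    refine cn_arc fun z hz => ?_
    rw [h z]
    rintro ⟨m, hm1, hm2⟩
    obtain ⟨m', hm1', hm2'⟩ := hz
    have h5 : (2 * (m - m') : ℝ) < 2 := by linarith
    have h6 : (0 : ℝ) < 2 * (m - m') := by linarith only [hm2, hm1']
    have h7 : ((m - m' : ℤ) : ℝ) < 1 := by push_cast; linarith only [hm1, hm2']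
    have h8 : (0 : ℝ) < ((m - m' : ℤ) : ℝ) := by push_cast; linarith only [hm2, hm1']
    have h9 : m - m' < 1 := by exact_mod_cast h7
    have h10 : 0 < m - m' := by exact_mod_cast h8
    omega
  obtain ⟨m, hm⟩ := h1
  exact ⟨m + 1, by push_cast; linarith only [hm]⟩

end Vale.Agent.P043.Hy
end
end

section

attribute [-instance] ProperSMul.toContinuousSMul IsTopologicalTorsor.toContinuousSMul IdemSemiring.toCanonicallyOrderedAdd IdemSemiring.toMulLeftMono IdemSemiring.toMulRightMono AddQuantale.instAddLeftMono AddQuantale.instAddRightMono Quantale.instMulLeftMono Quantale.instMulRightMono FiniteDimensional.rclike_to_real IsScalarTower.complexToReal FiniteDimensional.complexToReal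

section

namespace Vale.Agent.P043.Hy

open Vale.Agent.P043 Vale.Agent.P043.Eu

theorem T1_ex (r t : ℤ) (hr : r = 0 ∨ r = 2) (ht : t = 0 ∨ t = 2 ∨ t = 4 ∨ t = 6) :
    ∃ p p', T1 p = pt r t 0 ∧ T1 p' = pt r t 1 := by
  have key : ∀ (i j : Fin 2) (m : Fin 4), T1 (⟨i + 2 * j, by omega⟩, m) =
      pt (2 * (i : ℕ)) (2 * (m : ℕ)) ((j : ℕ) : ℝ) := by
    intro i j m
    unfold T1
    have h1 : (i + 2 * j : ℕ) % 2 = i := by omega
    have h2 : (i + 2 * j : ℕ) / 2 = j := by omega
    simp only [h1, h2]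
  obtain ⟨i, hi⟩ : ∃ i : Fin 2, r = 2 * ((i : ℕ) : ℤ) := by
    rcases hr with rfl | rfl
    · exact ⟨0, rfl⟩
    · exact ⟨1, rfl⟩
  obtain ⟨m, hm⟩ : ∃ m : Fin 4, t = 2 * ((m : ℕ) : ℤ) := by
    rcases ht with rfl | rfl | rfl | rfl
    · exact ⟨0, rfl⟩
    · exact ⟨1, rfl⟩
    · exact ⟨2, rfl⟩
    · exact ⟨3, rfl⟩
  refine ⟨(⟨(i : ℕ) + 2 * ((0 : Fin 2) : ℕ), by simp; omega⟩, m),
    (⟨(i : ℕ) + 2 * ((1 : Fin 2) : ℕ), by simp; omega⟩, m), ?_, ?_⟩
  · rw [key i 0 m, hi, hm]; simp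
  · rw [key i 1 m, hi, hm]; simp

theorem T2_ex (t : ℤ) (h0 : 0 ≤ t) (h8 : t < 8) :
    ∃ p p', T2 p = pt (2 * (t % 2)) t 0 ∧ T2 p' = pt (2 * (t % 2)) t 1 := by
  have key : ∀ (i j : Fin 2) (m : Fin 4), T2 (⟨i + 2 * j, by omega⟩, m) =
      pt (2 * (i : ℕ)) (2 * (m : ℕ) + (i : ℕ)) ((j : ℕ) : ℝ) := by
    intro i j m
    unfold T2
    have h1 : (i + 2 * j : ℕ) % 2 = i := by omega
    have h2 : (i + 2 * j : ℕ) / 2 = j := by omega
    simp only [h1, h2]
  obtain ⟨i, m, hi, hm⟩ : ∃ (i : Fin 2) (m : Fin 4), t % 2 = ((i : ℕ) : ℤ) ∧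
      t = 2 * ((m : ℕ) : ℤ) + ((i : ℕ) : ℤ) := by
    refine ⟨⟨(t % 2).toNat, by omega⟩, ⟨(t / 2).toNat, by omega⟩, ?_, ?_⟩
    · simp only; omega
    · simp only; omega
  refine ⟨(⟨(i : ℕ) + 2 * ((0 : Fin 2) : ℕ), by simp; omega⟩, m),
    (⟨(i : ℕ) + 2 * ((1 : Fin 2) : ℕ), by simp; omega⟩, m), ?_, ?_⟩
  · rw [key i 0 m, hi, ← hm]; simp
  · rw [key i 1 m, hi, ← hm]; simp

theorem T3_ex (t : ℤ) (h0 : 0 ≤ t) (h8 : t < 8) :
    ∃ p p', T3 p = pt (t % 4) t 0 ∧ T3 p' = pt (t % 4) t 1 := by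
  have key : ∀ (i : Fin 4) (j m : Fin 2), T3 (i, ⟨m + 2 * j, by omega⟩) =
      pt (i : ℕ) ((i : ℕ) + 4 * (m : ℕ)) ((j : ℕ) : ℝ) := by
    intro i j m
    unfold T3
    have h1 : (m + 2 * j : ℕ) % 2 = m := by omega
    have h2 : (m + 2 * j : ℕ) / 2 = j := by omega
    simp only [h1, h2]
  obtain ⟨i, m, hi, hm⟩ : ∃ (i : Fin 4) (m : Fin 2), t % 4 = ((i : ℕ) : ℤ) ∧
      t = ((i : ℕ) : ℤ) + 4 * ((m : ℕ) : ℤ) := by
    refine ⟨⟨(t % 4).toNat, by omega⟩, ⟨(t / 4).toNat, by omega⟩, ?_, ?_⟩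
    · simp only; omega
    · simp only; omega
  refine ⟨(i, ⟨(m : ℕ) + 2 * ((0 : Fin 2) : ℕ), by simp; omega⟩),
    (i, ⟨(m : ℕ) + 2 * ((1 : Fin 2) : ℕ), by simp only [Fin.isValue, Fin.coe_ofNat_eq_mod, Nat.mod_succ, mul_one]; omega⟩), ?_, ?_⟩
  · rw [key i 0 m, hi, ← hm]; simp only [Fin.isValue, Fin.coe_ofNat_eq_mod, Nat.zero_mod, CharP.cast_eq_zero]
  · rw [key i 1 m, hi, ← hm]; simp only [Fin.isValue, Fin.coe_ofNat_eq_mod, Nat.mod_succ, Nat.cast_one]

/-- all facts about a solution -/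
structure Sol (β : ℝ) (B : Set (H 2)) (W : ℤ → ℤ → Prop) (S : ℤ → ℤ → ℝ) : Prop where
  col : Col B W S
  t1 : Solves B T1
  t1m : Solves B T1m
  t8 : Solves B (T1c (pt 0 8 0))
  t2 : Solves B T2
  t3 : Solves B T3
  om : Solves B (Om β)

section

variable {β : ℝ} {B : Set (H 2)} {W : ℤ → ℤ → Prop} {S : ℤ → ℤ → ℝ}

theorem Col.half (h : Col B W S) {x y : ℤ} (hw : W x y) (z : ℝ) :
    pt x y z ∈ B ∨ pt x y (z - 1) ∈ B := by
  rcases cn_half (S x y) z with h1 | h1
  · exact Or.inl ((h.mem x y z).2 ⟨hw, h1⟩)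
  · exact Or.inr ((h.mem x y _).2 ⟨hw, h1⟩)

theorem Col.tr (h : Col B W S) {T : PP → H 2} (hT : Solves B T) {x y a b c d : ℤ}
    (h1 : ∃ p p', T p = pt a b 0 ∧ T p' = pt a b 1) (h2 : ∃ p p', T p = pt c d 0 ∧ T p' = pt c d 1)
    (hw : W (x - a) (y - b)) (hw' : W (x - c) (y - d)) : a = c ∧ b = d := by
  obtain ⟨p, p', hp, hp'⟩ := h1
  obtain ⟨q, q', hq, hq'⟩ := h2
  have e1 : ∃ r, pt x y 0 - T r ∈ B ∧ ∃ z, T r = pt a b z := by
    rcases h.half hw 0 with h3 | h3
    · refine ⟨p, ?_, 0, hp⟩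
      rw [hp, cn_pt_sub]; simpa using h3
    · refine ⟨p', ?_, 1, hp'⟩
      rw [hp', cn_pt_sub]; simpa using h3
  have e2 : ∃ r, pt x y 0 - T r ∈ B ∧ ∃ z, T r = pt c d z := by
    rcases h.half hw' 0 with h3 | h3
    · refine ⟨q, ?_, 0, hq⟩
      rw [hq, cn_pt_sub]; simpa using h3
    · refine ⟨q', ?_, 1, hq'⟩
      rw [hq', cn_pt_sub]; simpa using h3
  obtain ⟨r, hr, z, hz⟩ := e1
  obtain ⟨r', hr', z', hz'⟩ := e2
  have := (hT (pt x y 0)).unique hr hr'
  subst this
  rw [hz] at hz'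
  have := cn_pt_inj hz'
  exact ⟨this.1, this.2.1⟩

theorem Sol.x4 (h : Sol β B W S) (x y : ℤ) : W x y ↔ W (x - 4) y := by
  have hex := cn_exch h.t1 h.t1m (fun p => (p.1 : ℕ) % 2 = 0 ∧ (p.2 : ℕ) = 0) (fun p hp => by
    unfold T1m; rw [if_neg hp]) (pt x y 0)
  have a1 : (∃ p : PP, ((p.1 : ℕ) % 2 = 0 ∧ (p.2 : ℕ) = 0) ∧ pt x y 0 - T1 p ∈ B) ↔ W x y := by
    constructor
    · rintro ⟨⟨p, q⟩, ⟨hp, hq⟩, hg⟩
      change (p : ℕ) % 2 = 0 at hp
      change (q : ℕ) = 0 at hq
      unfold T1 at hg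
      simp only [hp, hq] at hg
      rw [cn_pt_sub] at hg
      simp only [Nat.cast_zero, mul_zero, sub_zero] at hg
      exact ((h.col.mem _ _ _).1 hg).1
    · intro hw
      rcases h.col.half hw 0 with h3 | h3
      · refine ⟨(0, 0), ⟨rfl, rfl⟩, ?_⟩
        rw [cn_T1_00, cn_pt_sub]; simpa using h3
      · refine ⟨(2, 0), ⟨rfl, rfl⟩, ?_⟩
        rw [cn_T1_20, cn_pt_sub]; simpa using h3
  have a2 : (∃ p : PP, ((p.1 : ℕ) % 2 = 0 ∧ (p.2 : ℕ) = 0) ∧ pt x y 0 - T1m p ∈ B) ↔
      W (x - 4) y := by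
    constructor
    · rintro ⟨⟨p, q⟩, ⟨hp, hq⟩, hg⟩
      change (p : ℕ) % 2 = 0 at hp
      change (q : ℕ) = 0 at hq
      unfold T1m at hg
      rw [if_pos ⟨hp, hq⟩] at hg
      unfold T1 at hg
      simp only [hp, hq] at hg
      rw [cn_pt_add, cn_pt_sub] at hg
      simp only [Nat.cast_zero, mul_zero, sub_zero, zero_add, add_zero] at hg
      exact ((h.col.mem _ _ _).1 hg).1
    · intro hw
      rcases h.col.half hw 0 with h3 | h3
      · refine ⟨(0, 0), ⟨rfl, rfl⟩, ?_⟩
        unfold T1m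
        rw [if_pos ⟨rfl, rfl⟩, cn_T1_00, cn_pt_add, cn_pt_sub]; simpa using h3
      · refine ⟨(2, 0), ⟨rfl, rfl⟩, ?_⟩
        unfold T1m
        rw [if_pos ⟨rfl, rfl⟩, cn_T1_20, cn_pt_add, cn_pt_sub]; simpa using h3
  rw [← a1, ← a2]
  exact hex

theorem Sol.y8' (h : Sol β B W S) (x y : ℤ) (z : ℝ) : pt x y z ∈ B ↔ pt x (y - 8) z ∈ B := by
  rw [cn_shift h.t1 h.t8 (pt x y z), cn_pt_sub]
  simp

theorem Sol.y8 (h : Sol β B W S) (x y : ℤ) : W x y ↔ W x (y - 8) := by
  constructor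
  · intro hw
    have h1 : pt x y (S x y) ∈ B := (h.col.mem _ _ _).2 ⟨hw, 0, by simp, by simp only [Int.cast_zero, mul_zero, add_zero, lt_add_iff_pos_right, zero_lt_one]⟩
    exact ((h.col.mem _ _ _).1 ((h.y8' _ _ _).1 h1)).1
  · intro hw
    have h1 : pt x (y - 8) (S x (y - 8)) ∈ B := (h.col.mem _ _ _).2 ⟨hw, 0, by simp, by simp only [Int.cast_zero, mul_zero, add_zero, lt_add_iff_pos_right, zero_lt_one]⟩
    exact ((h.col.mem _ _ _).1 ((h.y8' _ _ _).2 h1)).1

theorem Sol.s8 (h : Sol β B W S) {x y : ℤ} (hw : W x y) : E2 (S x (y - 8)) (S x y) := by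
  have hw' := (h.y8 x y).1 hw
  refine cn_E2_of_eq fun z => ?_
  have h1 := h.col.mem x y z
  have h2 := h.col.mem x (y - 8) z
  have h3 := h.y8' x y z
  constructor
  · intro h4
    exact (h1.1 (h3.2 (h2.2 ⟨hw', h4⟩))).2
  · intro h4
    exact (h2.1 (h3.1 (h1.2 ⟨hw, h4⟩))).2

theorem Sol.xm (h : Sol β B W S) (x y m : ℤ) : W (x + 4 * m) y ↔ W x y := by
  induction m using Int.induction_on with
  | zero => simp
  | succ n ih =>
    refine Iff.trans ?_ ih
    rw [h.x4 (x + 4 * ((n : ℤ) + 1)) y]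
    have : x + 4 * ((n : ℤ) + 1) - 4 = x + 4 * n := by ring
    rw [this]
  | pred n ih =>
    refine Iff.trans ?_ ih
    rw [h.x4 (x + 4 * (-(n : ℤ))) y]
    have : x + 4 * (-(n : ℤ)) - 4 = x + 4 * (-(n : ℤ) - 1) := by ring
    rw [this]

theorem Sol.ym (h : Sol β B W S) (x y m : ℤ) : W x (y + 8 * m) ↔ W x y := by
  induction m using Int.induction_on with
  | zero => simp
  | succ n ih =>
    refine Iff.trans ?_ ih
    rw [h.y8 x (y + 8 * ((n : ℤ) + 1))]
    have : y + 8 * ((n : ℤ) + 1) - 8 = y + 8 * n := by ring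
    rw [this]
  | pred n ih =>
    refine Iff.trans ?_ ih
    rw [h.y8 x (y + 8 * (-(n : ℤ)))]
    have : y + 8 * (-(n : ℤ)) - 8 = y + 8 * (-(n : ℤ) - 1) := by ring
    rw [this]

theorem Sol.congr (h : Sol β B W S) {x y x' y' : ℤ} (hx : x' % 4 = x % 4) (hy : y' % 8 = y % 8) :
    W x' y' ↔ W x y := by
  have e1 : x' = x + 4 * ((x' - x) / 4) := by omega
  have e2 : y' = y + 8 * ((y' - y) / 8) := by omega
  rw [e1, e2, h.xm, h.ym]

theorem Sol.u1 (h : Sol β B W S) {x y x' y' : ℤ} (hw : W x y) (hw' : W x' y')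
    (hx : x' % 2 = x % 2) (hy : y' % 2 = y % 2) : x' % 4 = x % 4 ∧ y' % 8 = y % 8 := by
  have e := h.col.tr h.t1 (x := x + (x' - x) % 4) (y := y + (y' - y) % 8)
    (T1_ex 0 0 (by omega) (by omega))
    (T1_ex ((x' - x) % 4) ((y' - y) % 8) (by omega) (by omega))
    ((h.congr (by omega) (by omega)).2 hw') (by
      have a1 : x + (x' - x) % 4 - (x' - x) % 4 = x := by omega
      have a2 : y + (y' - y) % 8 - (y' - y) % 8 = y := by (clear * -; omega)
      rw [a1, a2]; exact hw)
  omega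

theorem Sol.u2 (h : Sol β B W S) {x y x' y' : ℤ} (hw : W x y) (hw' : W x' y')
    (hx : (x' - 2 * y') % 4 = (x - 2 * y) % 4) : x' % 4 = x % 4 ∧ y' % 8 = y % 8 := by
  have e := h.col.tr h.t2 (x := x + 2 * ((y' - y) % 8 % 2)) (y := y + (y' - y) % 8)
    (T2_ex 0 (by omega) (by omega))
    (T2_ex ((y' - y) % 8) (by omega) (by omega))
    ((h.congr (by omega) (by omega)).2 hw') (by
      have a1 : x + 2 * ((y' - y) % 8 % 2) - 2 * ((y' - y) % 8 % 2) = x := by omega
      have a2 : y + (y' - y) % 8 - (y' - y) % 8 = y := by (clear * -; omega)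
      rw [a1, a2]; exact hw)
  omega

theorem Sol.u3 (h : Sol β B W S) {x y x' y' : ℤ} (hw : W x y) (hw' : W x' y')
    (hx : (x' - y') % 4 = (x - y) % 4) : x' % 4 = x % 4 ∧ y' % 8 = y % 8 := by
  have e := h.col.tr h.t3 (x := x + (y' - y) % 8 % 4) (y := y + (y' - y) % 8)
    (T3_ex 0 (by omega) (by omega))
    (T3_ex ((y' - y) % 8) (by omega) (by omega))
    ((h.congr (by omega) (by omega)).2 hw') (by
      have a1 : x + (y' - y) % 8 % 4 - (y' - y) % 8 % 4 = x := by omega
      have a2 : y + (y' - y) % 8 - (y' - y) % 8 = y := by omega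
      rw [a1, a2]; exact hw)
  omega

theorem Sol.ex (h : Sol β B W S) (x y : ℤ) : ∃ x' y', W x' y' ∧ x' % 2 = x % 2 ∧ y' % 2 = y % 2 := by
  obtain ⟨p, hp, -⟩ := h.t1 (pt x y 0)
  unfold T1 at hp
  simp only [cn_pt_sub] at hp
  refine ⟨_, _, ((h.col.mem _ _ _).1 hp).1, ?_, ?_⟩
  · omega
  · omega

theorem Sol.drift (h : Sol β B W S) {x y : ℤ} (I J : ℤ) (hI : -3 ≤ I ∧ I ≤ 3) (hJ : -3 ≤ J ∧ J ≤ 3)
    (hIJ : ¬ (I = 0 ∧ J = 0)) (hw : W x y) (hw' : W (x + I + J) (y + 2 * J)) :
    E2 (S (x + I + J) (y + 2 * J)) (S x y + β * I) := by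
  -- parity
  have hodd : (I + J) % 2 = 1 := by
    by_contra hcon
    have := h.u1 hw hw' (by omega) (by omega)
    omega
  obtain ⟨i1, i2, hi⟩ : ∃ i1 i2 : Fin 4, I = (i1 : ℕ) - (i2 : ℕ) := by
    rcases le_total 0 I with h1 | h1
    · exact ⟨⟨I.toNat, by omega⟩, 0, by simp only [Int.ofNat_toNat, Fin.isValue, Fin.coe_ofNat_eq_mod, Nat.zero_mod, CharP.cast_eq_zero, sub_zero, left_eq_sup]; omega⟩
    · exact ⟨0, ⟨(-I).toNat, by omega⟩, by simp only [Fin.isValue, Fin.coe_ofNat_eq_mod, Nat.zero_mod, CharP.cast_eq_zero, Int.ofNat_toNat, zero_sub]; omega⟩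
  obtain ⟨j1, j2, hj⟩ : ∃ j1 j2 : Fin 4, J = (j1 : ℕ) - (j2 : ℕ) := by
    rcases le_total 0 J with h1 | h1
    · exact ⟨⟨J.toNat, by omega⟩, 0, by simp only [Int.ofNat_toNat, Fin.isValue, Fin.coe_ofNat_eq_mod, Nat.zero_mod, CharP.cast_eq_zero, sub_zero, left_eq_sup]; omega⟩
    · exact ⟨0, ⟨(-J).toNat, by omega⟩, by simp only [Fin.isValue, Fin.coe_ofNat_eq_mod, Nat.zero_mod, CharP.cast_eq_zero, Int.ofNat_toNat, zero_sub]; omega⟩
  set ε1 : ℝ := ((((i1 : ℕ) + (j1 : ℕ)) % 2 : ℕ) : ℝ) with hε1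
  set ε2 : ℝ := ((((i2 : ℕ) + (j2 : ℕ)) % 2 : ℕ) : ℝ) with hε2
  have hOm : ∀ i j : Fin 4, Om β (i, j) = pt ((i : ℕ) + (j : ℕ)) (2 * (j : ℕ))
      (β * ((i : ℕ) : ℝ) + ((((i : ℕ) + (j : ℕ)) % 2 : ℕ) : ℝ)) := fun i j => rfl
  have harc := cn_arc (c1 := S x y + β * ((i1 : ℕ) : ℝ) + ε1)
    (c2 := S (x + I + J) (y + 2 * J) + β * ((i2 : ℕ) : ℝ) + ε2) (by
      intro z hz1 hz2
      have m1 : pt (x + (i1 : ℕ) + (j1 : ℕ)) (y + 2 * (j1 : ℕ)) z - Om β (i1, j1) ∈ B := by
        rw [hOm, cn_pt_sub]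
        have a1 : x + ((i1 : ℕ) : ℤ) + ((j1 : ℕ) : ℤ) - (((i1 : ℕ) : ℤ) + ((j1 : ℕ) : ℤ)) = x := by ring
        have a2 : y + 2 * ((j1 : ℕ) : ℤ) - 2 * ((j1 : ℕ) : ℤ) = y := by ring
        rw [a1, a2, h.col.mem]
        refine ⟨hw, ?_⟩
        obtain ⟨m, hm1, hm2⟩ := hz1
        exact ⟨m, by linarith only [hm1], by linarith only [hm2]⟩
      have m2 : pt (x + (i1 : ℕ) + (j1 : ℕ)) (y + 2 * (j1 : ℕ)) z - Om β (i2, j2) ∈ B := by
        rw [hOm, cn_pt_sub]
        have a1 : x + ((i1 : ℕ) : ℤ) + ((j1 : ℕ) : ℤ) - (((i2 : ℕ) : ℤ) + ((j2 : ℕ) : ℤ)) =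
          x + I + J := by rw [hi, hj]; ring
        have a2 : y + 2 * ((j1 : ℕ) : ℤ) - 2 * ((j2 : ℕ) : ℤ) = y + 2 * J := by rw [hj]; ring
        rw [a1, a2, h.col.mem]
        refine ⟨hw', ?_⟩
        obtain ⟨m, hm1, hm2⟩ := hz2
        exact ⟨m, by linarith only [hm1], by linarith only [hm2]⟩
      have := (h.om _).unique m1 m2
      rw [Prod.mk.injEq] at this
      apply hIJ
      rw [hi, hj, this.1, this.2]
      simp)
  obtain ⟨k, hk⟩ := harc
  have hI' : (I : ℝ) = ((i1 : ℕ) : ℝ) - ((i2 : ℕ) : ℝ) := by rw [hi]; push_cast; ring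
  -- parity of the two indices
  have hcase : (ε1 = 1 ∧ ε2 = 0) ∨ (ε1 = 0 ∧ ε2 = 1) := by
    have h1 : (((i1 : ℕ) + (j1 : ℕ)) % 2 = 1 ∧ ((i2 : ℕ) + (j2 : ℕ)) % 2 = 0) ∨
        (((i1 : ℕ) + (j1 : ℕ)) % 2 = 0 ∧ ((i2 : ℕ) + (j2 : ℕ)) % 2 = 1) := by omega
    rcases h1 with ⟨h1, h2⟩ | ⟨h1, h2⟩
    · left; rw [hε1, hε2, h1, h2]; simp
    · right; rw [hε1, hε2, h1, h2]; simp
  rcases hcase with ⟨h1, h2⟩ | ⟨h1, h2⟩
  · refine ⟨k + 1, ?_⟩
    rw [h1, h2] at hk
    rw [hI']; push_cast; linarith only [hk]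
  · refine ⟨k, ?_⟩
    rw [h1, h2] at hk
    rw [hI']; linarith only [hk]

end

end Vale.Agent.P043.Hy
end
end

section

attribute [-instance] ProperSMul.toContinuousSMul IsTopologicalTorsor.toContinuousSMul IdemSemiring.toCanonicallyOrderedAdd IdemSemiring.toMulLeftMono IdemSemiring.toMulRightMono AddQuantale.instAddLeftMono AddQuantale.instAddRightMono Quantale.instMulLeftMono Quantale.instMulRightMono FiniteDimensional.rclike_to_real IsScalarTower.complexToReal FiniteDimensional.complexToReal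

section

namespace Vale.Agent.P043.Hy

open Vale.Agent.P043 Vale.Agent.P043.Eu

theorem cn_irr {β : ℝ} (hβ : Irrational β) {a b : ℤ} (ha : a ≠ 0) (h : (a : ℝ) * β = b) : False := by
  apply hβ
  refine ⟨(b : ℚ) / a, ?_⟩
  push_cast
  have : (a : ℝ) ≠ 0 := by exact_mod_cast ha
  field_simp
  linarith

section

variable {β : ℝ} {B : Set (H 2)} {W : ℤ → ℤ → Prop} {S : ℤ → ℤ → ℝ}

theorem Sol.no_mixed (h : Sol β B W S) (hβ : Irrational β) {x y I J : ℤ} (hI : 1 ≤ I ∧ I ≤ 3)
    (hJ : 1 ≤ J ∧ J ≤ 3) (hw : W x y) (hw' : W (x + I + J) (y + 2 * J)) : False := by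
  have w4 : W (x + 4) y := (h.congr (by omega) rfl).2 hw
  have w48 : W (x + 4) (y + 8) := (h.congr (by omega) (by (clear * -; omega))).2 hw
  have a1 : x + I + J + (4 - I) + (-J) = x + 4 := by ring
  have a2 : y + 2 * J + 2 * (-J) = y := by ring
  have d2 := h.drift (4 - I) (-J) (by omega) (by omega) (by omega) hw'
    (by rw [a1, a2]; exact w4)
  rw [a1, a2] at d2
  have b1 : x + I + J + (-I) + (4 - J) = x + 4 := by ring
  have b2 : y + 2 * J + 2 * (4 - J) = y + 8 := by ring
  have d3 := h.drift (-I) (4 - J) (by omega) (by omega) (by omega) hw'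
    (by rw [b1, b2]; exact w48)
  rw [b1, b2] at d3
  have d4 := h.s8 w48
  have c1 : y + 8 - 8 = y := by ring
  rw [c1] at d4
  obtain ⟨m, hm⟩ := d2.symm.trans (d4.trans d3)
  push_cast at hm
  exact cn_irr hβ (a := 4) (b := 2 * m) (by norm_num) (by push_cast; linarith only [hm])

theorem Sol.ty1 (h : Sol β B W S) {x y I : ℤ} (hI : 1 ≤ I ∧ I ≤ 3) (hw : W x y)
    (hw' : W (x + I) y) : E2 (S (x + 4) y) (S x y + 4 * β) := by
  have w4 : W (x + 4) y := (h.congr (by omega) rfl).2 hw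
  have e1 : x + I + 0 = x + I := by ring
  have e2 : y + 2 * 0 = y := by ring
  have d1 := h.drift I 0 (by omega) (by omega) (by omega) hw (by rw [e1, e2]; exact hw')
  rw [e1, e2] at d1
  have a1 : x + I + (4 - I) + 0 = x + 4 := by ring
  have d2 := h.drift (4 - I) 0 (by omega) (by omega) (by omega) hw' (by rw [a1, e2]; exact w4)
  rw [a1, e2] at d2
  have d3 := d2.trans (d1.add_right (β * ((4 - I : ℤ) : ℝ)))
  obtain ⟨m, hm⟩ := d3
  exact ⟨m, by rw [hm]; push_cast; ring⟩

theorem Sol.ty2 (h : Sol β B W S) {x y J : ℤ} (hJ : 1 ≤ J ∧ J ≤ 3) (hw : W x y)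
    (hw' : W (x + J) (y + 2 * J)) : E2 (S (x + 4) y) (S x y) := by
  have w48 : W (x + 4) (y + 8) := (h.congr (by omega) (by omega)).2 hw
  have e1 : x + 0 + J = x + J := by ring
  have d1 := h.drift 0 J (by omega) (by omega) (by omega) hw (by rw [e1]; exact hw')
  rw [e1] at d1
  have a1 : x + J + 0 + (4 - J) = x + 4 := by ring
  have a2 : y + 2 * J + 2 * (4 - J) = y + 8 := by ring
  have d2 := h.drift 0 (4 - J) (by omega) (by omega) (by omega) hw' (by rw [a1, a2]; exact w48)
  rw [a1, a2] at d2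
  have d3 := d2.trans (d1.add_right _)
  have d4 := h.s8 w48
  have c1 : y + 8 - 8 = y := by ring
  rw [c1] at d4
  obtain ⟨m, hm⟩ := d4.trans d3
  exact ⟨m, by rw [hm]; push_cast; ring⟩

/-- a pair of the same parity of `y` is of one of two types -/
theorem Sol.pair (h : Sol β B W S) (hβ : Irrational β) {x y x' y' : ℤ} (hw : W x y)
    (hw' : W x' y') (hx : (x' - x) % 2 = 1) (hy : (y' - y) % 2 = 0) :
    ((y' - y) % 8 = 0 ∧ E2 (S (x + 4) y) (S x y + 4 * β)) ∨
      ((y' - y - 2 * (x' - x)) % 8 = 0 ∧ E2 (S (x + 4) y) (S x y)) := by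
  set J := (y' - y) / 2 % 4 with hJ
  set I := (x' - x - J) % 4 with hI
  have hw2 : W (x + I + J) (y + 2 * J) := (h.congr (by omega) (by omega)).2 hw'
  rcases eq_or_ne J 0 with h1 | h1
  · left
    refine ⟨by omega, ?_⟩
    rw [h1] at hw2
    have e1 : x + I + 0 = x + I := by ring
    have e2 : y + 2 * 0 = y := by ring
    rw [e1, e2] at hw2
    exact h.ty1 (by omega) hw hw2
  · rcases eq_or_ne I 0 with h2 | h2
    · right
      refine ⟨by omega, ?_⟩
      rw [h2] at hw2
      have e1 : x + 0 + J = x + J := by ring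
      rw [e1] at hw2
      exact h.ty2 (by omega) hw hw2
    · exact (h.no_mixed hβ (I := I) (J := J) (by omega) (by omega) hw hw2).elim

theorem Sol.drift1 (h : Sol β B W S) (hβ : Irrational β) {x y x' y' : ℤ} (hw : W x y)
    (hw' : W x' y') (hx : (x' - x) % 2 = 1) (hy : (y' - y) % 8 = 0) (n : ℕ) :
    E2 (S (x + 4 * n) y) (S x y + 4 * n * β) := by
  induction n with
  | zero => simpa using E2.refl _
  | succ n ih =>
    have hw1 : W (x + 4 * n) y := (h.congr (by omega) rfl).2 hw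
    have e : x + 4 * ((n + 1 : ℕ) : ℤ) = x + 4 * (n : ℤ) + 4 := by push_cast; ring
    rcases h.pair hβ hw1 hw' (by omega) (by omega) with ⟨_, h2⟩ | ⟨h1, _⟩
    · rw [e]
      obtain ⟨m, hm⟩ := h2.trans (ih.add_right (4 * β))
      exact ⟨m, by rw [hm]; push_cast; ring⟩
    · omega

theorem Sol.drift2 (h : Sol β B W S) (hβ : Irrational β) {x y x' y' : ℤ} (hw : W x y)
    (hw' : W x' y') (hx : (x' - x) % 2 = 1) (hy : (y' - y - 2 * (x' - x)) % 8 = 0) (n : ℕ) :
    E2 (S (x + 4 * n) y) (S x y) := by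
  induction n with
  | zero => simpa using E2.refl _
  | succ n ih =>
    have hw1 : W (x + 4 * n) y := (h.congr (by omega) rfl).2 hw
    have e : x + 4 * ((n + 1 : ℕ) : ℤ) = x + 4 * (n : ℤ) + 4 := by push_cast; ring
    rcases h.pair hβ hw1 hw' (by omega) (by omega) with ⟨h1, _⟩ | ⟨_, h2⟩
    · omega
    · rw [e]
      exact h2.trans ih

/-- a period `(n, 0; t)` gives a constant drift -/
theorem Sol.period (h : Sol β B W S) {n : ℕ} {t : ℝ}
    (hp : ∀ a, pt n 0 t + a ∈ B ↔ a ∈ B) {x y : ℤ} (hw : W x y) (m : ℕ) :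
    W (x + m * n) y ∧ E2 (S (x + m * n) y) (S x y + m * t) := by
  have key : ∀ x y, W x y → W (x + n) y ∧ E2 (S (x + n) y) (S x y + t) := by
    intro x y hw
    have hmem : ∀ z, pt (x + n) y (z + t) ∈ B ↔ pt x y z ∈ B := by
      intro z
      have := hp (pt x y z)
      rw [cn_pt_add] at this
      have e1 : (n : ℤ) + x = x + n := by ring
      have e2 : 0 + y = y := by ring
      rw [e1, e2, add_comm t z] at this
      exact this
    have h1 : W (x + n) y := by
      have h2 : pt x y (S x y) ∈ B := (h.col.mem _ _ _).2 ⟨hw, 0, by simp, by simp only [Int.cast_zero, mul_zero, add_zero, lt_add_iff_pos_right, zero_lt_one]⟩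
      exact ((h.col.mem _ _ _).1 ((hmem _).2 h2)).1
    refine ⟨h1, cn_E2_of_eq fun z => ?_⟩
    have h2 := hmem (z - t)
    rw [sub_add_cancel, h.col.mem, h.col.mem] at h2
    constructor
    · intro h3
      obtain ⟨m, h4, h5⟩ := (h2.1 ⟨h1, h3⟩).2
      exact ⟨m, by linarith only [h4], by linarith only [h5]⟩
    · rintro ⟨m, h4, h5⟩
      exact (h2.2 ⟨hw, m, by linarith, by linarith⟩).2
  induction m with
  | zero => simpa using ⟨hw, E2.refl _⟩
  | succ m ih =>
    obtain ⟨h1, h2⟩ := key _ _ ih.1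
    have e : x + ((m + 1 : ℕ) : ℤ) * n = x + m * n + n := by push_cast; ring
    rw [e]
    refine ⟨h1, ?_⟩
    obtain ⟨k, hk⟩ := h2.trans (ih.2.add_right t)
    exact ⟨k, by rw [hk]; push_cast; ring⟩

theorem Sol.false (h : Sol β B W S) (hβ : Irrational β) {n : ℕ} (hn : n ≠ 0) {t : ℝ}
    (hp : ∀ a, pt n 0 t + a ∈ B ↔ a ∈ B) : False := by
  -- a pair of type 1 and a pair of type 2 give a contradiction
  have key : ∀ x y x' y', W x y → W x' y' → (∀ k : ℕ, E2 (S (x + 4 * k) y) (S x y + 4 * k * β)) →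
      (∀ k : ℕ, E2 (S (x' + 4 * k) y') (S x' y')) → False := by
    intro x y x' y' hw hw' h1 h2
    have a1 := (h.period hp hw 4).2
    have a2 := (h.period hp hw' 4).2
    have b1 := h1 n
    have b2 := h2 n
    have e : ((4 : ℕ) : ℤ) * n = 4 * n := by norm_num
    rw [e] at a1 a2
    obtain ⟨k1, hk1⟩ := b1.symm.trans a1
    obtain ⟨k2, hk2⟩ := b2.symm.trans a2
    refine cn_irr hβ (a := 4 * n) (b := 2 * k1 - 2 * k2) ?_ ?_
    · have : (n : ℤ) ≠ 0 := by exact_mod_cast hn
      omega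
    · push_cast
      push_cast at hk1 hk2
      linarith only [hk1, hk2]
  obtain ⟨x0, y0, w0, hx0, hy0⟩ := h.ex 0 0
  obtain ⟨x1, y1, w1, hx1, hy1⟩ := h.ex 1 0
  obtain ⟨x2, y2, w2, hx2, hy2⟩ := h.ex 0 1
  obtain ⟨x3, y3, w3, hx3, hy3⟩ := h.ex 1 1
  -- transversality
  have f1 : (x2 - x0) % 4 = 0 := by
    by_contra hcon
    have := h.u2 w0 w2 (by omega)
    omega
  have f2 : (x3 - x1) % 4 = 0 := by
    by_contra hcon
    have := h.u2 w1 w3 (by omega)
    omega
  have f3 : (x3 - x0 - (y3 - y0)) % 4 = 2 := by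
    by_contra hcon
    have := h.u3 w0 w3 (by omega)
    omega
  have f4 : (x2 - x1 - (y2 - y1)) % 4 = 2 := by
    by_contra hcon
    have := h.u3 w1 w2 (by omega)
    omega
  rcases h.pair hβ w0 w1 (by omega) (by omega) with ⟨p1, _⟩ | ⟨p1, _⟩ <;>
    rcases h.pair hβ w2 w3 (by (clear * - hx2 hx3; omega)) (by omega) with ⟨p2, _⟩ | ⟨p2, _⟩
  · omega
  · exact key x0 y0 x2 y2 w0 w2 (fun k => h.drift1 hβ w0 w1 (by omega) p1 k)
      (fun k => h.drift2 hβ w2 w3 (by omega) p2 k)
  · exact key x2 y2 x0 y0 w2 w0 (fun k => h.drift1 hβ w2 w3 (by omega) p2 k)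
      (fun k => h.drift2 hβ w0 w1 (by omega) p1 k)
  · omega

end

theorem sys_no_per (β : ℝ) (hβ : Irrational β) :
    ¬ ∃ A : Set (H 2), SepV A ∧ PerH A ∧ ∀ τ ∈ Sys β, Solves (Iv A) τ := by
  rintro ⟨A, -, hper, hA⟩
  obtain ⟨D, t, hD, hDt⟩ := perH_vec hper
  have h1 : Solves (Iv A) T1 := hA _ (by simp only [Sys, Set.mem_insert_iff, Set.mem_singleton_iff, true_or])
  have h2 : Solves (Iv A) (T1c (pt 0 0 2)) := hA _ (by simp only [Sys, Set.mem_insert_iff, Set.mem_singleton_iff, true_or, or_true])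
  obtain ⟨W, S, hc⟩ := cn_col h1 h2
  have hs : Sol β (Iv A) W S := ⟨hc, h1, hA _ (by simp only [Sys, Set.mem_insert_iff, Set.mem_singleton_iff, true_or, or_true]), hA _ (by simp only [Sys, Set.mem_insert_iff, Set.mem_singleton_iff, true_or, or_true]),
    hA _ (by simp only [Sys, Set.mem_insert_iff, Set.mem_singleton_iff, true_or, or_true]), hA _ (by simp only [Sys, Set.mem_insert_iff, Set.mem_singleton_iff, true_or, or_true]), hA _ (by simp only [Sys, Set.mem_insert_iff, Set.mem_singleton_iff, or_true])⟩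
  -- positive period
  obtain ⟨n, t', hn, hnt⟩ : ∃ (n : ℕ) (t' : ℝ), n ≠ 0 ∧ ∀ a, pt n 0 t' + a ∈ A ↔ a ∈ A := by
    obtain ⟨n, rfl | rfl⟩ := D.eq_nat_or_neg
    · exact ⟨n, t, by rintro rfl; exact hD rfl, hDt⟩
    · refine ⟨n, -t, by rintro rfl; exact hD (by simp), fun a => ?_⟩
      rw [← hDt (pt n 0 (-t) + a), ← add_assoc, cn_pt_add]
      have : pt (-(n : ℤ) + n) (0 + 0) (t + -t) = (0 : H 2) := by
        unfold pt
        ext i
        · fin_cases i <;> simp
        · simp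
      rw [this, zero_add]
  refine hs.false hβ hn (t := t') fun g => ?_
  constructor
  · rintro ⟨a, ha, h3, h4, h5⟩
    refine ⟨-(pt n 0 t') + a, ?_, ?_, ?_, ?_⟩
    · rw [← hnt, add_neg_cancel_left]; exact ha
    · rw [Prod.fst_add, Prod.fst_neg, h3, Prod.fst_add, neg_add_cancel_left]
    · rw [Prod.snd_add] at h4
      rw [Prod.snd_add, Prod.snd_neg]; linarith only [h4]
    · rw [Prod.snd_add] at h5
      rw [Prod.snd_add, Prod.snd_neg]; linarith only [h5]
  · rintro ⟨a, ha, h3, h4, h5⟩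
    refine ⟨pt n 0 t' + a, (hnt a).2 ha, ?_, ?_, ?_⟩
    · rw [Prod.fst_add, h3, Prod.fst_add]
    · rw [Prod.snd_add, Prod.snd_add]; linarith
    · rw [Prod.snd_add, Prod.snd_add]; linarith

end Vale.Agent.P043.Hy
end
end

section

attribute [-instance] ProperSMul.toContinuousSMul IsTopologicalTorsor.toContinuousSMul IdemSemiring.toCanonicallyOrderedAdd IdemSemiring.toMulLeftMono IdemSemiring.toMulRightMono AddQuantale.instAddLeftMono AddQuantale.instAddRightMono Quantale.instMulLeftMono Quantale.instMulRightMono FiniteDimensional.rclike_to_real IsScalarTower.complexToReal FiniteDimensional.complexToReal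

section

/-!
# The hybrid system has a solution
-/

namespace Vale.Agent.P043.Hy

open Vale.Agent.P043 Vale.Agent.P043.Eu

/-- `z` lies in the arc `[s, s+1)` modulo `2` -/
def arc (s z : ℝ) : Prop := ∃ m : ℤ, s + 2 * m ≤ z ∧ z < s + 2 * m + 1

theorem arc_half (s z : ℝ) : ∃ ζ : ℕ, ζ < 2 ∧ arc s (z - ζ) := by
  rcases cn_half s z with h | h
  · exact ⟨0, by norm_num, by simpa only [arc, CharP.cast_eq_zero, sub_zero] using h⟩
  · exact ⟨1, by norm_num, by simpa only [arc, Nat.cast_one] using h⟩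

theorem arc_unique {s z : ℝ} {ζ ζ' : ℕ} (h : ζ < 2) (h' : ζ' < 2) (ha : arc s (z - ζ))
    (ha' : arc s (z - ζ')) : ζ = ζ' := by
  obtain ⟨m, h1, h2⟩ := ha
  obtain ⟨m', h3, h4⟩ := ha'
  have h5 : (2 * (m - m') + ((ζ : ℤ) - ζ') : ℝ) < 1 := by push_cast; linarith only [h1, h4]
  have h6 : (-1 : ℝ) < (2 * (m - m') + ((ζ : ℤ) - ζ') : ℝ) := by push_cast; linarith only [h2, h3]
  have h7 : 2 * (m - m') + ((ζ : ℤ) - ζ') < 1 := by exact_mod_cast h5
  have h8 : -1 < 2 * (m - m') + ((ζ : ℤ) - ζ') := by exact_mod_cast h6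
  omega

/-- the support -/
def W0 (x y : ℤ) : Prop :=
  ((x % 4 = 0 ∨ x % 4 = 1) ∧ y % 8 = 0) ∨ (x % 4 = 0 ∧ y % 8 = 1) ∨ (x % 4 = 1 ∧ y % 8 = 3)

/-- the phase -/
noncomputable def S0 (β : ℝ) (x y : ℤ) : ℝ := if y % 8 = 0 then β * x else 0

/-- the solution -/
def A0 (β : ℝ) : Set (H 2) := {g | W0 (g.1 0) (g.1 1) ∧ ∃ m : ℤ, g.2 = S0 β (g.1 0) (g.1 1) + 2 * m}

theorem A0_sep (β : ℝ) : SepV (A0 β) := by
  rintro a ⟨-, m, hm⟩ b ⟨-, m', hm'⟩ hab h1 h2
  rw [hm, hm', hab] at h1 h2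
  have h3 : ((m' - m : ℤ) : ℝ) < 1 := by push_cast; linarith
  have h4 : (-1 : ℝ) < ((m' - m : ℤ) : ℝ) := by push_cast; linarith only [h1]
  have h5 : m' - m < 1 := by exact_mod_cast h3
  have h6 : -1 < m' - m := by exact_mod_cast h4
  have h7 : m' = m := by omega
  refine Prod.ext hab ?_
  rw [hm, hm', hab, h7]

theorem mem_IvA0 (β : ℝ) (x y : ℤ) (z : ℝ) :
    pt x y z ∈ Iv (A0 β) ↔ W0 x y ∧ arc (S0 β x y) z := by
  constructor
  · rintro ⟨a, ⟨hw, m, hm⟩, h1, h2, h3⟩
    have e0 : a.1 0 = x := by rw [h1]; simp [pt]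
    have e1 : a.1 1 = y := by rw [h1]; simp [pt]
    rw [e0, e1] at hw hm
    refine ⟨hw, m, ?_, ?_⟩
    · rw [← hm]; exact h2
    · rw [← hm]; exact h3
  · rintro ⟨hw, m, h1, h2⟩
    refine ⟨pt x y (S0 β x y + 2 * m), ⟨?_, m, ?_⟩, rfl, h1, h2⟩
    · simpa [pt] using hw
    · simp [pt]

theorem solves_pt {B : Set (H 2)} {T : PP → H 2}
    (h : ∀ x y z, ∃ p, pt x y z - T p ∈ B)
    (h' : ∀ x y z p q, pt x y z - T p ∈ B → pt x y z - T q ∈ B → p = q) : Solves B T := by
  intro g
  rw [cn_pt_eta g]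
  obtain ⟨p, hp⟩ := h (g.1 0) (g.1 1) g.2
  exact ⟨p, hp, fun q hq => h' _ _ _ _ _ hq hp⟩

theorem yes_T1 (β : ℝ) : Solves (Iv (A0 β)) T1 := by
  apply solves_pt
  · intro x y z
    obtain ⟨r, t, hr, ht, hw⟩ : ∃ r t : ℤ, (r = 0 ∨ r = 2) ∧ (t = 0 ∨ t = 2 ∨ t = 4 ∨ t = 6) ∧
        W0 (x - r) (y - t) := by
      unfold W0
      rcases Int.emod_two_eq_zero_or_one x with hx | hx <;>
        rcases Int.emod_two_eq_zero_or_one y with hy | hy
      · exact ⟨x % 4, y % 8, by omega, by omega, by omega⟩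
      · exact ⟨x % 4, (y - 1) % 8, by omega, by omega, by omega⟩
      · exact ⟨(x - 1) % 4, y % 8, by omega, by omega, by omega⟩
      · exact ⟨(x - 1) % 4, (y - 3) % 8, by omega, by omega, by omega⟩
    obtain ⟨p, p', hp, hp'⟩ := T1_ex r t hr ht
    obtain ⟨ζ, hζ, ha⟩ := arc_half (S0 β (x - r) (y - t)) z
    interval_cases ζ
    · refine ⟨p, ?_⟩
      rw [hp, cn_pt_sub, mem_IvA0]
      exact ⟨hw, by simpa using ha⟩
    · refine ⟨p', ?_⟩
      rw [hp', cn_pt_sub, mem_IvA0]
      exact ⟨hw, by simpa only [Nat.cast_one] using ha⟩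
  · rintro x y z ⟨i, j⟩ ⟨i', j'⟩ h1 h2
    unfold T1 at h1 h2
    rw [cn_pt_sub, mem_IvA0] at h1 h2
    obtain ⟨w1, a1⟩ := h1
    obtain ⟨w2, a2⟩ := h2
    simp only at w1 w2 a1 a2
    have e1 : (i : ℕ) % 2 = (i' : ℕ) % 2 := by unfold W0 at w1 w2; omega
    have e2 : (j : ℕ) = (j' : ℕ) := by unfold W0 at w1 w2; omega
    rw [e1, e2] at a1
    have := arc_unique (by omega) (by (clear * - e1; omega)) a1 a2
    refine Prod.ext (Fin.ext ?_) (Fin.ext e2)
    simp only
    omega

theorem yes_T1c {B : Set (H 2)} {c : H 2} (hc : ∀ g, g - c ∈ B ↔ g ∈ B) (h : Solves B T1) :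
    Solves B (T1c c) := by
  intro g
  have key : ∀ p, g - T1c c p ∈ B ↔ g - T1 p ∈ B := by
    intro p
    unfold T1c
    split_ifs
    · rw [← sub_sub, hc]
    · rfl
  simp only [key]
  exact h g

theorem yes_per8 (β : ℝ) (g : H 2) : g - pt 0 8 0 ∈ Iv (A0 β) ↔ g ∈ Iv (A0 β) := by
  rw [cn_pt_eta g, cn_pt_sub, mem_IvA0, mem_IvA0]
  have e : S0 β (g.1 0 - 0) (g.1 1 - 8) = S0 β (g.1 0) (g.1 1) := by
    unfold S0
    have : (g.1 1 - 8) % 8 = g.1 1 % 8 := by omega
    rw [this, sub_zero]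
  have h3 : W0 (g.1 0 - 0) (g.1 1 - 8) ↔ W0 (g.1 0) (g.1 1) := by unfold W0; omega
  rw [e, h3, sub_zero]

theorem yes_per2 (β : ℝ) (g : H 2) : g - pt 0 0 2 ∈ Iv (A0 β) ↔ g ∈ Iv (A0 β) := by
  rw [cn_pt_eta g, cn_pt_sub, mem_IvA0, mem_IvA0, sub_zero, sub_zero]
  refine and_congr_right fun _ => ?_
  constructor
  · rintro ⟨m, h1, h2⟩
    exact ⟨m + 1, by push_cast; linarith, by push_cast; linarith only [h2]⟩
  · rintro ⟨m, h1, h2⟩
    exact ⟨m - 1, by push_cast; linarith, by push_cast; linarith⟩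

theorem yes_T1m (β : ℝ) : Solves (Iv (A0 β)) T1m := by
  apply solves_pt
  · intro x y z
    obtain ⟨r, t, hr, ht, hw⟩ : ∃ r t : ℤ, (r = 0 ∨ r = 2) ∧ (t = 0 ∨ t = 2 ∨ t = 4 ∨ t = 6) ∧
        W0 (x - r) (y - t) := by
      unfold W0
      rcases Int.emod_two_eq_zero_or_one x with hx | hx <;>
        rcases Int.emod_two_eq_zero_or_one y with hy | hy
      · exact ⟨x % 4, y % 8, by omega, by omega, by omega⟩
      · exact ⟨x % 4, (y - 1) % 8, by omega, by omega, by omega⟩
      · exact ⟨(x - 1) % 4, y % 8, by omega, by omega, by omega⟩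
      · exact ⟨(x - 1) % 4, (y - 3) % 8, by omega, by omega, by omega⟩
    by_cases hrt : r = 0 ∧ t = 0
    · obtain ⟨rfl, rfl⟩ := hrt
      obtain ⟨ζ, hζ, ha⟩ := arc_half (S0 β (x - 4) (y - 0)) z
      have hw' : W0 (x - 4) (y - 0) := by unfold W0 at *; omega
      interval_cases ζ
      · refine ⟨(0, 0), ?_⟩
        unfold T1m
        rw [if_pos ⟨rfl, rfl⟩, cn_T1_00, cn_pt_add, cn_pt_sub, mem_IvA0]
        exact ⟨by simpa using hw', by simpa using ha⟩
      · refine ⟨(2, 0), ?_⟩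
        unfold T1m
        rw [if_pos ⟨rfl, rfl⟩, cn_T1_20, cn_pt_add, cn_pt_sub, mem_IvA0]
        exact ⟨by simpa using hw', by simpa only [zero_add, add_zero, sub_zero, Nat.cast_one] using ha⟩
    · obtain ⟨p, p', hp, hp'⟩ := T1_ex r t hr ht
      have hT : ∀ (q : PP) (z : ℝ), T1 q = pt r t z → T1m q = pt r t z := by
        intro q z hq
        unfold T1m
        rw [if_neg]
        · exact hq
        · rintro ⟨h1, h2⟩
          apply hrt
          unfold T1 at hq
          have := cn_pt_inj hq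
          constructor
          · rw [← this.1, h1]; simp
          · rw [← this.2.1, h2]; simp
      obtain ⟨ζ, hζ, ha⟩ := arc_half (S0 β (x - r) (y - t)) z
      interval_cases ζ
      · refine ⟨p, ?_⟩
        rw [hT p _ hp, cn_pt_sub, mem_IvA0]
        exact ⟨hw, by simpa only [sub_zero, CharP.cast_eq_zero] using ha⟩
      · refine ⟨p', ?_⟩
        rw [hT p' _ hp', cn_pt_sub, mem_IvA0]
        exact ⟨hw, by simpa only [Nat.cast_one] using ha⟩
  · rintro x y z ⟨i, j⟩ ⟨i', j'⟩ h1 h2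
    unfold T1m T1 at h1 h2
    simp only at h1 h2
    split_ifs at h1 h2 with c1 c2 c2 <;> simp only [cn_pt_add, cn_pt_sub, mem_IvA0] at h1 h2 <;>
      obtain ⟨w1, a1⟩ := h1 <;> obtain ⟨w2, a2⟩ := h2
    · have e1 : (i : ℕ) % 2 = (i' : ℕ) % 2 := by omega
      have e2 : (j : ℕ) = (j' : ℕ) := by omega
      simp only [add_zero] at a1 a2
      rw [e1, e2] at a1
      have := arc_unique (by omega) (by omega) a1 a2
      refine Prod.ext (Fin.ext ?_) (Fin.ext e2)
      simp only
      omega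
    · exfalso; unfold W0 at w1 w2; omega
    · exfalso; unfold W0 at w1 w2; omega
    · have e1 : (i : ℕ) % 2 = (i' : ℕ) % 2 := by unfold W0 at w1 w2; omega
      have e2 : (j : ℕ) = (j' : ℕ) := by unfold W0 at w1 w2; omega
      rw [e1, e2] at a1
      have := arc_unique (by omega) (by (clear * - e1; omega)) a1 a2
      refine Prod.ext (Fin.ext ?_) (Fin.ext e2)
      simp only
      omega

theorem yes_T2 (β : ℝ) : Solves (Iv (A0 β)) T2 := by
  apply solves_pt
  · intro x y z
    obtain ⟨t, h0, h8, hw⟩ : ∃ t : ℤ, 0 ≤ t ∧ t < 8 ∧ W0 (x - 2 * (t % 2)) (y - t) := by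
      unfold W0
      have h1 : (x - 2 * y) % 4 = 0 ∨ (x - 2 * y) % 4 = 1 ∨ (x - 2 * y) % 4 = 2 ∨
        (x - 2 * y) % 4 = 3 := by omega
      rcases h1 with h1 | h1 | h1 | h1
      · exact ⟨y % 8, by omega, by omega, by omega⟩
      · exact ⟨y % 8, by omega, by omega, by omega⟩
      · exact ⟨(y - 1) % 8, by omega, by omega, by omega⟩
      · exact ⟨(y - 3) % 8, by omega, by omega, by omega⟩
    obtain ⟨p, p', hp, hp'⟩ := T2_ex t h0 h8
    obtain ⟨ζ, hζ, ha⟩ := arc_half (S0 β (x - 2 * (t % 2)) (y - t)) z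
    interval_cases ζ
    · refine ⟨p, ?_⟩
      rw [hp, cn_pt_sub, mem_IvA0]
      exact ⟨hw, by simpa only [sub_zero, CharP.cast_eq_zero] using ha⟩
    · refine ⟨p', ?_⟩
      rw [hp', cn_pt_sub, mem_IvA0]
      exact ⟨hw, by simpa only [Nat.cast_one] using ha⟩
  · rintro x y z ⟨i, j⟩ ⟨i', j'⟩ h1 h2
    unfold T2 at h1 h2
    rw [cn_pt_sub, mem_IvA0] at h1 h2
    obtain ⟨w1, a1⟩ := h1
    obtain ⟨w2, a2⟩ := h2
    simp only at w1 w2 a1 a2
    have e1 : (i : ℕ) % 2 = (i' : ℕ) % 2 := by unfold W0 at w1 w2; omega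
    have e2 : (j : ℕ) = (j' : ℕ) := by unfold W0 at w1 w2; omega
    rw [e1, e2] at a1
    have := arc_unique (by omega) (by (clear * - e1; omega)) a1 a2
    refine Prod.ext (Fin.ext ?_) (Fin.ext e2)
    simp only
    omega

theorem yes_T3 (β : ℝ) : Solves (Iv (A0 β)) T3 := by
  apply solves_pt
  · intro x y z
    obtain ⟨t, h0, h8, hw⟩ : ∃ t : ℤ, 0 ≤ t ∧ t < 8 ∧ W0 (x - t % 4) (y - t) := by
      unfold W0
      have h1 : (x - y) % 4 = 0 ∨ (x - y) % 4 = 1 ∨ (x - y) % 4 = 2 ∨
        (x - y) % 4 = 3 := by omega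
      rcases h1 with h1 | h1 | h1 | h1
      · exact ⟨y % 8, by omega, by omega, by omega⟩
      · exact ⟨y % 8, by omega, by omega, by omega⟩
      · exact ⟨(y - 3) % 8, by omega, by omega, by omega⟩
      · exact ⟨(y - 1) % 8, by omega, by omega, by omega⟩
    obtain ⟨p, p', hp, hp'⟩ := T3_ex t h0 h8
    obtain ⟨ζ, hζ, ha⟩ := arc_half (S0 β (x - t % 4) (y - t)) z
    interval_cases ζ
    · refine ⟨p, ?_⟩
      rw [hp, cn_pt_sub, mem_IvA0]
      exact ⟨hw, by simpa only [sub_zero, CharP.cast_eq_zero] using ha⟩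
    · refine ⟨p', ?_⟩
      rw [hp', cn_pt_sub, mem_IvA0]
      exact ⟨hw, by simpa only [Nat.cast_one] using ha⟩
  · rintro x y z ⟨i, j⟩ ⟨i', j'⟩ h1 h2
    unfold T3 at h1 h2
    rw [cn_pt_sub, mem_IvA0] at h1 h2
    obtain ⟨w1, a1⟩ := h1
    obtain ⟨w2, a2⟩ := h2
    simp only at w1 w2 a1 a2
    have e1 : (i : ℕ) = (i' : ℕ) := by unfold W0 at w1 w2; omega
    have e2 : (j : ℕ) % 2 = (j' : ℕ) % 2 := by unfold W0 at w1 w2; omega
    rw [e1, e2] at a1
    have := arc_unique (by omega) (by (clear * - e2; omega)) a1 a2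
    refine Prod.ext (Fin.ext e1) (Fin.ext ?_)
    simp only
    omega

theorem yes_Om (β : ℝ) : Solves (Iv (A0 β)) (Om β) := by
  have hOm : ∀ i j : Fin 4, Om β (i, j) = pt ((i : ℕ) + (j : ℕ)) (2 * (j : ℕ))
      (β * ((i : ℕ) : ℝ) + ((((i : ℕ) + (j : ℕ)) % 2 : ℕ) : ℝ)) := fun i j => rfl
  -- membership, even case
  have hev : ∀ (x y : ℤ) (z : ℝ) (i j : Fin 4), y % 2 = 0 →
      (pt x y z - Om β (i, j) ∈ Iv (A0 β) ↔ W0 (x - ((i : ℕ) + (j : ℕ))) (y - 2 * (j : ℕ)) ∧
        arc (β * (x - (j : ℕ))) (z - ((((i : ℕ) + (j : ℕ)) % 2 : ℕ) : ℝ))) := by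
    intro x y z i j hy
    rw [hOm, cn_pt_sub, mem_IvA0]
    refine and_congr_right fun hw => ?_
    have h8 : (y - 2 * ((j : ℕ) : ℤ)) % 8 = 0 := by unfold W0 at hw; omega
    unfold S0 arc
    rw [if_pos h8]
    push_cast
    constructor
    · rintro ⟨m, h1, h2⟩
      exact ⟨m, by linarith, by linarith only [h2]⟩
    · rintro ⟨m, h1, h2⟩
      exact ⟨m, by linarith, by linarith⟩
  have hod : ∀ (x y : ℤ) (z : ℝ) (i j : Fin 4), y % 2 = 1 →
      (pt x y z - Om β (i, j) ∈ Iv (A0 β) ↔ W0 (x - ((i : ℕ) + (j : ℕ))) (y - 2 * (j : ℕ)) ∧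
        arc (β * (i : ℕ)) (z - ((((i : ℕ) + (j : ℕ)) % 2 : ℕ) : ℝ))) := by
    intro x y z i j hy
    rw [hOm, cn_pt_sub, mem_IvA0]
    refine and_congr_right fun hw => ?_
    have h8 : ¬ (y - 2 * ((j : ℕ) : ℤ)) % 8 = 0 := by (clear * - hy; omega)
    unfold S0 arc
    rw [if_neg h8]
    constructor
    · rintro ⟨m, h1, h2⟩
      exact ⟨m, by linarith only [h1], by linarith⟩
    · rintro ⟨m, h1, h2⟩
      exact ⟨m, by linarith, by linarith only [h2]⟩
  apply solves_pt
  · intro x y z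
    rcases Int.emod_two_eq_zero_or_one y with hy | hy
    · obtain ⟨j, hj⟩ : ∃ j : Fin 4, (y / 2) % 4 = ((j : ℕ) : ℤ) :=
        ⟨⟨((y / 2) % 4).toNat, by omega⟩, by simp only; omega⟩
      obtain ⟨ζ, hζ, ha⟩ := arc_half (β * (x - (j : ℕ))) z
      obtain ⟨i, hi, hi2⟩ : ∃ i : Fin 4, ((i : ℕ) + (j : ℕ)) % 2 = ζ ∧
          ((x - ((i : ℕ) + (j : ℕ))) % 4 = 0 ∨ (x - ((i : ℕ) + (j : ℕ))) % 4 = 1) := by
        by_cases hc : (x - ζ) % 2 = 0
        · exact ⟨⟨((x - (j : ℕ)) % 4).toNat, by omega⟩, by simp only; omega, by simp only; omega⟩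
        · exact ⟨⟨((x - (j : ℕ) - 1) % 4).toNat, by omega⟩, by simp only; (clear * - hζ hc; omega),
            by simp only; omega⟩
      refine ⟨(i, j), (hev x y z i j hy).2 ⟨?_, ?_⟩⟩
      · unfold W0; omega
      · rw [hi]; exact ha
    · obtain ⟨i, hi⟩ : ∃ i : Fin 4, (x - (y - 1) / 2) % 4 = ((i : ℕ) : ℤ) :=
        ⟨⟨((x - (y - 1) / 2) % 4).toNat, by omega⟩, by simp only; omega⟩
      obtain ⟨ζ, hζ, ha⟩ := arc_half (β * (i : ℕ)) z
      obtain ⟨j, hj, hj2⟩ : ∃ j : Fin 4, ((i : ℕ) + (j : ℕ)) % 2 = ζ ∧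
          ((y - 1) / 2 % 4 = ((j : ℕ) : ℤ) ∨ ((y - 1) / 2 - 1) % 4 = ((j : ℕ) : ℤ)) := by
        by_cases hc : ((i : ℕ) + ((y - 1) / 2) - ζ) % 2 = 0
        · exact ⟨⟨((y - 1) / 2 % 4).toNat, by (clear * - hc; omega)⟩, by simp only; (clear * - hζ hc; omega), by simp only; (clear * - hc; omega)⟩
        · exact ⟨⟨(((y - 1) / 2 - 1) % 4).toNat, by (clear * -; omega)⟩, by simp only; (clear * - hζ hc; omega),
            by simp only; omega⟩
      refine ⟨(i, j), (hod x y z i j hy).2 ⟨?_, ?_⟩⟩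
      · unfold W0; omega
      · rw [hj]; exact ha
  · rintro x y z ⟨i, j⟩ ⟨i', j'⟩ h1 h2
    rcases Int.emod_two_eq_zero_or_one y with hy | hy
    · rw [hev x y z i j hy] at h1
      rw [hev x y z i' j' hy] at h2
      obtain ⟨w1, a1⟩ := h1
      obtain ⟨w2, a2⟩ := h2
      have e1 : (j : ℕ) = (j' : ℕ) := by unfold W0 at w1 w2; omega
      rw [e1] at a1
      have e2 := arc_unique (by omega) (by (clear * -; omega)) a1 a2
      have e3 : (i : ℕ) = (i' : ℕ) := by unfold W0 at w1 w2; omega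
      exact Prod.ext (Fin.ext e3) (Fin.ext e1)
    · rw [hod x y z i j hy] at h1
      rw [hod x y z i' j' hy] at h2
      obtain ⟨w1, a1⟩ := h1
      obtain ⟨w2, a2⟩ := h2
      have e1 : (i : ℕ) = (i' : ℕ) := by unfold W0 at w1 w2; omega
      rw [e1] at a1
      have e2 := arc_unique (by omega) (by omega) a1 a2
      have e3 : (j : ℕ) = (j' : ℕ) := by unfold W0 at w1 w2; omega
      exact Prod.ext (Fin.ext e1) (Fin.ext e3)

theorem sys_exists (β : ℝ) : ∃ A : Set (H 2), SepV A ∧ ∀ τ ∈ Sys β, Solves (Iv A) τ := by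
  refine ⟨A0 β, A0_sep β, ?_⟩
  intro τ hτ
  simp only [Sys, Set.mem_insert_iff, Set.mem_singleton_iff] at hτ
  rcases hτ with rfl | rfl | rfl | rfl | rfl | rfl | rfl
  · exact yes_T1 β
  · exact yes_T1m β
  · exact yes_T1c (yes_per8 β) (yes_T1 β)
  · exact yes_T1c (yes_per2 β) (yes_T1 β)
  · exact yes_T2 β
  · exact yes_T3 β
  · exact yes_Om β

theorem nonInt_Om {β : ℝ} (hβ : Irrational β) : NonInt (Om β) := by
  refine ⟨(1, 0), (0, 0), fun m hm => ?_⟩
  unfold Om pt at hm
  simp only [Fin.isValue, Fin.coe_ofNat_eq_mod, Nat.one_mod, Nat.cast_one, mul_one, Nat.zero_mod, add_zero, Nat.mod_succ, CharP.cast_eq_zero, mul_zero, sub_zero] at hm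
  apply hβ
  exact ⟨(m - 1 : ℤ), by push_cast; linarith only [hm]⟩

end Vale.Agent.P043.Hy
end
end

section

attribute [-instance] ProperSMul.toContinuousSMul IsTopologicalTorsor.toContinuousSMul IdemSemiring.toCanonicallyOrderedAdd IdemSemiring.toMulLeftMono IdemSemiring.toMulRightMono AddQuantale.instAddLeftMono AddQuantale.instAddRightMono Quantale.instMulLeftMono Quantale.instMulRightMono FiniteDimensional.rclike_to_real IsScalarTower.complexToReal FiniteDimensional.complexToReal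

section

/-!
# Merging a finite hybrid system into one tile
-/

namespace Vale.Agent.P043.Hy

open Vale.Agent.P043 Vale.Agent.P043.Eu MeasureTheory
open Classical

/-- multiplication of one horizontal coordinate by `4` -/
noncomputable def mg_io {k : ℕ} (i0 : Fin k) : H k →+ H k where
  toFun g := (fun i => if i = i0 then 4 * g.1 i else g.1 i, g.2)
  map_zero' := by
    refine Prod.ext ?_ rfl
    funext i
    simp
  map_add' g h := by
    refine Prod.ext ?_ rfl
    funext i
    by_cases hi : i = i0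
    · simp [hi, mul_add]
    · simp [hi]

/-- the unit vector -/
noncomputable def mg_e {k : ℕ} (i0 : Fin k) : H k := (Pi.single i0 1, 0)

theorem mg_io_snd {k : ℕ} (i0 : Fin k) (g : H k) : (mg_io i0 g).2 = g.2 := rfl

theorem mg_io_fst {k : ℕ} (i0 : Fin k) (g : H k) (i : Fin k) :
    (mg_io i0 g).1 i = if i = i0 then 4 * g.1 i else g.1 i := rfl

theorem mg_io_fst_inj {k : ℕ} (i0 : Fin k) {g h : H k} (e : (mg_io i0 g).1 = (mg_io i0 h).1) :
    g.1 = h.1 := by
  funext i
  have h1 := congrFun e i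
  rw [mg_io_fst, mg_io_fst] at h1
  by_cases hi : i = i0
  · rw [if_pos hi, if_pos hi] at h1
    omega
  · rw [if_neg hi, if_neg hi] at h1
    exact h1

theorem mg_io_fst_congr {k : ℕ} (i0 : Fin k) {g h : H k} (e : g.1 = h.1) :
    (mg_io i0 g).1 = (mg_io i0 h).1 := by
  funext i
  rw [mg_io_fst, mg_io_fst, e]

theorem mg_ne_snd {k : ℕ} (i0 : Fin k) (n : ℕ) : (n • mg_e i0).2 = 0 := by
  simp [mg_e]

theorem mg_ne_fst {k : ℕ} (i0 : Fin k) (n : ℕ) (i : Fin k) :
    (n • mg_e i0).1 i = if i = i0 then (n : ℤ) else 0 := by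
  by_cases hi : i = i0
  · subst hi
    simp only [mg_e, Prod.smul_mk, nsmul_eq_mul, nsmul_zero, Pi.mul_apply, Pi.natCast_apply, Pi.single_eq_same, mul_one, ↓reduceIte]
  · simp only [mg_e, Prod.smul_mk, nsmul_eq_mul, nsmul_zero, Pi.mul_apply, Pi.natCast_apply, ne_eq, hi, not_false_eq_true, Pi.single_eq_of_ne, mul_zero, ↓reduceIte]

theorem mg_dec {k : ℕ} (i0 : Fin k) (u : H k) :
    ∃! q : H k × Fin 4, mg_io i0 q.1 + (q.2 : ℕ) • mg_e i0 = u := by
  have hm0 : 0 ≤ u.1 i0 % 4 := Int.emod_nonneg _ (by norm_num)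
  have hm4 : u.1 i0 % 4 < 4 := Int.emod_lt_of_pos _ (by norm_num)
  refine ⟨((fun i => if i = i0 then u.1 i / 4 else u.1 i, u.2),
    ⟨(u.1 i0 % 4).toNat, by omega⟩), ?_, ?_⟩
  · simp only
    refine Prod.ext ?_ ?_
    · funext i
      rw [Prod.fst_add, Pi.add_apply, mg_io_fst, mg_ne_fst]
      by_cases hi : i = i0
      · subst hi
        simp only [if_true]
        omega
      · simp only [if_neg hi]
        ring
    · rw [Prod.snd_add, mg_io_snd, mg_ne_snd, add_zero]
  · rintro ⟨g, n⟩ hg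
    simp only at hg
    have h2 : g.2 = u.2 := by
      have := congrArg Prod.snd hg
      rwa [Prod.snd_add, mg_io_snd, mg_ne_snd, add_zero] at this
    have h1 : ∀ i, (mg_io i0 g).1 i + ((n : ℕ) • mg_e i0).1 i = u.1 i := fun i => by
      have := congrFun (congrArg Prod.fst hg) i
      simpa only [nsmul_eq_mul, Prod.fst_mul, Prod.fst_natCast, Pi.mul_apply, Pi.natCast_apply, Prod.fst_add,     Pi.add_apply] using this
    have h3 := h1 i0
    rw [mg_io_fst, mg_ne_fst, if_pos rfl, if_pos rfl] at h3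
    have hn := n.2
    refine Prod.ext (Prod.ext ?_ h2) ?_
    · funext i
      by_cases hi : i = i0
      · subst hi
        simp only [if_true]
        omega
      · have h4 := h1 i
        rw [mg_io_fst, mg_ne_fst, if_neg hi, if_neg hi] at h4
        simp only [if_neg hi]
        omega
    · apply Fin.ext
      simp only
      omega

/-- (a) images -/
theorem mg_Iv_image {k : ℕ} (i0 : Fin k) (A : Set (H k)) :
    Iv (mg_io i0 '' A) = mg_io i0 '' (Iv A) := by
  ext g
  constructor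
  · rintro ⟨_, ⟨a, ha, rfl⟩, h1, h2, h3⟩
    refine ⟨(a.1, g.2), ⟨a, ha, rfl, h2, h3⟩, ?_⟩
    refine Prod.ext ?_ rfl
    rw [← h1]
    exact mg_io_fst_congr i0 rfl
  · rintro ⟨b, ⟨a, ha, h1, h2, h3⟩, rfl⟩
    exact ⟨mg_io i0 a, ⟨a, ha, rfl⟩, mg_io_fst_congr i0 h1, h2, h3⟩

theorem mg_sep_image {k : ℕ} (i0 : Fin k) {A : Set (H k)} (hA : SepV A) :
    SepV (mg_io i0 '' A) := by
  rintro _ ⟨a, ha, rfl⟩ _ ⟨b, hb, rfl⟩ h1 h2 h3
  rw [hA a ha b hb (mg_io_fst_inj i0 h1) h2 h3]

/-- (b) a periodic solution of the combined tile solves both pure combinations. -/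
theorem mg_split {k : ℕ} {P : Type} [Fintype P] (i0 : Fin k) (A : Set (H k)) (hsep : SepV A)
    (hper : PerH A) (F1 F2 : P → H k) (h : Solves (Iv A) (comb (mg_io i0) (mg_e i0) F1 F2)) :
    Solves (Iv A) (comb (mg_io i0) (mg_e i0) F1 F1) ∧
      Solves (Iv A) (comb (mg_io i0) (mg_e i0) F2 F2) := by
  set ι := mg_io i0 with hι
  set e := mg_e i0 with he
  rw [solves_comb_iff] at h
  have hle : ∀ u, XX ι (Iv A) F1 u ≤ XX ι (Iv A) F2 u := by
    intro u
    have hu := h u
    by_contra hcon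
    push Not at hcon
    have h0 : XX ι (Iv A) F2 u = 0 := by omega
    have h1 : 1 ≤ XX ι (Iv A) F1 u := by omega
    have e1 := h (u + e)
    have a1 : u + e - e = u := by abel
    have a2 : u + e - 2 • e = u - e := by abel
    have a3 : u + e - 3 • e = u - 2 • e := by abel
    rw [a1, a2, a3, h0] at e1
    have e2 := h (u + 3 • e)
    have b1 : u + 3 • e - e = u + 2 • e := by abel
    have b2 : u + 3 • e - 2 • e = u + e := by abel
    have b3 : u + 3 • e - 3 • e = u := by abel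
    rw [b1, b2, b3] at e2
    have e3 := h (u + 2 • e)
    have c1 : u + 2 • e - e = u + e := by abel
    have c2 : u + 2 • e - 2 • e = u := by abel
    have c3 : u + 2 • e - 3 • e = u - e := by abel
    rw [c1, c2, c3] at e3
    omega
  have hF : XX ι (Iv A) F1 = XX ι (Iv A) F2 :=
    funext fun u => xx_eq A hsep hper (fun p => ι (F1 p)) (fun p => ι (F2 p)) hle u
  constructor
  · rw [solves_comb_iff]
    intro u
    have := h u
    rw [← hF] at this
    exact this
  · rw [solves_comb_iff]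
    intro u
    have := h u
    rw [hF] at this
    exact this

/-- the pulled back set -/
def mg_pull {k : ℕ} (i0 : Fin k) (A : Set (H k)) : Set (H k) :=
  {g | ∃ n : Fin 4, mg_io i0 g - (n : ℕ) • mg_e i0 ∈ A}

theorem mg_sub_snd {k : ℕ} (i0 : Fin k) (g : H k) (n : ℕ) :
    (mg_io i0 g - n • mg_e i0).2 = g.2 := by
  rw [Prod.snd_sub, mg_io_snd, mg_ne_snd, sub_zero]

theorem mg_Iv_pull {k : ℕ} (i0 : Fin k) (A : Set (H k)) :
    {g : H k | ∃ n : Fin 4, mg_io i0 g - (n : ℕ) • mg_e i0 ∈ Iv A} = Iv (mg_pull i0 A) := by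
  ext g
  constructor
  · rintro ⟨n, a, ha, h1, h2, h3⟩
    rw [mg_sub_snd] at h2 h3
    refine ⟨(g.1, a.2), ⟨n, ?_⟩, rfl, h2, h3⟩
    have : mg_io i0 (g.1, a.2) - (n : ℕ) • mg_e i0 = a := by
      refine Prod.ext ?_ (mg_sub_snd i0 _ _)
      rw [h1, Prod.fst_sub, Prod.fst_sub]
      congr 1
    rw [this]
    exact ha
  · rintro ⟨a, ⟨n, ha⟩, h1, h2, h3⟩
    refine ⟨n, _, ha, ?_, ?_, ?_⟩
    · rw [Prod.fst_sub, Prod.fst_sub, mg_io_fst_congr i0 h1]
    · rw [mg_sub_snd, mg_sub_snd]; exact h2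
    · rw [mg_sub_snd, mg_sub_snd]; exact h3

theorem mg_sep_pull {k : ℕ} {P : Type} (i0 : Fin k) {A : Set (H k)} (hA : SepV A)
    (F : P → H k) (h : Solves (Iv A) (comb (mg_io i0) (mg_e i0) F F)) :
    SepV (mg_pull i0 A) := by
  rintro a ⟨n, ha⟩ b ⟨m, hb⟩ h1 h2 h3
  obtain ⟨⟨p, -⟩, -, -⟩ := h 0
  have hfst : ∀ r : ℕ, (mg_io i0 a - r • mg_e i0).1 = (mg_io i0 b - r • mg_e i0).1 := fun r => by
    rw [Prod.fst_sub, Prod.fst_sub, mg_io_fst_congr i0 h1]
  have hform : ∀ r : Fin 4, mg_io i0 (b + F p) - comb (mg_io i0) (mg_e i0) F F (p, r)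
      = mg_io i0 b - (r : ℕ) • mg_e i0 := by
    intro r
    simp only [comb, ite_self, map_add]
    abel
  have hn : mg_io i0 (b + F p) - comb (mg_io i0) (mg_e i0) F F (p, n) ∈ Iv A := by
    rw [hform]
    refine ⟨_, ha, hfst _, ?_, ?_⟩
    · rw [mg_sub_snd, mg_sub_snd]; exact h2
    · rw [mg_sub_snd, mg_sub_snd]; exact h3
  have hm : mg_io i0 (b + F p) - comb (mg_io i0) (mg_e i0) F F (p, m) ∈ Iv A := by
    rw [hform]
    exact ⟨_, hb, rfl, le_refl _, by linarith⟩
  have hnm : n = m := congrArg Prod.snd ((h _).unique hn hm)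
  subst hnm
  have h4 := hA _ ha _ hb (hfst _) (by rw [mg_sub_snd, mg_sub_snd]; exact h2)
    (by rw [mg_sub_snd, mg_sub_snd]; exact h3)
  refine Prod.ext h1 ?_
  have h5 := congrArg Prod.snd h4
  rwa [mg_sub_snd, mg_sub_snd] at h5

/-- the diagonal map -/
noncomputable def mg_L {k : ℕ} (i0 : Fin k) :
    (Fin (k + 1) → ℝ) →ₗ[ℝ] (Fin (k + 1) → ℝ) :=
  LinearMap.pi fun i => (if i = i0.succ then (1 : ℝ) else 4) • LinearMap.proj i

theorem mg_L_apply {k : ℕ} (i0 : Fin k) (x : Fin (k + 1) → ℝ) (i : Fin (k + 1)) :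
    mg_L i0 x i = (if i = i0.succ then (1 : ℝ) else 4) * x i := rfl

theorem mg_L_ker {k : ℕ} (i0 : Fin k) : LinearMap.ker (mg_L i0) = ⊥ := by
  rw [LinearMap.ker_eq_bot']
  intro x hx
  funext i
  have h := congrFun hx i
  rw [mg_L_apply] at h
  have h2 : (if i = i0.succ then (1 : ℝ) else 4) ≠ 0 := by split_ifs <;> norm_num
  exact (mul_eq_zero.1 h).resolve_left h2

theorem mg_per_pull {k : ℕ} (i0 : Fin k) {A : Set (H k)} (hA : PerH A) :
    PerH (mg_pull i0 A) := by
  obtain ⟨v, hv, hper⟩ := hA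
  set v' : Fin (k + 1) → H k := fun i =>
    (fun j => if j = i0 then (v i).1 j else 4 * (v i).1 j, 4 * (v i).2) with hv'
  have hio : ∀ i, mg_io i0 (v' i) = v i + (v i + (v i + v i)) := by
    intro i
    refine Prod.ext ?_ ?_
    · funext j
      rw [mg_io_fst]
      simp only [hv', Prod.fst_add, Pi.add_apply]
      by_cases hj : j = i0
      · simp only [if_pos hj]; ring
      · simp only [if_neg hj]; ring
    · rw [mg_io_snd]
      simp only [hv', Prod.snd_add]
      ring
  refine ⟨v', ?_, ?_⟩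
  · have h1 := hv.map' (mg_L i0) (mg_L_ker i0)
    have h2 : (fun i => toR (v' i)) = (mg_L i0) ∘ (fun i => toR (v i)) := by
      funext i
      funext j
      rw [Function.comp_apply, mg_L_apply]
      refine Fin.cases ?_ (fun l => ?_) j
      · have h0 : ¬ ((0 : Fin (k + 1)) = i0.succ) := fun h => absurd h.symm (Fin.succ_ne_zero i0)
        rw [if_neg h0, eq_toR_zero, eq_toR_zero]
      · rw [eq_toR_succ, eq_toR_succ]
        simp only [hv', Fin.succ_inj]
        by_cases hl : l = i0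
        · simp [hl]
        · simp [hl]
    rw [h2]
    exact h1
  · intro i a
    apply exists_congr
    intro n
    have h3 : mg_io i0 (v' i + a) - (n : ℕ) • mg_e i0
        = v i + (v i + (v i + (v i + (mg_io i0 a - (n : ℕ) • mg_e i0)))) := by
      rw [map_add, hio]
      abel
    rw [h3, hper, hper, hper, hper]

theorem mg_ni {k : ℕ} {P : Type} (i0 : Fin k) (F1 F2 : P → H k) (h : NonInt F1 ∨ NonInt F2) :
    NonInt (comb (mg_io i0) (mg_e i0) F1 F2) := by
  rcases h with ⟨p, q, h⟩ | ⟨p, q, h⟩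
  · refine ⟨(p, 0), (q, 0), fun m => ?_⟩
    have e1 : ∀ r : P, (comb (mg_io i0) (mg_e i0) F1 F2 (r, 0)).2 = (F1 r).2 := by
      intro r
      simp only [comb, Prod.snd_add, mg_ne_snd, add_zero]
      rw [if_neg (by decide), mg_io_snd]
    rw [e1, e1]
    exact h m
  · refine ⟨(p, 1), (q, 1), fun m => ?_⟩
    have e1 : ∀ r : P, (comb (mg_io i0) (mg_e i0) F1 F2 (r, 1)).2 = (F2 r).2 := by
      intro r
      simp only [comb, Prod.snd_add, mg_ne_snd, add_zero]
      rw [if_true, mg_io_snd]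
    rw [e1, e1]
    exact h m

theorem merge {k : ℕ} (hk : 1 ≤ k) {P : Type} [Finite P] (S : Set (P → H k)) (hfin : S.Finite)
    (hni : ∃ τ ∈ S, NonInt τ) (hS : AperH S) :
    ∃ (P' : Type) (_ : Finite P') (τ : P' → H k), NonInt τ ∧ AperH {τ} := by
  set i0 : Fin k := ⟨0, hk⟩ with hi0
  have main : ∀ (n : ℕ) (P : Type) (_ : Finite P) (l : List (P → H k)), l.length = n + 1 →
      (∃ τ ∈ l, NonInt τ) → AperH {τ | τ ∈ l} →
      ∃ (P' : Type) (_ : Finite P') (τ : P' → H k), NonInt τ ∧ AperH {τ} := by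
    intro n
    induction n with
    | zero =>
      intro P hP l hl hni hS
      obtain ⟨F, rfl⟩ := List.length_eq_one_iff.1 (by simpa using hl)
      obtain ⟨τ, hτ, hτn⟩ := hni
      have hτF : τ = F := by simpa using hτ
      subst hτF
      refine ⟨P, hP, τ, hτn, ?_⟩
      have : ({σ | σ ∈ [τ]} : Set (P → H k)) = {τ} := by
        ext σ; simp
      rwa [this] at hS
    | succ n ih =>
      intro P hP l hl hni hS
      have : Fintype P := Fintype.ofFinite P
      match l, hl with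
      | F1 :: F2 :: rest, hl =>
        apply ih (P × Fin 4) inferInstance
          (comb (mg_io i0) (mg_e i0) F1 F2 :: rest.map (fun F => comb (mg_io i0) (mg_e i0) F F))
          (by simpa using hl)
        · obtain ⟨τ, hτ, hτn⟩ := hni
          rw [List.mem_cons, List.mem_cons] at hτ
          rcases hτ with rfl | rfl | hτ
          · exact ⟨comb (mg_io i0) (mg_e i0) τ F2, by simp, mg_ni i0 _ _ (Or.inl hτn)⟩
          · exact ⟨comb (mg_io i0) (mg_e i0) F1 τ, by simp, mg_ni i0 _ _ (Or.inr hτn)⟩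
          · refine ⟨comb (mg_io i0) (mg_e i0) τ τ, ?_, mg_ni i0 _ _ (Or.inl hτn)⟩
            rw [List.mem_cons, List.mem_map]
            exact Or.inr ⟨τ, hτ, rfl⟩
        · obtain ⟨⟨A, hsep, hAs⟩, hno⟩ := hS
          constructor
          · refine ⟨mg_io i0 '' A, mg_sep_image i0 hsep, ?_⟩
            intro τ hτ
            rw [mg_Iv_image]
            rw [Set.mem_ofPred_eq, List.mem_cons, List.mem_map] at hτ
            rcases hτ with rfl | ⟨F, hF, rfl⟩
            · exact solves_comb _ _ (mg_dec i0) (hAs F1 (by simp)) (hAs F2 (by simp))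
            · have : Solves (Iv A) F := hAs F (by simp [hF])
              exact solves_comb _ _ (mg_dec i0) this this
          · rintro ⟨B, hBsep, hBper, hBs⟩
            have h12 := mg_split i0 B hBsep hBper F1 F2 (hBs _ (by simp only [List.mem_cons, List.mem_map, Set.mem_ofPred_eq, true_or]))
            apply hno
            refine ⟨mg_pull i0 B, mg_sep_pull i0 hBsep F1 h12.1, mg_per_pull i0 hBper, ?_⟩
            intro τ hτ
            rw [← mg_Iv_pull]
            rw [Set.mem_ofPred_eq, List.mem_cons, List.mem_cons] at hτ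
            rcases hτ with rfl | rfl | hτ
            · exact comb_pull _ _ _ _ h12.1
            · exact comb_pull _ _ _ _ h12.2
            · apply comb_pull
              apply hBs
              rw [Set.mem_ofPred_eq, List.mem_cons, List.mem_map]
              exact Or.inr ⟨τ, hτ, rfl⟩
  have hl : ({τ | τ ∈ hfin.toFinset.toList} : Set (P → H k)) = S := by
    ext τ; simp
  have hlen : hfin.toFinset.toList.length ≠ 0 := by
    rw [Finset.length_toList]
    obtain ⟨τ, hτ, -⟩ := hni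
    have : hfin.toFinset.Nonempty := ⟨τ, by simpa using hτ⟩
    exact Finset.card_ne_zero.2 this
  obtain ⟨n, hn⟩ := Nat.exists_eq_succ_of_ne_zero hlen
  refine main n P inferInstance hfin.toFinset.toList hn ?_ (by rw [hl]; exact hS)
  obtain ⟨τ, hτ, hτn⟩ := hni
  exact ⟨τ, by simpa using hτ, hτn⟩

end Vale.Agent.P043.Hy
end
end

section

attribute [-instance] ProperSMul.toContinuousSMul IsTopologicalTorsor.toContinuousSMul IdemSemiring.toCanonicallyOrderedAdd IdemSemiring.toMulLeftMono IdemSemiring.toMulRightMono AddQuantale.instAddLeftMono AddQuantale.instAddRightMono Quantale.instMulLeftMono Quantale.instMulRightMono FiniteDimensional.rclike_to_real IsScalarTower.complexToReal FiniteDimensional.complexToReal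

section

/-!
# Robust non-existence, seed version (for the route of helper415; Z/Robust.lean can use it)

PROOF.  `robust_gen`; for `hl`: choose `a` with `a, a + 4 ∉ Z`, and `b` with `(a,b)`, `(a+4,b)` not wild
(`2 * 8T/64 < 8T`); `x := (a, b)`.  `F 6 (a, b) = F 6 (a, 0)` (direction `(0,1)`), the same for `a + 4`.  If
`4 l = 0` then `F 6 (x + (4,0)) = F 6 x`.  `e i (x + (4,0)) = e i x`, `s (x + (4,0)) = s x + 1`.  If
`e false x = e true x =: ε`: at the one of `x`, `x + (4,0)` where `s = ε` both `reg false`, `reg true` hold,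
contradiction.  Otherwise `s x = e i x` for one `i` and `s (x + (4,0)) = e (!i) x`: `reg i (F 6 x)` and
`reg (!i) (F 6 x)`, contradiction.
-/

namespace Vale.Agent.P043.Z3

open Vale.Agent.P043.B Classical

theorem robust_seed {I : Type} [Fintype I] (T : ℕ) (hT : 0 < T)
    (F : Fin 9 → ℤ × ℤ → ZMod 8) (hFd : ∀ j x, F j (x + dir j) = F j x)
    (hFT : ∀ j x (u : ℤ × ℤ), F j (x + (T : ℤ) • u) = F j x)
    (W : I → Set (ℤ × ℤ)) (v : I → ℤ × ℤ) (L P : I → ℕ) (hL : ∀ i, Odd (L i))
    (hWT : ∀ i x (u : ℤ × ℤ), x + (T : ℤ) • u ∈ W i ↔ x ∈ W i)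
    (hWL : ∀ i x, x + (L i : ℤ) • v i ∈ W i ↔ x ∈ W i)
    (hW : ∀ i x, P i * ((Finset.range (L i)).filter
      (fun k : ℕ => x + (k : ℤ) • v i ∈ W i)).card ≤ L i)
    (hP : ∀ i, 65536 * Fintype.card I ≤ P i)
    (hrel : ∀ x, (∀ i, x ∉ W i) → Rel (decide ((F 6 x).val < 4)) (fun j => F j x))
    (s : ℤ × ℤ → ZMod 2) (hs : ∀ x, s (x + (4, 0)) = s x + 1)
    (e : Bool → ℤ × ℤ → ZMod 2) (he : ∀ i x, e i (x + (1, 0)) = e i x)
    (hseed : ∀ x, (∀ i, x ∉ W i) → ∀ i : Bool, s x = e i x →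
      (if i then 4 ≤ (F 6 x).val else (F 6 x).val < 4)) : False := by
  haveI : NeZero (8 * T) := ⟨by omega⟩
  refine robust_gen T hT F hFd hFT W v L P hL hWT hWL hW hP hrel ?_
  intro l c Z hZ haff h4
  -- find a with a, a+4 ∉ Z
  obtain ⟨a, ha, ha1⟩ : ∃ a : ZMod (8 * T), a ∉ Z ∧ a + 4 ∉ Z := by
    by_contra hcon
    push Not at hcon
    have hsub : (Finset.univ : Finset (ZMod (8 * T))) ⊆ Z ∪ Z.image (fun z => z - 4) := by
      intro a _
      by_cases h : a ∈ Z
      · exact Finset.mem_union_left _ h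
      · exact Finset.mem_union_right _ (Finset.mem_image.2 ⟨a + 4, hcon a h, by ring⟩)
    have h1 := Finset.card_le_card hsub
    have h2 := Finset.card_union_le Z (Z.image (fun z => z - 4))
    have h3 : (Z.image (fun z => z - 4)).card ≤ Z.card := Finset.card_image_le
    rw [Finset.card_univ, ZMod.card] at h1
    omega
  have e0 : (((a.val : ℤ)) : ZMod (8 * T)) = a := by simp
  have e1 : (((a.val : ℤ) + 4 : ℤ) : ZMod (8 * T)) = a + 4 := by push_cast; simp
  obtain ⟨f0, g0⟩ := haff (a.val : ℤ) (by rw [e0]; exact ha)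
  obtain ⟨f1, g1⟩ := haff ((a.val : ℤ) + 4) (by rw [e1]; exact ha1)
  -- find b
  obtain ⟨b, hb0, hb1⟩ : ∃ b : ℕ, (∀ i, ((a.val : ℤ), (b : ℤ)) ∉ W i) ∧
      ∀ i, ((a.val : ℤ) + 4, (b : ℤ)) ∉ W i := by
    by_contra hcon
    push Not at hcon
    have hsub : Finset.range (8 * T) ⊆
        ((Finset.range (8 * T)).filter (fun b : ℕ => ∃ i, ((a.val : ℤ), (b : ℤ)) ∈ W i)) ∪
        ((Finset.range (8 * T)).filter (fun b : ℕ => ∃ i, ((a.val : ℤ) + 4, (b : ℤ)) ∈ W i)) := by
      intro b hb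
      by_cases h : ∀ i, ((a.val : ℤ), (b : ℤ)) ∉ W i
      · exact Finset.mem_union_right _ (Finset.mem_filter.2 ⟨hb, hcon b h⟩)
      · push Not at h
        exact Finset.mem_union_left _ (Finset.mem_filter.2 ⟨hb, h⟩)
    have h1 := Finset.card_le_card hsub
    have h2 := Finset.card_union_le
      ((Finset.range (8 * T)).filter (fun b : ℕ => ∃ i, ((a.val : ℤ), (b : ℤ)) ∈ W i))
      ((Finset.range (8 * T)).filter (fun b : ℕ => ∃ i, ((a.val : ℤ) + 4, (b : ℤ)) ∈ W i))
    rw [Finset.card_range] at h1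
    omega
  -- F 6 only depends on the first coordinate
  have hcol : ∀ (x : ℤ) (n : ℕ), F 6 (x, (n : ℤ)) = F 6 (x, 0) := by
    intro x n
    induction n with
    | zero => simp
    | succ n ih =>
      have := hFd 6 (x, (n : ℤ))
      have e : ((x, (n : ℤ)) + dir 6 : ℤ × ℤ) = (x, ((n + 1 : ℕ) : ℤ)) := by
        simp only [dir, Int.reduceNeg, Fin.isValue, Matrix.cons_val, Prod.mk_add_mk, add_zero, Nat.cast_add, Nat.cast_one]
      rw [e] at this
      rw [this, ih]
  have hF : F 6 ((a.val : ℤ) + 4, (b : ℤ)) = F 6 ((a.val : ℤ), (b : ℤ)) := by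
    rw [hcol, hcol, f0, f1]
    have : l * (((a.val : ℤ) + 4 : ℤ) : ZMod 8) = l * ((a.val : ℤ) : ZMod 8) + 4 * l := by
      push_cast; ring
    rw [this, h4, add_zero]
  have hx4 : (((a.val : ℤ), (b : ℤ)) + (4, 0) : ℤ × ℤ) = ((a.val : ℤ) + 4, (b : ℤ)) := by simp
  have hs4 := hs ((a.val : ℤ), (b : ℤ))
  rw [hx4] at hs4
  have he4 : ∀ i, e i ((a.val : ℤ) + 4, (b : ℤ)) = e i ((a.val : ℤ), (b : ℤ)) := by
    intro i
    have h1 := he i ((a.val : ℤ), (b : ℤ))
    have h2 := he i (((a.val : ℤ), (b : ℤ)) + (1, 0))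
    have h3 := he i (((a.val : ℤ), (b : ℤ)) + (1, 0) + (1, 0))
    have h5 := he i (((a.val : ℤ), (b : ℤ)) + (1, 0) + (1, 0) + (1, 0))
    have e4 : (((a.val : ℤ), (b : ℤ)) + (1, 0) + (1, 0) + (1, 0) + (1, 0) : ℤ × ℤ) =
        ((a.val : ℤ) + 4, (b : ℤ)) := by
      ext
      · simp only [ZMod.natCast_val, Prod.mk_add_mk, add_zero]; ring
      · simp
    rw [e4] at h5
    rw [h5, h3, h2, h1]
  have A0 := hseed ((a.val : ℤ), (b : ℤ)) hb0
  have A1 := hseed ((a.val : ℤ) + 4, (b : ℤ)) hb1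
  rw [hs4] at A1
  have A0t := A0 true
  have A0f := A0 false
  have A1t := A1 true
  have A1f := A1 false
  rw [he4] at A1t A1f
  rw [hF] at A1t A1f
  simp only [if_true, Bool.false_eq_true, if_false] at A0t A0f A1t A1f
  generalize s ((a.val : ℤ), (b : ℤ)) = S at *
  generalize e true ((a.val : ℤ), (b : ℤ)) = et at *
  generalize e false ((a.val : ℤ), (b : ℤ)) = ef at *
  have key : ∀ S et ef : ZMod 2, ((S = et ∨ S + 1 = et) ∧ (S = ef ∨ S + 1 = ef)) := by decide
  obtain ⟨k1, k2⟩ := key S et ef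
  have B1 : 4 ≤ (F 6 ((a.val : ℤ), (b : ℤ))).val := by
    rcases k1 with k | k
    · exact A0t k
    · exact A1t k
  have B2 : (F 6 ((a.val : ℤ), (b : ℤ))).val < 4 := by
    rcases k2 with k | k
    · exact A0f k
    · exact A1f k
  omega

end Vale.Agent.P043.Z3
end
end

section

attribute [-instance] ProperSMul.toContinuousSMul IsTopologicalTorsor.toContinuousSMul IdemSemiring.toCanonicallyOrderedAdd IdemSemiring.toMulLeftMono IdemSemiring.toMulRightMono AddQuantale.instAddLeftMono AddQuantale.instAddRightMono Quantale.instMulLeftMono Quantale.instMulRightMono FiniteDimensional.rclike_to_real IsScalarTower.complexToReal FiniteDimensional.complexToReal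

section

/-!
# Robust non-existence for the base 8 line-state system
-/

namespace Vale.Agent.P043.Z

open Vale.Agent.P043.B Classical

/-- the two regions of the first clock -/
def reg (i : Bool) (c : ZMod 8) : Prop := if i then 4 ≤ c.val else c.val < 4

/-- Robust non-existence (helper449, note 6563, with the seed hypothesis instead of `hodd`). -/
theorem robust_csp {I : Type} [Fintype I] (T : ℕ) (hT : 0 < T)
    (F : Fin 9 → ℤ × ℤ → ZMod 8) (hFd : ∀ j x, F j (x + dir j) = F j x)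
    (hFT : ∀ j x (u : ℤ × ℤ), F j (x + (T : ℤ) • u) = F j x)
    (W : I → Set (ℤ × ℤ)) (v : I → ℤ × ℤ) (L P : I → ℕ) (hL : ∀ i, Odd (L i))
    (hWT : ∀ i x (u : ℤ × ℤ), x + (T : ℤ) • u ∈ W i ↔ x ∈ W i)
    (hWL : ∀ i x, x + (L i : ℤ) • v i ∈ W i ↔ x ∈ W i)
    (hW : ∀ i x, P i * ((Finset.range (L i)).filter
      (fun k : ℕ => x + (k : ℤ) • v i ∈ W i)).card ≤ L i)
    (hP : ∀ i, 65536 * Fintype.card I ≤ P i)
    (hrel : ∀ x, (∀ i, x ∉ W i) → Rel (decide ((F 6 x).val < 4)) (fun j => F j x))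
    (s : ℤ × ℤ → ZMod 2) (hsT : ∀ x (u : ℤ × ℤ), s (x + (T : ℤ) • u) = s x)
    (hs : ∀ x, s (x + (4, 0)) = s x + 1)
    (e : Bool → ℤ × ℤ → ZMod 2) (he : ∀ i x, e i (x + (1, 0)) = e i x)
    (heT : ∀ i x (u : ℤ × ℤ), e i (x + (T : ℤ) • u) = e i x)
    (hseed : ∀ x, (∀ i, x ∉ W i) → ∀ i : Bool, s x = e i x → reg i (F 6 x)) : False :=
  Vale.Agent.P043.Z3.robust_seed T hT F hFd hFT W v L P hL hWT hWL hW hP hrel s hs e he
    (fun x hx i hi => hseed x hx i hi)

end Vale.Agent.P043.Z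
end
end

section

attribute [-instance] ProperSMul.toContinuousSMul IsTopologicalTorsor.toContinuousSMul IdemSemiring.toCanonicallyOrderedAdd IdemSemiring.toMulLeftMono IdemSemiring.toMulRightMono AddQuantale.instAddLeftMono AddQuantale.instAddRightMono Quantale.instMulLeftMono Quantale.instMulRightMono FiniteDimensional.rclike_to_real IsScalarTower.complexToReal FiniteDimensional.complexToReal

section

/-!
# Assembly: definitions
-/

namespace Vale.Agent.P043.Z

open Vale.Agent.P043 Vale.Agent.P043.B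

/-- bits -/
noncomputable def enc : ZMod 8 ≃ (Fin 3 → Bool) :=
  Fintype.equivOfCardEq (by rw [ZMod.card]; decide)

/-- bit indices -/
abbrev Bt := Fin 9 × Fin 3

/-- block indices -/
abbrev II := Option Bt

/-- directions -/
def gdir : II → ℤ × ℤ
  | none => (1, 0)
  | some n => dir n.1

/-- position along a line: a linear form with value `1` on the direction -/
def gpos : II → ℤ × ℤ → ℤ
  | none, x => x.1
  | some n, x => ![x.2, x.1, x.1, -x.2, x.1, -x.2, x.2, x.1, x.1] n.1

/-- A system of blocks with all the properties used below. -/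
structure Good (B : II → Blk) : Prop where
  bit : ∀ n : Bt, (B (some n)).IsBit
  seed : ∃ pr, (B none).IsSeed pr
  big : ∀ n i, 65536 * 56 ≤ (B n).P i
  odd : ∀ n i, Odd ((B n).P i)
  mm : ∀ n n', n ≠ n' → Nat.Coprime (B n).m (B n').m
  mP : ∀ n n' i, Nat.Coprime (B n).m ((B n').P i)
  PP : ∀ n n' i i', (n, i) ≠ (n', i') → Nat.Coprime ((B n).P i) ((B n').P i')

/-- decoded values of a bit assignment -/
noncomputable def decF (a : Bt → Bool) : Fin 9 → ZMod 8 := fun j => enc.symm fun b => a (j, b)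

/-- clause excluding the assignment `a` -/
def cl0 (a : Bt → Bool) : Clause II where
  r := 26
  c := fun i => some (finProdFinEquiv.symm i)
  l := fun i => a (finProdFinEquiv.symm i)
  inj := by
    intro i j h
    simpa using h

/-- clause excluding the assignment `a` where the seed is not neutral in coordinate `i` -/
def cl1 (i : Bool) (a : Bt → Bool) : Clause II where
  r := 27
  c := fun k => if h : (k : ℕ) < 27 then some (finProdFinEquiv.symm (⟨k, h⟩ : Fin (9 * 3))) else none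
  l := fun k => if h : (k : ℕ) < 27 then a (finProdFinEquiv.symm (⟨k, h⟩ : Fin (9 * 3))) else i
  inj := by
    intro k k' h
    by_cases h1 : (k : ℕ) < 27 <;> by_cases h2 : (k' : ℕ) < 27
    · simp only [h1, h2, dif_pos, Option.some.injEq, EmbeddingLike.apply_eq_iff_eq,
        Fin.mk.injEq] at h
      exact Fin.ext h
    · simp [h1, h2] at h
    · simp [h1, h2] at h
    · ext; omega

/-- the clauses -/
def Cls : Set (Clause II) :=
  (cl0 '' {a | ¬ Rel (decide ((decF a 6).val < 4)) (decF a)}) ∪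
    {k | ∃ i a, ¬ reg i (decF a 6) ∧ k = cl1 i a}

end Vale.Agent.P043.Z
end
end

section

attribute [-instance] ProperSMul.toContinuousSMul IsTopologicalTorsor.toContinuousSMul IdemSemiring.toCanonicallyOrderedAdd IdemSemiring.toMulLeftMono IdemSemiring.toMulRightMono AddQuantale.instAddLeftMono AddQuantale.instAddRightMono Quantale.instMulLeftMono Quantale.instMulRightMono FiniteDimensional.rclike_to_real IsScalarTower.complexToReal FiniteDimensional.complexToReal

section

/-!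
# Positions and finiteness of the clauses
-/

namespace Vale.Agent.P043.Z

open Vale.Agent.P043 Vale.Agent.P043.B

theorem gpos_dir (n : II) (x : ℤ × ℤ) (ξ : ℤ) : gpos n (x + ξ • gdir n) = gpos n x + ξ := by
  obtain ⟨x1, x2⟩ := x
  rcases n with _ | ⟨j, b⟩
  · simp only [gpos, gdir, Prod.smul_mk, Int.zsmul_eq_mul, mul_one, mul_zero, Prod.mk_add_mk, add_zero]
  · fin_cases j <;> simp [gpos, gdir, dir] <;> ring

theorem gpos_add (n : II) (x y : ℤ × ℤ) : gpos n (x + y) = gpos n x + gpos n y := by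
  obtain ⟨x1, x2⟩ := x
  obtain ⟨y1, y2⟩ := y
  rcases n with _ | ⟨j, b⟩
  · simp [gpos]
  · fin_cases j <;> simp [gpos] <;> ring

theorem Cls_finite : Cls.Finite := by
  refine Set.Finite.union (Set.Finite.image _ (Set.toFinite _)) ?_
  refine (Set.finite_range (fun p : Bool × (Bt → Bool) => cl1 p.1 p.2)).subset ?_
  rintro k ⟨i, a, -, rfl⟩
  exact ⟨(i, a), rfl⟩

end Vale.Agent.P043.Z
end
end

section

section

/-!
# From periodic tilings of the Euclidean space to periodic solutions of the hybrid system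
-/

namespace Vale.Agent.P043.Hy

open Vale.Agent.P043 Vale.Agent.P043.Eu MeasureTheory
open Classical

theorem fn_toR_add {k : ℕ} (g h : H k) : toR (g + h) = toR g + toR h := by
  funext i
  refine Fin.cases ?_ (fun j => ?_) i
  · simp [toR]
  · simp only [toR, Prod.snd_add, Prod.fst_add, Fin.cons_succ, iv, Pi.add_apply, Int.cast_add]

theorem fn_toR_zero {k : ℕ} (g : H k) : toR g 0 = g.2 := by simp [toR]

theorem fn_toR_succ {k : ℕ} (g : H k) (j : Fin k) : toR g j.succ = (g.1 j : ℝ) := by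
  simp [toR, iv]

theorem fn_tail_toR {k : ℕ} (g : H k) : Fin.tail (toR g) = iv g.1 := by simp [toR]

theorem fn_tail_add {k : ℕ} (x y : Fin (k + 1) → ℝ) :
    Fin.tail (x + y) = Fin.tail x + Fin.tail y := rfl

theorem fn_tail_sub {k : ℕ} (x y : Fin (k + 1) → ℝ) :
    Fin.tail (x - y) = Fin.tail x - Fin.tail y := rfl

theorem fn_toR_inj {k : ℕ} {g h : H k} (e : toR g = toR h) : g = h := by
  refine Prod.ext ?_ ?_
  · funext j
    have := congrFun e j.succ
    rw [fn_toR_succ, fn_toR_succ] at this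
    exact_mod_cast this
  · have := congrFun e 0
    rwa [fn_toR_zero, fn_toR_zero] at this

/-- positive overlap of close translates of the cell -/
theorem fn_over {k : ℕ} (hk : 2 ≤ k) (y y' : Fin (k + 1) → ℝ) (hyy : ∀ i, |y i - y' i| < 1) :
    volume ({x | x - y ∈ Cell k} ∩ {x | x - y' ∈ Cell k}) ≠ 0 := by
  have h1 := Cell_overlap hk (y' - y) (fun i => by
    have := hyy i
    rw [abs_sub_comm] at this
    simpa only [Pi.sub_apply, gt_iff_lt] using this)
  rw [← vol_shift _ y] at h1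
  refine ne_of_gt (h1.trans_le (measure_mono ?_))
  rintro x ⟨hx1, hx2⟩
  refine ⟨hx1, ?_⟩
  have e : x - y - (y' - y) = x - y' := by abel
  rw [e] at hx2
  exact hx2

theorem pcs_sep {k : ℕ} (hk : 2 ≤ k) {P : Type} [Finite P] {τ : P → H k}
    (hτ : ∀ p q, p ≠ q → ∃ i, 1 ≤ |toR (τ p) i - toR (τ q) i|)
    {A : Set (Fin (k + 1) → ℝ)} (hA : TilesAE (Tile τ) A) :
    Sep (Pcs τ A) ∧ TilesAE (Cell k) (Pcs τ A) ∧
      (∀ a ∈ A, ∀ a' ∈ A, ∀ p p', a + toR (τ p) = a' + toR (τ p') → a = a' ∧ p = p') := by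
  obtain ⟨hcov, hdisj⟩ := hA
  have hsub : ∀ a p, {x | x - (a + toR (τ p)) ∈ Cell k} ⊆ {x | x - a ∈ Tile τ} := by
    intro a p x hx
    refine ⟨p, ?_⟩
    rw [sub_sub]
    exact hx
  refine ⟨?_, ⟨?_, ?_⟩, ?_⟩
  · rintro y ⟨a, ha, p, rfl⟩ y' ⟨a', ha', p', rfl⟩ hne
    by_contra hcon
    push Not at hcon
    by_cases haa : a = a'
    · subst haa
      have hpp : p ≠ p' := by
        rintro rfl
        exact hne rfl
      obtain ⟨i, hi⟩ := hτ p p' hpp
      have := hcon i
      simp only [Pi.add_apply, add_sub_add_left_eq_sub] at this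
      linarith only [hi, this]
    · exact fn_over hk _ _ hcon
        (measure_mono_null (Set.inter_subset_inter (hsub a p) (hsub a' p'))
          (hdisj a ha a' ha' haa))
  · refine measure_mono_null ?_ hcov
    apply Set.compl_subset_compl.2
    intro x hx
    rw [Set.mem_iUnion₂] at hx ⊢
    obtain ⟨a, ha, p, hp⟩ := hx
    refine ⟨a + toR (τ p), ⟨a, ha, p, rfl⟩, ?_⟩
    rw [sub_sub] at hp
    exact hp
  · rintro y ⟨a, ha, p, rfl⟩ y' ⟨a', ha', p', rfl⟩ hne
    by_cases haa : a = a'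
    · subst haa
      have : ({x | x - (a + toR (τ p)) ∈ Cell k} ∩ {x | x - (a + toR (τ p')) ∈ Cell k} :
          Set (Fin (k + 1) → ℝ)) = ∅ := by
        rw [Set.eq_empty_iff_forall_notMem]
        rintro x ⟨⟨h1, h1'⟩, ⟨h2, h2'⟩⟩
        have hpp : p ≠ p' := by
          rintro rfl
          exact hne rfl
        rw [fn_tail_sub, fn_tail_add, fn_tail_toR, ← sub_sub] at h1' h2'
        have e := Rg_unique h1' h2'
        simp only [Pi.sub_apply, Pi.add_apply, fn_toR_zero] at h1 h2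
        obtain ⟨i, hi⟩ := hτ p p' hpp
        revert hi
        refine Fin.cases ?_ (fun j => ?_) i
        · intro hi
          rw [fn_toR_zero, fn_toR_zero] at hi
          have : |(τ p).2 - (τ p').2| < 1 := by
            rw [abs_lt]
            constructor <;> linarith only [h1, h2]
          linarith only [hi, this]
        · intro hi
          rw [fn_toR_succ, fn_toR_succ, e] at hi
          simp only [sub_self, abs_zero] at hi
          linarith only [hi]
      rw [this]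
      simp
    · exact measure_mono_null (Set.inter_subset_inter (hsub a p) (hsub a' p'))
        (hdisj a ha a' ha' haa)
  · intro a ha a' ha' p p' e
    have haa : a = a' := by
      by_contra hne
      refine fn_over hk (a + toR (τ p)) (a' + toR (τ p')) ?_ (measure_mono_null
        (Set.inter_subset_inter (hsub a p) (hsub a' p')) (hdisj a ha a' ha' hne))
      intro i
      rw [e]
      simp only [Pi.add_apply, sub_self, abs_zero, zero_lt_one]
    refine ⟨haa, ?_⟩
    by_contra hpp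
    obtain ⟨i, hi⟩ := hτ p p' hpp
    subst haa
    rw [add_left_cancel e] at hi
    simp only [sub_self, abs_zero] at hi
    linarith only [hi]

theorem solves_of_tiles {k : ℕ} (hk : 2 ≤ k) {P : Type} [Finite P] {τ : P → H k}
    (hni : NonInt τ)
    (hτ : ∀ p q, p ≠ q → ∃ i, 1 ≤ |toR (τ p) i - toR (τ q) i|)
    {A : Set (Fin (k + 1) → ℝ)} (hA : TilesAE (Tile τ) A) (hper : LatticePeriodic A) :
    ∃ A' : Set (H k), SepV A' ∧ PerH A' ∧ Solves (Iv A') τ := by
  obtain ⟨hsepB, htileB, hdec⟩ := pcs_sep hk hτ hA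
  obtain ⟨b, hb⟩ := hper
  obtain ⟨p0, q0, hpq⟩ := hni
  have hperB : ∀ i, ∀ y, b i + y ∈ Pcs τ A ↔ y ∈ Pcs τ A := by
    intro i y
    constructor
    · rintro ⟨a, ha, p, h⟩
      refine ⟨-b i + a, ?_, p, ?_⟩
      · rw [← hb i]; simpa only [add_neg_cancel_left] using ha
      · rw [add_assoc, ← h]; simp
    · rintro ⟨a, ha, p, rfl⟩
      exact ⟨b i + a, (hb i a).2 ha, p, by rw [add_assoc]⟩
  have hE := everyH (Pcs τ A) hsepB (countH (Pcs τ A) hsepB b hperB htileB)
  obtain ⟨a0, ha0⟩ : A.Nonempty := by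
    obtain ⟨a, ⟨a0, ha0, -⟩, -⟩ := (hE 0).1
    exact ⟨a0, ha0⟩
  have hmem : ∀ p, a0 + toR (τ p) ∈ Pcs τ A := fun p => ⟨a0, ha0, p, rfl⟩
  have hcl := one_class (Pcs τ A) hsepB (fun x => (hE x).1)
    (slice_coset (Pcs τ A) hsepB (fun x => (hE x).2))
    ⟨_, hmem p0, _, hmem q0, by
      intro m hm
      simp only [Pi.add_apply, fn_toR_zero, add_sub_add_left_eq_sub] at hm
      exact hpq m hm⟩
  -- all tails are congruent to the tail of `a0`
  have hcl0 : ∀ c ∈ Pcs τ A, ∃ n : Fin k → ℤ, Fin.tail c = Fin.tail a0 + iv n := by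
    intro c hc
    obtain ⟨n, hn⟩ := hcl _ (hmem p0) c hc
    refine ⟨(τ p0).1 + n, ?_⟩
    rw [hn, fn_tail_add, fn_tail_toR, iv_add, add_assoc]
  have hclA : ∀ a ∈ A, ∃ n : Fin k → ℤ, Fin.tail a = Fin.tail a0 + iv n := by
    intro a ha
    obtain ⟨n, hn⟩ := hcl0 (a + toR (τ p0)) ⟨a, ha, p0, rfl⟩
    refine ⟨n - (τ p0).1, ?_⟩
    rw [fn_tail_add, fn_tail_toR] at hn
    rw [iv_sub, ← add_sub_assoc, ← hn]
    simp
  refine ⟨{g : H k | a0 + toR g ∈ A}, ?_, ?_, ?_⟩
  · -- separation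
    intro g hg g' hg' h1 h2 h3
    have hc : ∀ i, |(a0 + toR g + toR (τ p0)) i - (a0 + toR g' + toR (τ p0)) i| < 1 := by
      intro i
      refine Fin.cases ?_ (fun j => ?_) i
      · simp only [Pi.add_apply, fn_toR_zero]
        rw [abs_lt]
        constructor <;> linarith only [h2, h3]
      · simp only [Pi.add_apply, fn_toR_succ, h1]
        simp only [sub_self, abs_zero, zero_lt_one]
    by_contra hne
    have hne' : a0 + toR g + toR (τ p0) ≠ a0 + toR g' + toR (τ p0) := by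
      intro e
      exact hne (fn_toR_inj (add_left_cancel (add_right_cancel e)))
    obtain ⟨i, hi⟩ := hsepB _ ⟨_, hg, p0, rfl⟩ _ ⟨_, hg', p0, rfl⟩ hne'
    linarith only [hi, hc i]
  · -- periods
    have hz : ∀ i, ∃ v : H k, b i = toR v := by
      intro i
      obtain ⟨n, hn⟩ := hclA (b i + a0) ((hb i a0).2 ha0)
      refine ⟨(n, b i 0), ?_⟩
      funext t
      refine Fin.cases ?_ (fun j => ?_) t
      · rw [fn_toR_zero]
      · have h1 := congrFun hn j
        simp only [Fin.tail, Pi.add_apply] at h1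
        rw [fn_toR_succ]
        change b i j.succ = iv n j
        linarith only [h1]
    choose v hv using hz
    refine ⟨v, ?_, ?_⟩
    · have : (fun i => toR (v i)) = b := by
        funext i
        rw [hv i]
      rw [this]
      exact b.linearIndependent
    · intro i a
      change a0 + toR (v i + a) ∈ A ↔ a0 + toR a ∈ A
      rw [fn_toR_add, ← hv i, ← hb i (a0 + toR a)]
      have e : a0 + (b i + toR a) = b i + (a0 + toR a) := by abel
      rw [e]
  · -- solution
    intro g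
    apply existsUnique_of_exists_of_unique
    · obtain ⟨c, ⟨a, ha, p, rfl⟩, hx⟩ := (hE (a0 + toR g)).1
      obtain ⟨n, hn⟩ := hclA a ha
      have hng : g.1 - (τ p).1 = n := by
        funext j
        have h1 := hx j.succ
        have h2 := congrFun hn j
        simp only [Fin.tail, Pi.add_apply] at h2
        simp only [Pi.sub_apply, Pi.add_apply, fn_toR_succ, h2, iv] at h1
        have h3 : (-1 : ℝ) < ((g.1 j - (τ p).1 j - n j : ℤ) : ℝ) := by
          push_cast
          linarith only [h1]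
        have h4 : ((g.1 j - (τ p).1 j - n j : ℤ) : ℝ) < 1 := by
          push_cast
          linarith only [h1]
        have h3' : -1 < g.1 j - (τ p).1 j - n j := by exact_mod_cast h3
        have h4' : g.1 j - (τ p).1 j - n j < 1 := by exact_mod_cast h4
        simp only [Pi.sub_apply]
        omega
      have h0 := hx 0
      simp only [Pi.sub_apply, Pi.add_apply, fn_toR_zero] at h0
      refine ⟨p, (n, a 0 - a0 0), ?_, ?_, ?_, ?_⟩
      · change a0 + toR (n, a 0 - a0 0) ∈ A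
        have e : a0 + toR (n, a 0 - a0 0) = a := by
          funext t
          refine Fin.cases ?_ (fun j => ?_) t
          · simp only [Pi.add_apply, fn_toR_zero]
            ring
          · have h2 := congrFun hn j
            simp only [Fin.tail, Pi.add_apply] at h2
            simp only [Pi.add_apply, fn_toR_succ, h2, iv]
        rw [e]
        exact ha
      · exact hng.symm
      · change a 0 - a0 0 ≤ g.2 - (τ p).2
        linarith only [h0]
      · change g.2 - (τ p).2 < a 0 - a0 0 + 1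
        linarith only [h0]
    · rintro p q ⟨h, hh, h1, h2, h3⟩ ⟨h', hh', h1', h2', h3'⟩
      change h.1 = g.1 - (τ p).1 at h1
      change h.2 ≤ g.2 - (τ p).2 at h2
      change g.2 - (τ p).2 < h.2 + 1 at h3
      change h'.1 = g.1 - (τ q).1 at h1'
      change h'.2 ≤ g.2 - (τ q).2 at h2'
      change g.2 - (τ q).2 < h'.2 + 1 at h3'
      have hc : ∀ i, |(a0 + toR h + toR (τ p)) i - (a0 + toR h' + toR (τ q)) i| < 1 := by
        intro i
        refine Fin.cases ?_ (fun j => ?_) i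
        · simp only [Pi.add_apply, fn_toR_zero]
          rw [abs_lt]
          constructor <;> linarith only [h2, h3', h3, h2']
        · simp only [Pi.add_apply, fn_toR_succ, h1, h1', Pi.sub_apply]
          push_cast
          rw [abs_lt]
          constructor <;> linarith only []
      have heq : a0 + toR h + toR (τ p) = a0 + toR h' + toR (τ q) := by
        by_contra hne
        obtain ⟨i, hi⟩ := hsepB _ ⟨_, hh, p, rfl⟩ _ ⟨_, hh', q, rfl⟩ hne
        linarith only [hi, hc i]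
      exact (hdec _ hh _ hh' p q heq).2

end Vale.Agent.P043.Hy
end
end

section

section

namespace Vale.Agent.P043.Eu

open MeasureTheory

theorem aper4 {d : ℕ} (hd : 4 ≤ d) :
    ∃ (P : Type) (_ : Finite P) (f : P → (Fin d → ℤ)), AperSys {f} := by
  obtain ⟨p, hp, hco⟩ := exists_moduli Ix
  obtain ⟨P, hP, S, hfin, hne, hS⟩ := block_main p hp wI AlI exists_dsol no_per_dsol
  have hn : ∀ κ, nn p κ ≠ 0 := by
    rintro (_ | i)
    · show (4 : ℕ) ≠ 0; norm_num
    · show p i ≠ 0; have := hp i; omega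
  obtain ⟨φ, hφ, hker⟩ := exists_surj hd (nn p) hn hco
  obtain ⟨S', hfin', hne', hS'⟩ := lift_system φ hφ hker S hfin hne hS
  obtain ⟨ι, e, hdec⟩ := exists_dec (d := d) (by omega)
  exact single_of_system ι e hdec S' hfin' hne' hS'

theorem euclid4 {d : ℕ} (hd : 4 ≤ d) :
    ∃ Om : Set (Fin d → ℝ), Bornology.IsBounded Om ∧ MeasurableSet Om ∧ 0 < volume Om ∧
      (∃ A, TilesAE Om A) ∧ ∀ A, TilesAE Om A → ¬ LatticePeriodic A :=
  euclid_of_discrete (by omega) (aper4 hd)

end Vale.Agent.P043.Eu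
end
end

section

section

/-!
# A bounded measurable set in `ℝ³` which tiles only aperiodically
-/

namespace Vale.Agent.P043.Hy

open Vale.Agent.P043 Vale.Agent.P043.Eu MeasureTheory

theorem euclid_of_hybrid {k : ℕ} (hk : 2 ≤ k)
    (h : ∃ (P : Type) (_ : Finite P) (τ : P → H k), NonInt τ ∧ AperH {τ}) :
    ∃ Om : Set (Fin (k + 1) → ℝ), Bornology.IsBounded Om ∧ MeasurableSet Om ∧ 0 < volume Om ∧
      (∃ A, TilesAE Om A) ∧ ∀ A, TilesAE Om A → ¬ LatticePeriodic A := by
  obtain ⟨P, hP, τ, hni', ⟨A0, hsep, hA0⟩, hno⟩ := h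
  have hA := hA0 τ rfl
  have hts : ∀ p q, p ≠ q → ∃ i, 1 ≤ |toR (τ p) i - toR (τ q) i| :=
    fun p q hpq => tile_sep hA hpq
  obtain ⟨p0, -, -⟩ := id hni'
  have hU : Tile τ = ⋃ p, {x | x - toR (τ p) ∈ Cell k} := by
    ext x; simp only [Tile, Set.mem_ofPred_eq, Set.mem_iUnion]
  refine ⟨Tile τ, ?_, ?_, ?_, ⟨_, tiles_of_solves hsep hA⟩, ?_⟩
  · rw [hU, Bornology.isBounded_iUnion]
    intro p
    have h1 := (Cell_bounded (k := k)).add (Bornology.isBounded_singleton (x := toR (τ p)))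
    refine h1.subset ?_
    intro x hx
    exact ⟨x - toR (τ p), hx, toR (τ p), rfl, by simp⟩
  · rw [hU]
    refine MeasurableSet.iUnion fun p => ?_
    exact (measurable_id.sub_const (toR (τ p))) Cell_measurable
  · have h1 : 0 < volume {x | x - toR (τ p0) ∈ Cell k} := by
      rw [vol_shift]
      have h := Cell_overlap hk 0 (by simp only [Pi.zero_apply, abs_zero, zero_lt_one, implies_true])
      refine h.trans_le (measure_mono ?_)
      intro x hx
      exact hx.1
    refine h1.trans_le (measure_mono ?_)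
    intro x hx
    exact ⟨p0, hx⟩
  · intro A hA' hper
    obtain ⟨A', h1, h2, h3⟩ := solves_of_tiles hk hni' hts hA' hper
    exact hno ⟨A', h1, h2, by rintro _ rfl; exact h3⟩

theorem euclid3 : ∃ Om : Set (Fin 3 → ℝ), Bornology.IsBounded Om ∧ MeasurableSet Om ∧
    0 < volume Om ∧ (∃ A, TilesAE Om A) ∧ ∀ A, TilesAE Om A → ¬ LatticePeriodic A := by
  refine euclid_of_hybrid (k := 2) le_rfl (merge (by norm_num) (Sys (Real.sqrt 2)) ?_ ?_ ?_)
  · unfold Sys; exact Set.toFinite _
  · exact ⟨Om (Real.sqrt 2), by simp only [Sys, Set.mem_insert_iff, Set.mem_singleton_iff, or_true], nonInt_Om irrational_sqrt_two⟩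
  · exact ⟨sys_exists _, sys_no_per _ irrational_sqrt_two⟩

end Vale.Agent.P043.Hy
end
end

section

section

/-!
# Existence of a good system of blocks
-/

namespace Vale.Agent.P043.Z

open Vale.Agent.P043 Vale.Agent.P043.B

private theorem mgood_coprime {a b : ℕ} (h : a ≠ b) :
    Nat.Coprime (Nat.nth Nat.Prime a) (Nat.nth Nat.Prime b) :=
  (Nat.coprime_primes (Nat.prime_nth_prime a) (Nat.prime_nth_prime b)).2
    fun h1 => h ((Nat.nth_strictMono Nat.infinite_setOfPred_prime).injective h1)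

private theorem mgood_two_lt {a : ℕ} (h : 1 ≤ a) : 3 ≤ Nat.nth Nat.Prime a := by
  have h1 := Nat.add_two_le_nth_prime a
  omega

private theorem mgood_four {a : ℕ} (h : 1 ≤ a) : Nat.Coprime 4 (Nat.nth Nat.Prime a) := by
  have h1 : Nat.Coprime 2 (Nat.nth Nat.Prime a) :=
    (Nat.coprime_primes Nat.prime_two (Nat.prime_nth_prime a)).2
      (by have := mgood_two_lt h; omega)
  exact Nat.Coprime.pow_left 2 h1

theorem exists_good : ∃ B : II → Blk, Good B := by
  -- the moduli
  obtain ⟨M, hM⟩ : ∃ M : ℕ, ∀ k < 28, Nat.nth Nat.Prime k ≤ M :=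
    ⟨Nat.nth Nat.Prime 28, fun k hk =>
      (Nat.nth_strictMono Nat.infinite_setOfPred_prime).monotone hk.le⟩
  let im : Bt → ℕ := fun n => 1 + (finProdFinEquiv n : Fin (9 * 3)).val
  have him : ∀ n n', im n = im n' → n = n' := by
    intro n n' h
    have h1 : (finProdFinEquiv n : Fin (9 * 3)).val = (finProdFinEquiv n' : Fin (9 * 3)).val :=
      Nat.add_left_cancel h
    exact finProdFinEquiv.injective (Fin.ext h1)
  have him1 : ∀ n, 1 ≤ im n ∧ im n < 28 := fun n =>
    ⟨Nat.le_add_right _ _, by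
      have := (finProdFinEquiv n : Fin (9 * 3)).isLt
      change 1 + (finProdFinEquiv n : Fin (9 * 3)).val < 28
      omega⟩
  let m : II → ℕ := fun n => match n with
    | none => 4
    | some n => Nat.nth Nat.Prime (im n)
  obtain ⟨N, hN1, hN2, hN3, hN4⟩ : ∃ N : ℕ, 28 ≤ N ∧ 65536 * 56 ≤ N ∧ 2 ^ 9 ≤ N ∧
      ∀ k ≤ M, 2 ^ (2 * k * k + 1) ≤ N := by
    refine ⟨28 + 65536 * 56 + 2 ^ 9 + 2 ^ (2 * M * M + 1), ?_, ?_, ?_, fun k hk => ?_⟩
    · have := Nat.zero_le (2 ^ (2 * M * M + 1)); omega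
    · have := Nat.zero_le (2 ^ (2 * M * M + 1)); omega
    · have := Nat.zero_le (2 ^ (2 * M * M + 1)); omega
    · have h1 : 2 ^ (2 * k * k + 1) ≤ 2 ^ (2 * M * M + 1) :=
        Nat.pow_le_pow_right (by norm_num)
          (Nat.succ_le_succ (Nat.mul_le_mul (Nat.mul_le_mul_left 2 hk) hk))
      exact h1.trans (Nat.le_add_left _ _)
  let e : II × Bool → ℕ := fun x => N + (Fintype.equivFin (II × Bool) x).val
  have he : ∀ x y, e x = e y → x = y := by
    intro x y h
    exact (Fintype.equivFin (II × Bool)).injective (Fin.ext (Nat.add_left_cancel h))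
  have heN : ∀ x, N ≤ e x := fun x => Nat.le_add_right _ _
  let P : II → Bool → ℕ := fun n i => Nat.nth Nat.Prime (e (n, i))
  have hPN : ∀ n i, N < P n i := by
    intro n i
    have h1 := Nat.add_two_le_nth_prime (e (n, i))
    have h2 := heN (n, i)
    change N < Nat.nth Nat.Prime (e (n, i))
    omega
  have hPP : ∀ n n' i i', (n, i) ≠ (n', i') → Nat.Coprime (P n i) (P n' i') := by
    intro n n' i i' h
    exact mgood_coprime fun h1 => h (he _ _ h1)
  have hmP : ∀ n n' i, Nat.Coprime (m n) (P n' i) := by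
    intro n n' i
    have h2 := heN (n', i)
    cases n with
    | none => exact mgood_four (by omega)
    | some n =>
      refine mgood_coprime ?_
      have := (him1 n).2
      omega
  have hmm : ∀ n n', n ≠ n' → Nat.Coprime (m n) (m n') := by
    intro n n' h
    cases n with
    | none =>
      cases n' with
      | none => exact absurd rfl h
      | some n' => exact mgood_four (him1 n').1
    | some n =>
      cases n' with
      | none => exact (mgood_four (him1 n).1).symm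
      | some n' => exact mgood_coprime fun h1 => h (congrArg some (him _ _ h1))
  have hex : ∀ n : II, ∃ B : Blk, B.m = m n ∧ B.P = P n ∧
      (n = none → ∃ pr, B.IsSeed pr) ∧ (n ≠ none → B.IsBit) := by
    intro n
    cases n with
    | none =>
      obtain ⟨B, h1, h2, h3⟩ := exists_seedBlk (P none)
        (fun i => hN3.trans_lt (hPN none i)) (fun i => hmP none none i)
        (hPP none none false true (by simp))
      exact ⟨B, h1, h2, fun _ => h3, fun h => absurd rfl h⟩
    | some n =>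
      obtain ⟨B, h1, h2, h3⟩ := exists_bitBlk (m (some n)) (mgood_two_lt (him1 n).1) (P (some n))
        (fun i => (hN4 _ (hM _ (him1 n).2)).trans_lt (hPN (some n) i))
        (fun i => hmP (some n) (some n) i) (hPP (some n) (some n) false true (by simp))
      exact ⟨B, h1, h2, fun h => by simp at h, fun _ => h3⟩
  choose B hB1 hB2 hB3 hB4 using hex
  refine ⟨B, ⟨fun n => hB4 (some n) (by simp), hB3 none rfl, fun n i => ?_, fun n i => ?_,
    fun n n' h => ?_, fun n n' i => ?_, fun n n' i i' h => ?_⟩⟩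
  · rw [hB2]
    exact hN2.trans (hPN n i).le
  · rw [hB2]
    refine (Nat.prime_nth_prime _).odd_of_ne_two ?_
    have := hPN n i
    change P n i ≠ 2
    omega
  · rw [hB1, hB1]
    exact hmm n n' h
  · rw [hB1, hB2]
    exact hmP n n' i
  · rw [hB2, hB2]
    exact hPP n n' i i' h

end Vale.Agent.P043.Z
end
end

section

section

/-!
# Existence part
-/

namespace Vale.Agent.P043.Z

open Vale.Agent.P043 Vale.Agent.P043.B

/-- `octF j` is constant in the direction `dir j` -/
theorem myes_oct (j : Fin 9) (x : ℤ × ℤ) (ξ : ℤ) : octF j (x + ξ • dir j) = octF j x := by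
  obtain ⟨a, b⟩ := x
  fin_cases j
  · show oct (a + ξ * 0) = oct a
    congr 1
    ring
  · show oct (b + ξ * 0) = oct b
    congr 1
    ring
  · show oct ((a + ξ * 1) + (b + ξ * (-1))) = oct (a + b)
    congr 1
    ring
  · show oct ((a + ξ * 8) + 8 * (b + ξ * (-1))) = oct (a + 8 * b)
    congr 1
    ring
  · show oct ((b + ξ * (-8)) + 8 * (a + ξ * 1)) = oct (b + 8 * a)
    congr 1
    ring
  · show oct ((a + ξ * 9) + 9 * (b + ξ * (-1))) = oct (a + 9 * b)
    congr 1
    ring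
  · show ((a + ξ * 0 : ℤ) : ZMod 8) = (a : ZMod 8)
    congr 1
    ring
  · show ((b + ξ * 0 : ℤ) : ZMod 8) = (b : ZMod 8)
    congr 1
    ring
  · show (((a + ξ * 1) + (b + ξ * (-1)) : ℤ) : ZMod 8) = ((a + b : ℤ) : ZMod 8)
    congr 1
    ring

/-- the relation holds for `octF` -/
theorem myes_rel (x : ℤ × ℤ) : Rel (decide ((octF 6 x).val < 4)) (fun j => octF j x) := by
  obtain ⟨a, b⟩ := x
  obtain ⟨h1, h2, h3, h4⟩ := quad a b
  refine ⟨?_, rfl, ?_, ?_, ?_, ?_, ?_, ?_, ?_, h1, h2, h3, h4⟩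
  · show ((a + b : ℤ) : ZMod 8) = (a : ZMod 8) + (b : ZMod 8)
    push_cast
    rfl
  · intro j hj
    fin_cases j
    · exact oct_ne_zero _
    · exact oct_ne_zero _
    · exact oct_ne_zero _
    · exact oct_ne_zero _
    · exact oct_ne_zero _
    · exact oct_ne_zero _
    · exact absurd hj (by decide)
    · exact absurd hj (by decide)
    · exact absurd hj (by decide)
  · intro h
    have h' : ¬ (8:ℤ) ∣ a := fun h0 => h (cast_eq_zero.2 h0)
    exact oct_of_not h'
  · intro h
    have h' : ¬ (8:ℤ) ∣ a := fun h0 => h (cast_eq_zero.2 h0)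
    show oct (a + 8 * b) = (a : ZMod 8)
    rw [oct_of_not (by omega)]
    push_cast
    have : (8 : ZMod 8) = 0 := by decide
    rw [this, zero_mul, add_zero]
  · intro h
    have h' : ¬ (8:ℤ) ∣ b := fun h0 => h (cast_eq_zero.2 h0)
    exact oct_of_not h'
  · intro h
    have h' : ¬ (8:ℤ) ∣ b := fun h0 => h (cast_eq_zero.2 h0)
    show oct (b + 8 * a) = (b : ZMod 8)
    rw [oct_of_not (by (clear * - h'; omega))]
    push_cast
    have : (8 : ZMod 8) = 0 := by decide
    rw [this, zero_mul, add_zero]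
  · intro h
    have h' : ¬ (8:ℤ) ∣ a + b := fun h0 => h (cast_eq_zero.2 h0)
    exact oct_of_not h'
  · intro h
    have h' : ¬ (8:ℤ) ∣ a + b := fun h0 => h (cast_eq_zero.2 h0)
    show oct (a + 9 * b) = ((a + b : ℤ) : ZMod 8)
    rw [oct_of_not (by (clear * - h'; omega))]
    push_cast
    have : (9 : ZMod 8) = 1 := by decide
    rw [this, one_mul]

/-- translation of a solution on a line -/
theorem myes_solves {m : ℕ} {P : Bool → ℕ} {V : ℤ → KK m P} {t : KK m P → ℤ × KK m P}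
    (h : Solves (Gr V) t) (c : ℤ) : Solves (Gr fun ξ : ℤ => V (c + ξ)) t := by
  intro g
  obtain ⟨p, hp, hu⟩ := h (g.1 + c, g.2)
  have key : ∀ q, g - t q ∈ Gr (fun ξ : ℤ => V (c + ξ)) ↔ (g.1 + c, g.2) - t q ∈ Gr V := by
    intro q
    change g.2 - (t q).2 = V (c + (g.1 - (t q).1)) ↔ g.2 - (t q).2 = V (g.1 + c - (t q).1)
    rw [show c + (g.1 - (t q).1) = g.1 + c - (t q).1 by ring]
  exact ⟨p, (key p).2 hp, fun q hq => hu q ((key q).1 hq)⟩

/-- a bit which differs from the true bit -/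
theorem myes_bit (a : Bt → Bool) (x : ℤ × ℤ)
    (h : ∀ n : Bt, a n = enc (octF n.1 x) n.2) : decF a = fun j => octF j x := by
  funext j
  change enc.symm (fun b => a (j, b)) = octF j x
  rw [Equiv.symm_apply_eq]
  funext b
  exact h (j, b)

/-- the seed is neutral where it has to be -/
theorem myes_reg (i : Bool) (z : ℤ) (h : ¬ reg i ((z : ℤ) : ZMod 8)) :
    (z / 4) % 2 ≠ (if i then 1 else 0) := by
  have h1 : ((((z : ℤ) : ZMod 8).val : ℕ) : ℤ) = z % 8 := by
    have h2 := ZMod.val_intCast (n := 8) z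
    exact_mod_cast h2
  cases i
  · simp only [reg, Bool.false_eq_true, if_false] at h ⊢
    omega
  · simp only [reg, if_true] at h ⊢
    omega

/-- existence part -/
theorem fam_yes (B : II → Blk) (hB : Good B) :
    ∃ A : Set ((ℤ × ℤ) × GF B), ∀ t ∈ GFam B gdir Cls, Solves A t := by
  have hbit : ∀ (n : Bt) (st : Bool), ∃ W : ℤ → KK (B (some n)).m (B (some n)).P,
      (∀ t ∈ (B (some n)).T, Solves (Gr W) t) ∧
      (∀ ξ, W (ξ + (B (some n)).m * (B (some n)).θ) = W ξ) ∧
      ∀ ξ, Neu (B (some n)).θ W (!st) ξ := fun n st => (hB.bit n).2 st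
  choose Wb hWb1 hWb2 hWb3 using hbit
  obtain ⟨pr, -, Ws, hWs1, hWs2, hWs3⟩ := hB.seed
  let W : (n : II) → ℤ × ℤ → KK (B n).m (B n).P := fun n =>
    match n with
    | none => fun x => Ws (gpos none x)
    | some n => fun x => Wb n (enc (octF n.1 x) n.2) (gpos (some n) x)
  have hWn : ∀ x ξ, W none (x + ξ • gdir none) = Ws (gpos none x + ξ) := by
    intro x ξ
    change Ws (gpos none (x + ξ • gdir none)) = _
    rw [gpos_dir]
  have hWs : ∀ (n : Bt) x ξ, W (some n) (x + ξ • gdir (some n)) =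
      Wb n (enc (octF n.1 x) n.2) (gpos (some n) x + ξ) := by
    intro n x ξ
    change Wb n (enc (octF n.1 (x + ξ • dir n.1)) n.2) (gpos (some n) (x + ξ • gdir (some n))) = _
    rw [gpos_dir, myes_oct]
  -- neutrality of the bit blocks
  have hneu : ∀ (n : Bt) (x : ℤ × ℤ) (s : Bool), s ≠ enc (octF n.1 x) n.2 →
      gNeu B gdir W (some n) s x := by
    intro n x s hs c
    have h1 : s = !(enc (octF n.1 x) n.2) := by
      revert hs
      cases s <;> cases enc (octF n.1 x) n.2 <;> decide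
    have h2 := hWb3 n (enc (octF n.1 x) n.2) (gpos (some n) x) c
    rw [← h1] at h2
    have h3 := hWs n x (-((c : ℤ) * (B (some n)).θ))
    rw [neg_smul, ← sub_eq_add_neg, ← sub_eq_add_neg] at h3
    rw [h3]
    exact h2
  have hneu0 : ∀ (x : ℤ × ℤ) (i : Bool), (x.1 / 4) % 2 ≠ (if i then 1 else 0) →
      gNeu B gdir W none i x := by
    intro x i hi c
    have h2 := hWs3 i (gpos none x) hi c
    have h3 := hWn x (-((c : ℤ) * (B none).θ))
    rw [neg_smul, ← sub_eq_add_neg, ← sub_eq_add_neg] at h3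
    rw [h3]
    exact h2
  refine global_yes B gdir Cls W ?_ ?_ ?_
  · rintro (_ | n) t ht x
    · simp only [hWn]
      exact myes_solves (hWs1 t ht) _
    · simp only [hWs]
      exact myes_solves (hWb1 n _ t ht) _
  · rintro (_ | n) x
    · exact (hWn x _).trans (hWs2 _)
    · exact (hWs n x _).trans (hWb2 _ _ _)
  · rintro k (⟨a, ha, rfl⟩ | ⟨i, a, ha, rfl⟩) x
    · have h1 : ∃ n : Bt, a n ≠ enc (octF n.1 x) n.2 := by
        by_contra hcon
        push Not at hcon
        apply ha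
        rw [myes_bit a x hcon]
        exact myes_rel x
      obtain ⟨n, hn⟩ := h1
      refine ⟨finProdFinEquiv n, ?_⟩
      have h2 : (cl0 a).c (finProdFinEquiv n) = some n := by
        change some (finProdFinEquiv.symm (finProdFinEquiv n)) = some n
        rw [Equiv.symm_apply_apply]
      have h3 : (cl0 a).l (finProdFinEquiv n) = a n := by
        change a (finProdFinEquiv.symm (finProdFinEquiv n)) = a n
        rw [Equiv.symm_apply_apply]
      rw [h2, h3]
      exact hneu n x _ hn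
    · by_cases h1 : ∃ n : Bt, a n ≠ enc (octF n.1 x) n.2
      · obtain ⟨n, hn⟩ := h1
        have hlt : (finProdFinEquiv n : ℕ) < 27 := (finProdFinEquiv n : Fin (9 * 3)).2
        refine ⟨⟨(finProdFinEquiv n : Fin (9 * 3)), by change _ < 27 + 1; omega⟩, ?_⟩
        have h2 : (cl1 i a).c ⟨(finProdFinEquiv n : Fin (9 * 3)), by change _ < 27 + 1; omega⟩ =
            some n := by
          change (if h : ((finProdFinEquiv n : Fin (9 * 3)) : ℕ) < 27 then
            some (finProdFinEquiv.symm (⟨_, h⟩ : Fin (9 * 3))) else none) = some n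
          rw [dif_pos hlt, Fin.eta, Equiv.symm_apply_apply]
        have h3 : (cl1 i a).l ⟨(finProdFinEquiv n : Fin (9 * 3)), by change _ < 27 + 1; omega⟩ =
            a n := by
          change (if h : ((finProdFinEquiv n : Fin (9 * 3)) : ℕ) < 27 then
            a (finProdFinEquiv.symm (⟨_, h⟩ : Fin (9 * 3))) else i) = a n
          rw [dif_pos hlt, Fin.eta, Equiv.symm_apply_apply]
        rw [h2, h3]
        exact hneu n x _ hn
      · push Not at h1
        rw [myes_bit a x h1] at ha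
        refine ⟨Fin.last 27, ?_⟩
        exact hneu0 x i (myes_reg i x.1 ha)

end Vale.Agent.P043.Z
end
end

section

section

/-!
# Non-existence of periodic solutions
-/

namespace Vale.Agent.P043.Z

open Vale.Agent.P043 Vale.Agent.P043.B

section MNo

theorem mno_gpos_zsmul (n : II) (k : ℤ) (x : ℤ × ℤ) : gpos n (k • x) = k * gpos n x := by
  let f : ℤ × ℤ →+ ℤ := AddMonoidHom.mk' (gpos n) (gpos_add n)
  have h : f (k • x) = k • f x := map_zsmul f k x
  rw [smul_eq_mul] at h
  exact h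

/-- base point of the line through `x` -/
def mnoBase (n : II) (x : ℤ × ℤ) : ℤ × ℤ := x - gpos n x • gdir n

theorem mnoBase_dir (n : II) (x : ℤ × ℤ) (k : ℤ) : mnoBase n (x + k • gdir n) = mnoBase n x := by
  rw [mnoBase, mnoBase, gpos_dir, add_smul]
  abel

theorem mnoBase_add (n : II) (x : ℤ × ℤ) (k : ℤ) (u : ℤ × ℤ) :
    mnoBase n (x + k • u) = mnoBase n x + k • (u - gpos n u • gdir n) := by
  rw [mnoBase, mnoBase, gpos_add, mno_gpos_zsmul, add_smul, mul_smul, smul_sub]
  abel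

variable {B : II → Blk} (W : (n : II) → ℤ × ℤ → KK (B n).m (B n).P)

/-- row function of the line through `x` -/
def mnoV (n : II) (x : ℤ × ℤ) : ℤ → KK (B n).m (B n).P := fun ξ => W n (mnoBase n x + ξ • gdir n)

theorem mnoV_gpos (n : II) (x : ℤ × ℤ) (ξ : ℤ) :
    mnoV W n x (gpos n x + ξ) = W n (x + ξ • gdir n) := by
  rw [mnoV, mnoBase, add_smul]
  congr 1
  abel

theorem mnoV_gpos0 (n : II) (x : ℤ × ℤ) : mnoV W n x (gpos n x) = W n x := by
  have h := mnoV_gpos W n x 0
  rwa [add_zero, zero_smul, add_zero] at h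

theorem mnoV_dir (n : II) (x : ℤ × ℤ) (k : ℤ) : mnoV W n (x + k • gdir n) = mnoV W n x := by
  funext ξ
  rw [mnoV, mnoV, mnoBase_dir]

theorem mnoV_per {T : ℤ} (hT : ∀ n x (u : ℤ × ℤ), W n (x + T • u) = W n x) (n : II) (x u : ℤ × ℤ) :
    mnoV W n (x + T • u) = mnoV W n x := by
  funext ξ
  rw [mnoV, mnoV, mnoBase_add, add_right_comm, hT]

theorem mno_neu {n : II} {i : Bool} {x : ℤ × ℤ} (h : gNeu B gdir W n i x) :
    Neu (B n).θ (mnoV W n x) i (gpos n x) := by
  intro c
  rw [mnoV_gpos0, sub_eq_add_neg, mnoV_gpos, neg_smul, ← sub_eq_add_neg]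
  exact h c

/-- the position property -/
def mnoQ (n : II) (i : Bool) (g : ℤ) (V : ℤ → KK (B n).m (B n).P) : Prop :=
  ∀ ξ : ℤ, Neu (B n).θ V i ξ → (ξ : ZMod ((B n).P i)) = (g : ZMod ((B n).P i))

/-- the wild set -/
def mnoW (act : (n : II) → Bool → (ℤ → KK (B n).m (B n).P) → Prop)
    (gg : (n : II) → Bool → (ℤ → KK (B n).m (B n).P) → ℤ) (p : II × Bool) : Set (ℤ × ℤ) :=
  {x | act p.1 p.2 (mnoV W p.1 x) ∧
    ((gpos p.1 x : ℤ) : ZMod ((B p.1).P p.2)) =
      ((gg p.1 p.2 (mnoV W p.1 x) : ℤ) : ZMod ((B p.1).P p.2))}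

theorem mnoW_add (act : (n : II) → Bool → (ℤ → KK (B n).m (B n).P) → Prop)
    (gg : (n : II) → Bool → (ℤ → KK (B n).m (B n).P) → ℤ) (p : II × Bool) (x y : ℤ × ℤ)
    (h1 : mnoV W p.1 (x + y) = mnoV W p.1 x)
    (h2 : ((gpos p.1 y : ℤ) : ZMod ((B p.1).P p.2)) = 0) :
    x + y ∈ mnoW W act gg p ↔ x ∈ mnoW W act gg p := by
  rw [mnoW, Set.mem_ofPred_eq, Set.mem_ofPred_eq, h1, gpos_add, Int.cast_add, h2, add_zero]

theorem mnoW_card (act : (n : II) → Bool → (ℤ → KK (B n).m (B n).P) → Prop)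
    (gg : (n : II) → Bool → (ℤ → KK (B n).m (B n).P) → ℤ) (p : II × Bool) (x : ℤ × ℤ)
    (s : Finset ℕ) (hs : ∀ k ∈ s, k < (B p.1).P p.2 ∧ x + (k : ℤ) • gdir p.1 ∈ mnoW W act gg p) :
    s.card ≤ 1 := by
  rw [Finset.card_le_one]
  intro a ha b hb
  obtain ⟨ha1, -, ha2⟩ := hs a ha
  obtain ⟨hb1, -, hb2⟩ := hs b hb
  rw [mnoV_dir, gpos_dir] at ha2 hb2
  have h := ha2.trans hb2.symm
  rw [Int.cast_add, Int.cast_add, add_right_inj, Int.cast_natCast, Int.cast_natCast,
    ZMod.natCast_eq_natCast_iff'] at h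
  rwa [Nat.mod_eq_of_lt ha1, Nat.mod_eq_of_lt hb1] at h

theorem decF_congr {a a' : Bt → Bool} (j : Fin 9) (h : ∀ b, a (j, b) = a' (j, b)) :
    decF a j = decF a' j := by
  unfold decF
  rw [funext h]

end MNo

/-- non-existence of periodic solutions -/
theorem fam_no (B : II → Blk) (hB : Good B) (A : Set ((ℤ × ℤ) × GF B)) (hper : PerSet A)
    (hA : ∀ t ∈ GFam B gdir Cls, Solves A t) : False := by
  classical
  obtain ⟨W, hW1, hW2, hW3⟩ := global_no B gdir Cls A hA
  obtain ⟨Λ, hΛ, hAΛ⟩ := hper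
  -- the period
  set T : ℕ := Λ.index * ∏ n : II, ∏ i : Bool, (B n).P i with hTdef
  have hPpos : ∀ n i, 0 < (B n).P i := fun n i => (Nat.zero_lt_one).trans ((B n).hP i)
  have hTpos : 0 < T := by
    refine Nat.mul_pos (Nat.pos_of_ne_zero hΛ.index_ne_zero) ?_
    exact Finset.prod_pos fun n _ => Finset.prod_pos fun i _ => hPpos n i
  have hTdvd : ∀ n i, (B n).P i ∣ T := fun n i =>
    ((Finset.dvd_prod_of_mem (fun i => (B n).P i) (Finset.mem_univ i)).trans
      (Finset.dvd_prod_of_mem (fun n => ∏ i : Bool, (B n).P i) (Finset.mem_univ n))).trans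
      (Dvd.intro_left _ rfl)
  have hT : ∀ n x (u : ℤ × ℤ), W n (x + (T : ℤ) • u) = W n x := by
    intro n x u
    refine hW3 _ (fun a => hAΛ _ ?_ a) n x
    have h1 := Λ.nsmul_index_mem ((((∏ n : II, ∏ i : Bool, (B n).P i : ℕ) : ℤ) • u, 0) :
      (ℤ × ℤ) × GF B)
    have h2 : Λ.index • ((((∏ n : II, ∏ i : Bool, (B n).P i : ℕ) : ℤ) • u, 0) :
      (ℤ × ℤ) × GF B) = ((T : ℤ) • u, 0) := by
      rw [Prod.smul_mk, smul_zero, hTdef, Nat.cast_mul, mul_smul, natCast_zsmul, natCast_zsmul]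
    rwa [h2] at h1
  have hVT := fun n x u => mnoV_per W hT n x u
  have hsol : ∀ n x, ∀ t ∈ (B n).T, Solves (Gr (mnoV W n x)) t := fun n x t ht =>
    hW1 n t ht (mnoBase n x)
  -- data of the bit lines
  have hbit : ∀ n : Bt, ∀ x, ∃ (st : Bool) (g : ℤ), mnoQ (B := B) (some n) st g (mnoV W (some n) x) := by
    intro n x
    obtain ⟨st, g, h⟩ := (hB.bit n).1 (mnoV W (some n) x) (hsol (some n) x)
    obtain ⟨g', hg'⟩ := ZMod.intCast_surjective g
    exact ⟨st, g', fun ξ hξ => by rw [h ξ hξ, hg']⟩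
  obtain ⟨st, hst⟩ : ∃ st : (n : Bt) → (ℤ → KK (B (some n)).m (B (some n)).P) → Bool,
      ∀ n x, ∃ g : ℤ, mnoQ (B := B) (some n) (st n (mnoV W (some n) x)) g (mnoV W (some n) x) := by
    refine ⟨fun n V => if h : ∃ (st : Bool) (g : ℤ), mnoQ (B := B) (some n) st g V then h.choose
      else false, fun n x => ?_⟩
    beta_reduce
    rw [dif_pos (hbit n x)]
    exact (hbit n x).choose_spec
  -- data of the seed line
  obtain ⟨pr, hpr⟩ := hB.seed
  have hseed1 : ∀ x, (∀ ξ, pr (mnoV W none x (ξ + 4)) = pr (mnoV W none x ξ) + 1) ∧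
      ∃ (e : Bool → ZMod 2) (g : Bool → ℤ), ∀ i ξ, pr (mnoV W none x ξ) = e i →
        Neu (B none).θ (mnoV W none x) i ξ →
        (ξ : ZMod ((B none).P i)) = ((g i : ℤ) : ZMod ((B none).P i)) := by
    intro x
    obtain ⟨h1, e, g, h2⟩ := hpr.1 (mnoV W none x) (hsol none x)
    refine ⟨h1, e, fun i => (ZMod.intCast_surjective (g i)).choose, fun i ξ h3 h4 => ?_⟩
    rw [(ZMod.intCast_surjective (g i)).choose_spec]
    exact h2 i ξ h3 h4
  obtain ⟨e, he⟩ : ∃ e : (ℤ → KK (B none).m (B none).P) → Bool → ZMod 2, ∀ x,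
      ∃ g : Bool → ℤ, ∀ i ξ, pr (mnoV W none x ξ) = e (mnoV W none x) i →
        Neu (B none).θ (mnoV W none x) i ξ →
        (ξ : ZMod ((B none).P i)) = ((g i : ℤ) : ZMod ((B none).P i)) := by
    refine ⟨fun V => if h : ∃ (e : Bool → ZMod 2) (g : Bool → ℤ), ∀ i ξ, pr (V ξ) = e i →
      Neu (B none).θ V i ξ → (ξ : ZMod ((B none).P i)) = ((g i : ℤ) : ZMod ((B none).P i))
      then h.choose else fun _ => 0, fun x => ?_⟩
    beta_reduce
    rw [dif_pos (hseed1 x).2]
    exact (hseed1 x).2.choose_spec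
  -- positions
  obtain ⟨gg, hgg1, hgg2⟩ : ∃ gg : (n : II) → Bool → (ℤ → KK (B n).m (B n).P) → ℤ,
      (∀ n x, mnoQ (B := B) (some n) (st n (mnoV W (some n) x))
        (gg (some n) (st n (mnoV W (some n) x)) (mnoV W (some n) x)) (mnoV W (some n) x)) ∧
      (∀ x i ξ, pr (mnoV W none x ξ) = e (mnoV W none x) i →
        Neu (B none).θ (mnoV W none x) i ξ → (ξ : ZMod ((B none).P i)) =
          ((gg none i (mnoV W none x) : ℤ) : ZMod ((B none).P i))) := by
    refine ⟨fun n i V => match n, V with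
      | none, V => if h : ∃ g : Bool → ℤ, ∀ i ξ, pr (V ξ) = e V i →
          Neu (B none).θ V i ξ → (ξ : ZMod ((B none).P i)) = ((g i : ℤ) : ZMod ((B none).P i))
          then h.choose i else 0
      | some n, V => if h : ∃ g : ℤ, mnoQ (B := B) (some n) (st n V) g V then h.choose else 0,
      fun n x => ?_, fun x i ξ => ?_⟩
    · show mnoQ (B := B) (some n) (st n (mnoV W (some n) x)) (if h : ∃ g : ℤ, mnoQ (B := B) (some n)
        (st n (mnoV W (some n) x)) g (mnoV W (some n) x) then h.choose else 0)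
        (mnoV W (some n) x)
      rw [dif_pos (hst n x)]
      exact (hst n x).choose_spec
    · show _ → _ → _ = (((if h : ∃ g : Bool → ℤ, ∀ i ξ, pr (mnoV W none x ξ) = e (mnoV W none x) i →
          Neu (B none).θ (mnoV W none x) i ξ → (ξ : ZMod ((B none).P i)) =
            ((g i : ℤ) : ZMod ((B none).P i)) then h.choose i else 0 : ℤ) : ZMod ((B none).P i)))
      rw [dif_pos (he x)]
      exact (he x).choose_spec i ξ
  -- activity
  let act : (n : II) → Bool → (ℤ → KK (B n).m (B n).P) → Prop := fun n i V => match n, V with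
    | none, _ => True
    | some n, V => st n V = i
  let a : ℤ × ℤ → Bt → Bool := fun x n => st n (mnoV W (some n) x)
  have hwild1 : ∀ (n : Bt) x, gNeu B gdir W (some n) (a x n) x →
      x ∈ mnoW W act gg (some n, a x n) := fun n x h =>
    ⟨rfl, hgg1 n x _ (mno_neu W h)⟩
  have hwild2 : ∀ (i : Bool) x, pr (W none x) = e (mnoV W none x) i → gNeu B gdir W none i x →
      x ∈ mnoW W act gg (none, i) := fun i x h1 h2 =>
    ⟨trivial, hgg2 x i _ (by rw [mnoV_gpos0]; exact h1) (mno_neu W h2)⟩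
  refine robust_csp (I := II × Bool) T hTpos (fun j x => decF (a x) j) ?_ ?_
    (fun p => mnoW W act gg p) (fun p => gdir p.1) (fun p => (B p.1).P p.2)
    (fun p => (B p.1).P p.2) (fun p => hB.odd p.1 p.2) ?_ ?_ ?_ ?_ ?_
    (fun x => pr (W none x)) ?_ ?_ (fun i x => e (mnoV W none x) i) ?_ ?_ ?_
  · -- invariance of the states
    intro j x
    refine decF_congr j fun b => ?_
    have h := mnoV_dir W (some (j, b)) x 1
    rw [one_smul] at h
    exact congrArg (st (j, b)) h
  · intro j x u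
    exact decF_congr j fun b => congrArg (st (j, b)) (hVT (some (j, b)) x u)
  · -- periodicity of the wild sets
    intro p x u
    refine mnoW_add W act gg p x _ (hVT _ x u) ?_
    rw [mno_gpos_zsmul, Int.cast_mul, Int.cast_natCast,
      (ZMod.natCast_eq_zero_iff _ _).2 (hTdvd p.1 p.2), zero_mul]
  · intro p x
    refine mnoW_add W act gg p x _ (mnoV_dir W _ x _) ?_
    rw [mno_gpos_zsmul, Int.cast_mul, Int.cast_natCast, ZMod.natCast_self, zero_mul]
  · intro p x
    refine (Nat.mul_le_mul_left _ (mnoW_card W act gg p x _ fun k hk => ?_)).trans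
      (le_of_eq (mul_one _))
    rw [Finset.mem_filter, Finset.mem_range] at hk
    exact hk
  · intro p
    have h : Fintype.card (II × Bool) = 56 := by decide
    rw [h]
    exact hB.big p.1 p.2
  · -- relations
    intro x hx
    by_contra hrel
    obtain ⟨i, hi⟩ := hW2 (cl0 (a x)) (Or.inl ⟨a x, hrel, rfl⟩) x
    exact hx _ (hwild1 _ x hi)
  · intro x u
    show pr (W none (x + (T : ℤ) • u)) = pr (W none x)
    rw [hT]
  · intro x
    have h := (hseed1 x).1 (gpos none x)
    rw [mnoV_gpos, mnoV_gpos0] at h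
    have h4 : ((4 : ℤ) • gdir none) = (4, 0) := by
      show ((4 : ℤ) • ((1, 0) : ℤ × ℤ)) = (4, 0)
      rfl
    rw [h4] at h
    exact h
  · intro i x
    have h := mnoV_dir W none x 1
    rw [one_smul] at h
    exact congrArg (fun V => e V i) h
  · intro i x u
    exact congrArg (fun V => e V i) (hVT none x u)
  · -- seed regions
    intro x hx i hs
    by_contra hreg
    obtain ⟨k, hk⟩ := hW2 (cl1 i (a x)) (Or.inr ⟨i, a x, hreg, rfl⟩) x
    by_cases hk27 : (k : ℕ) < 27
    · have h1 : (cl1 i (a x)).c k = some (finProdFinEquiv.symm (⟨k, hk27⟩ : Fin (9 * 3))) :=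
        dif_pos hk27
      have h2 : (cl1 i (a x)).l k = a x (finProdFinEquiv.symm (⟨k, hk27⟩ : Fin (9 * 3))) :=
        dif_pos hk27
      rw [h1, h2] at hk
      exact hx _ (hwild1 _ x hk)
    · have h1 : (cl1 i (a x)).c k = none := dif_neg hk27
      have h2 : (cl1 i (a x)).l k = i := dif_neg hk27
      rw [h1, h2] at hk
      exact hx _ (hwild2 i x hs hk)

end Vale.Agent.P043.Z
end
end

section

section

/-!
# The surjection
-/

namespace Vale.Agent.P043.Z

open Vale.Agent.P043 Vale.Agent.P043.B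

/-- the moduli -/
def msurjQ (B : II → Blk) : II × Option Bool → ℕ
  | (n, none) => (B n).m ^ 3
  | (n, some i) => (B n).P i

/-- the residues -/
def msurjC (B : II → Blk) (t : GF B) : (κ : II × Option Bool) → ZMod (msurjQ B κ)
  | (n, none) => (t n).1
  | (n, some i) => (t n).2 i

theorem msurj_ne (B : II → Blk) : ∀ κ, msurjQ B κ ≠ 0
  | (n, none) => by
    have := (B n).hm
    exact pow_ne_zero 3 (by omega : (B n).m ≠ 0)
  | (n, some i) => by
    have := (B n).hP i
    exact (by omega : (B n).P i ≠ 0)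

theorem msurj_co (B : II → Blk) (hB : Good B) :
    Pairwise fun κ κ' => Nat.Coprime (msurjQ B κ) (msurjQ B κ') := by
  rintro ⟨n, i⟩ ⟨n', i'⟩ h
  cases i with
  | none =>
    cases i' with
    | none => exact Nat.Coprime.pow 3 3 (hB.mm n n' fun e => h (by rw [e]))
    | some i' => exact Nat.Coprime.pow_left 3 (hB.mP n n' i')
  | some i =>
    cases i' with
    | none => exact (Nat.Coprime.pow_left 3 (hB.mP n' n i)).symm
    | some i' => exact hB.PP n n' i i' fun e => h (by
        rw [Prod.mk.injEq] at e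
        rw [e.1, e.2])

/-- the surjection -/
theorem exists_surj3 {d : ℕ} (hd : 3 ≤ d) (B : II → Blk) (hB : Good B) :
    ∃ φ : (Fin d → ℤ) →+ (ℤ × ℤ) × GF B, Function.Surjective φ ∧ φ.ker.FG := by
  let i0 : Fin d := ⟨0, by omega⟩
  let i1 : Fin d := ⟨1, by omega⟩
  let i2 : Fin d := ⟨2, by omega⟩
  let φ : (Fin d → ℤ) →+ (ℤ × ℤ) × GF B :=
    { toFun := fun x => ((x i0, x i1), fun n =>
        ((x i2 : ZMod ((B n).m ^ 3)), fun i => (x i2 : ZMod ((B n).P i))))
      map_zero' := by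
        ext <;> simp
      map_add' := by
        intro x y
        ext <;> simp }
  refine ⟨φ, ?_, ?_⟩
  · have crt : ∀ c : (∀ κ, ZMod (msurjQ B κ)), ∃ z : ℤ, ∀ κ, (z : ZMod (msurjQ B κ)) = c κ := by
      intro c
      let r := Nat.chineseRemainderOfFinset (fun κ => (c κ).val) (msurjQ B)
        (Finset.univ : Finset (II × Option Bool))
        (fun κ _ => msurj_ne B κ) (fun i _ j _ hij => msurj_co B hB hij)
      refine ⟨((r : ℕ) : ℤ), fun κ => ?_⟩
      have h1 := r.2 κ (Finset.mem_univ κ)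
      have h2 : (((r : ℕ) : ℕ) : ZMod (msurjQ B κ)) = (((c κ).val : ℕ) : ZMod (msurjQ B κ)) :=
        (ZMod.natCast_eq_natCast_iff _ _ _).2 h1
      have : NeZero (msurjQ B κ) := ⟨msurj_ne B κ⟩
      rw [ZMod.natCast_val, ZMod.cast_id', id] at h2
      rw [Int.cast_natCast]
      exact h2
    rintro ⟨⟨a, b⟩, c⟩
    obtain ⟨z, hz⟩ := crt (msurjC B c)
    have n10 : i1 ≠ i0 := by simp only [ne_eq, Fin.ext_iff, one_ne_zero, not_false_eq_true, i1, i0]
    have n20 : i2 ≠ i0 := by simp [i0, i2, Fin.ext_iff]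
    have n21 : i2 ≠ i1 := by simp only [ne_eq, Fin.ext_iff, OfNat.ofNat_ne_one, not_false_eq_true, i2, i1]
    refine ⟨fun i => if i = i0 then a else if i = i1 then b else z, ?_⟩
    refine Prod.ext (Prod.ext ?_ ?_) ?_
    · change (if i0 = i0 then a else if i0 = i1 then b else z) = a
      rw [if_pos rfl]
    · change (if i1 = i0 then a else if i1 = i1 then b else z) = b
      rw [if_neg n10, if_pos rfl]
    · funext n
      refine Prod.ext ?_ ?_
      · change (((if i2 = i0 then a else if i2 = i1 then b else z : ℤ)) :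
          ZMod ((B n).m ^ 3)) = (c n).1
        rw [if_neg n20, if_neg n21]
        exact hz (n, none)
      · funext i
        change (((if i2 = i0 then a else if i2 = i1 then b else z : ℤ)) :
          ZMod ((B n).P i)) = (c n).2 i
        rw [if_neg n20, if_neg n21]
        exact hz (n, some i)
  · have h1 : IsNoetherian ℤ (Fin d → ℤ) := inferInstance
    have h2 := IsNoetherian.noetherian (AddSubgroup.toIntSubmodule φ.ker)
    rw [← φ.ker.toIntSubmodule_toAddSubgroup, ← Submodule.fg_iff_addSubgroup_fg]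
    exact h2

end Vale.Agent.P043.Z
end
end

section

section

/-!
# The periodic tiling conjecture fails in `ℤ^d`, `d ≥ 3`
-/

namespace Vale.Agent.P043.Z

open Vale.Agent.P043 Vale.Agent.P043.B

/-- the family of tiles of a good system of blocks -/
theorem mainFam (B : II → Blk) (hB : Good B) :
    (GFam B gdir Cls).Finite ∧ (GFam B gdir Cls).Nonempty ∧ AperSys (GFam B gdir Cls) := by
  refine ⟨GFam_finite B gdir Cls Cls_finite, ⟨gBase B, ?_⟩, fam_yes B hB, ?_⟩
  · exact Or.inl (Or.inl (Or.inl (Or.inl rfl)))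
  · rintro ⟨A, hper, hA⟩
    exact fam_no B hB A hper hA

theorem main_finite (B : II → Blk) : Finite (GJ B) := by
  have h : ∀ n, Finite (KK (B n).m (B n).P) := by
    intro n
    have h1 : NeZero ((B n).m ^ 2) := ⟨pow_ne_zero 2 (by have := (B n).hm; omega)⟩
    have h2 : ∀ i, NeZero ((B n).P i) := fun i => ⟨by have := (B n).hP i; omega⟩
    infer_instance
  infer_instance

/-- one parametrized tile of `ℤ^d`, `d ≥ 3` -/
theorem single_aper3 (d : ℕ) (hd : 3 ≤ d) :
    ∃ (P : Type) (_ : Finite P) (τ : P → (Fin d → ℤ)), AperSys {τ} := by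
  obtain ⟨B, hB⟩ := exists_good
  obtain ⟨hfin, hne, hS⟩ := mainFam B hB
  obtain ⟨φ, hφ, hker⟩ := exists_surj3 hd B hB
  obtain ⟨S', hfin', hne', hS'⟩ := lift_system φ hφ hker _ hfin hne hS
  have : Finite (GJ B) := main_finite B
  have h0 : 0 < d := by omega
  let i0 : Fin d := ⟨0, h0⟩
  let ι : (Fin d → ℤ) →+ (Fin d → ℤ) :=
    { toFun := fun v i => if i = i0 then 4 * v i else v i
      map_zero' := by
        ext i
        simp
      map_add' := by
        intro v v'
        ext i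
        simp only [Pi.add_apply]
        split_ifs <;> ring }
  have hι : ∀ v i, ι v i = if i = i0 then 4 * v i else v i := fun _ _ => rfl
  have hsm : ∀ (m : Fin 4) i, ((m : ℕ) • (Pi.single i0 (1 : ℤ) : Fin d → ℤ)) i =
      if i = i0 then ((m : ℕ) : ℤ) else 0 := by
    intro m i
    rw [Pi.smul_apply, Pi.single_apply]
    split_ifs <;> simp
  refine single_of_system ι (Pi.single i0 1) ?_ S' hfin' hne' hS'
  intro u
  have hm : ∃ (q : ℤ) (m : Fin 4), u i0 = 4 * q + (m : ℕ) := by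
    refine ⟨u i0 / 4, ⟨(u i0 % 4).toNat, ?_⟩, ?_⟩
    · omega
    · simp only
      omega
  obtain ⟨q, m, hqm⟩ := hm
  refine ⟨(fun i => if i = i0 then q else u i, m), ?_, ?_⟩
  · ext i
    rw [Pi.add_apply, hι, hsm]
    by_cases hi : i = i0
    · subst hi
      simp [hqm]
    · simp [hi]
  · rintro ⟨v, m'⟩ h
    simp only at h
    have h1 := congrFun h i0
    rw [Pi.add_apply, hι, hsm, if_pos rfl, if_pos rfl] at h1
    have hm1 := m.2
    have hm2 := m'.2
    have h2 : m' = m := by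
      ext
      omega
    subst h2
    refine Prod.ext (funext fun i => ?_) rfl
    simp only
    by_cases hi : i = i0
    · subst hi
      rw [if_pos rfl]
      omega
    · rw [if_neg hi]
      have h3 := congrFun h i
      rw [Pi.add_apply, hι, hsm, if_neg hi, if_neg hi, add_zero] at h3
      exact h3

theorem perSet_of_isPeriodic3 {G : Type} [AddCommGroup G] {A : Set G} (h : IsPeriodic A) :
    PerSet A := by
  obtain ⟨Λ, hΛ, hA⟩ := h
  refine ⟨Λ, hΛ, fun v hv a => ?_⟩
  constructor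
  · intro ha
    rw [← hA v hv] at ha
    obtain ⟨b, hb, hba⟩ := ha
    have : b = a := add_right_cancel hba
    rwa [← this]
  · intro ha
    rw [← hA v hv]
    exact ⟨a, ha, rfl⟩

theorem solves_of_isTiling3 {G P : Type} [AddCommGroup G] {A : Set G} {F : Finset G}
    {τ : P → G} (hτ : Function.Injective τ) (hF : ∀ g, g ∈ F ↔ ∃ p, τ p = g)
    (h : IsTiling A F) : Solves A τ := by
  intro g
  obtain ⟨⟨a, f⟩, ⟨ha, hf, haf⟩, huniq⟩ := h g
  simp only at ha hf haf
  obtain ⟨p, rfl⟩ := (hF f).1 hf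
  refine ⟨p, ?_, ?_⟩
  · change g - τ p ∈ A
    rw [← haf, add_sub_cancel_right]
    exact ha
  · intro p' hp'
    have h1 := huniq (g - τ p', τ p') ⟨hp', (hF _).2 ⟨p', rfl⟩, sub_add_cancel _ _⟩
    exact hτ (Prod.ext_iff.1 h1).2

theorem isTiling_of_solves3 {G P : Type} [AddCommGroup G] {A : Set G} {F : Finset G}
    {τ : P → G} (hF : ∀ g, g ∈ F ↔ ∃ p, τ p = g)
    (h : Solves A τ) : IsTiling A F := by
  intro g
  obtain ⟨p, hp, huniq⟩ := h g
  refine ⟨(g - τ p, τ p), ⟨hp, (hF _).2 ⟨p, rfl⟩, sub_add_cancel _ _⟩, ?_⟩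
  rintro ⟨a, f⟩ ⟨ha, hf, haf⟩
  simp only at ha hf haf
  obtain ⟨p', rfl⟩ := (hF f).1 hf
  have h1 : p' = p := huniq p' (by
    change g - τ p' ∈ A
    rw [← haf, add_sub_cancel_right]
    exact ha)
  subst h1
  refine Prod.ext ?_ rfl
  change a = g - τ p'
  rw [← haf, add_sub_cancel_right]

/-- The periodic tiling conjecture fails in `ℤ^d` for every `d ≥ 3`. -/
theorem ptc_fails3 (d : ℕ) (hd : 3 ≤ d) :
    ∃ F : Finset (Fin d → ℤ), F.Nonempty ∧ (∃ A : Set (Fin d → ℤ), IsTiling A F) ∧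
      ∀ A : Set (Fin d → ℤ), IsTiling A F → ¬ IsPeriodic A := by
  classical
  obtain ⟨P, hP, τ, ⟨A, hA⟩, hno⟩ := single_aper3 d hd
  have hA := hA τ rfl
  have := Fintype.ofFinite P
  obtain ⟨p0, hp0, -⟩ := hA 0
  have hinj : Function.Injective τ := by
    intro p p' hpp
    obtain ⟨q, -, hq⟩ := hA ((0 - τ p0) + τ p)
    have h1 : p = q := hq p (by simpa only [zero_sub, add_sub_cancel_right] using hp0)
    have h2 : p' = q := hq p' (by
      change (0 - τ p0) + τ p - τ p' ∈ A
      rw [hpp]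
      simpa only [zero_sub, add_sub_cancel_right] using hp0)
    rw [h1, h2]
  have hF : ∀ g, g ∈ Finset.univ.image τ ↔ ∃ p, τ p = g := by
    intro g
    simp only [Finset.mem_image, Finset.mem_univ, true_and]
  refine ⟨Finset.univ.image τ, ⟨τ p0, (hF _).2 ⟨p0, rfl⟩⟩, ⟨A, isTiling_of_solves3 hF hA⟩, ?_⟩
  intro A' hA' hper
  refine hno ⟨A', perSet_of_isPeriodic3 hper, fun τ' hτ' => ?_⟩
  rw [Set.mem_singleton_iff] at hτ'
  subst hτ'
  exact solves_of_isTiling3 hinj hF hA'

end Vale.Agent.P043.Z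
end
end
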